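import Crest.Agent.R213.Defs

/-!
# Row 213, Part A: definitions of the stationary problem (interface between A4/A5 and A-FOUR)
-/

set_option autoImplicit false

open Set MeasureTheory Filter Topology

noncomputable section

namespace Crest.Agent.R213.A

/-- Complex test functions on `[0,∞)`: smooth up to `0`, vanishing for large `y`
(values on the negative axis are irrelevant). -/
def DD (P : ℝ → ℂ) : Prop :=
  ContDiffOn ℝ (⊤ : ℕ∞) P (Ici 0) ∧ ∃ R : ℝ, ∀ y, R ≤ y → P y = 0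

/-- the weight `(1+y²)^60`. -/
def w60 (y : ℝ) : ℝ := (1 + y ^ 2) ^ 60

/-- the stationary form with exponent `α = 65/2 - κ` and frequency `ξ`. -/
def stForm (g : ℝ → ℝ) (κ ξ : ℝ) (V P : ℝ → ℂ) : ℂ :=
  ∫ y in Ioi (0 : ℝ), (y : ℂ) ^ 9 *
    (starRingEnd ℂ (V y) * (-((ξ : ℂ) * Complex.I) * P y - (65 / 2 - (κ : ℂ)) * P y
        - ((y : ℂ) / 2) * deriv P y)
      + ((y * g y : ℝ) : ℂ) ^ 2 * starRingEnd ℂ (deriv (deriv V) y) * deriv (deriv P) y)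

/-- squared norm of `V` (test side) -/
def stX (g : ℝ → ℝ) (V : ℝ → ℂ) : ℝ :=
  ∫ y in Ioi (0 : ℝ), y ^ 9 * (w60 y)⁻¹ * (((y * g y) ^ 2) * ‖deriv (deriv V) y‖ ^ 2 + ‖V y‖ ^ 2)

/-- squared norm of `P` (solution side) -/
def stY (g : ℝ → ℝ) (P : ℝ → ℂ) : ℝ :=
  ∫ y in Ioi (0 : ℝ), y ^ 9 * w60 y * (((y * g y) ^ 2) * ‖deriv (deriv P) y‖ ^ 2 + ‖P y‖ ^ 2)

/-- The stationary estimate on the line `κ` (uniform in the frequency). -/
def StEst (g : ℝ → ℝ) (κ C : ℝ) : Prop :=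
  ∀ (ξ : ℝ) (P : ℝ → ℂ), DD P → ∀ S : ℝ, 0 ≤ S →
    (∀ V : ℝ → ℂ, DD V → ‖stForm g κ ξ V P‖ ^ 2 ≤ S * stX g V) → stY g P ≤ C * S

end Crest.Agent.R213.A
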