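import Crest.Agent.R213.Defs
import Crest.Agent.R213.A.StDefs

/-!
# Row 213, PART A (weak solutions): shared definitions
World 1 = original variables `(τ,x) ∈ (0,1)×[0,L]`; world 2 = inner variables `(s,y) ∈ ℝ×[0,∞)`,
`s = -log τ`, `y = x/√τ`, `ψ = τ^{-(65/2-κ)} P(s,y)`, `u = τ^{55/2-κ} V(s,y)`;
static = complex functions of `y ∈ [0,∞)` (Fourier variable `ξ` dual to `s`).
-/

set_option autoImplicit false

open Set MeasureTheory Filter Topology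

noncomputable section

namespace Crest.Agent.R213.A

/-! ### World 1 -/

/-- the form `B(u,ψ) = ∫∫ x⁹ (ψ_τ u + φ² ψ_xx u_xx)` -/
def BB (L : ℝ) (φ u ψ : ℝ → ℝ → ℝ) : ℝ :=
  II L (fun τ x => x ^ 9 * (dt ψ τ x * u τ x +
    φ τ x ^ 2 * dx L (dx L ψ) τ x * dx L (dx L u) τ x))

/-- `‖u‖² = ∫∫ x⁹ (W (φ u_xx)² + (W/τ) u²)` -/
def nX (κ L : ℝ) (φ u : ℝ → ℝ → ℝ) : ℝ :=
  II L (fun τ x => x ^ 9 * (Wt κ τ x * (φ τ x * dx L (dx L u) τ x) ^ 2 +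
    Wt κ τ x / τ * u τ x ^ 2))

/-- `‖ψ‖² = ∫∫ x⁹ (W⁻¹ (φ ψ_xx)² + (τ W)⁻¹ ψ²)` -/
def nY (κ L : ℝ) (φ ψ : ℝ → ℝ → ℝ) : ℝ :=
  II L (fun τ x => x ^ 9 * ((φ τ x * dx L (dx L ψ) τ x) ^ 2 / Wt κ τ x +
    ψ τ x ^ 2 / (τ * Wt κ τ x)))

/-- the a priori estimate on the full domain -/
def APE (κ L C : ℝ) (φ : ℝ → ℝ → ℝ) : Prop :=
  ∀ ψ, Tst L ψ → ∀ S, 0 ≤ S →
    (∀ u, Tst L u → BB L φ u ψ ^ 2 ≤ S * nX κ L φ u) → nY κ L φ ψ ≤ C * S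

/-- the a priori estimate for `ψ` supported in `x ≤ L/16`, uniform in `L` and the background -/
def InnerOrig (c0 C0 : ℝ) (g : ℝ → ℝ) (κ C : ℝ) : Prop :=
  ∀ L, 8 ≤ L → ∀ φ m, Bg c0 C0 g L φ m → ∀ ψ, Tst L ψ → (∀ τ x, L / 16 ≤ x → ψ τ x = 0) →
    ∀ S, 0 ≤ S → (∀ u, Tst L u → BB L φ u ψ ^ 2 ≤ S * nX κ L φ u) → nY κ L φ ψ ≤ C * S

/-! ### Static: see `A/StDefs.lean` (`DD`, `w60`, `stForm`, `stX`, `stY`, `StEst`) -/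

/-! ### World 2 -/

/-- real functions, smooth on `ℝ × [0,∞)`, bounded support -/
def DR (P : ℝ → ℝ → ℝ) : Prop :=
  ContDiffOn ℝ (⊤ : ℕ∞) (fun p : ℝ × ℝ => P p.1 p.2) (univ ×ˢ Ici 0) ∧
    ∃ R : ℝ, ∀ s y, (R < |s| ∨ R < y) → P s y = 0

/-- the form in inner variables -/
def BIn (g : ℝ → ℝ) (κ : ℝ) (V P : ℝ → ℝ → ℝ) : ℝ :=
  ∫ p in (univ ×ˢ Ioi 0 : Set (ℝ × ℝ)), p.2 ^ 9 *
    (V p.1 p.2 * (-(deriv (fun s => P s p.2) p.1) - (65 / 2 - κ) * P p.1 p.2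
        - p.2 / 2 * deriv (P p.1) p.2) +
      (p.2 * g p.2) ^ 2 * deriv (deriv (V p.1)) p.2 * deriv (deriv (P p.1)) p.2)

def nXI (g : ℝ → ℝ) (V : ℝ → ℝ → ℝ) : ℝ :=
  ∫ p in (univ ×ˢ Ioi 0 : Set (ℝ × ℝ)), p.2 ^ 9 / w60 p.2 *
    ((p.2 * g p.2) ^ 2 * deriv (deriv (V p.1)) p.2 ^ 2 + V p.1 p.2 ^ 2)

def nYI (g : ℝ → ℝ) (P : ℝ → ℝ → ℝ) : ℝ :=
  ∫ p in (univ ×ˢ Ioi 0 : Set (ℝ × ℝ)), p.2 ^ 9 * w60 p.2 *
    ((p.2 * g p.2) ^ 2 * deriv (deriv (P p.1)) p.2 ^ 2 + P p.1 p.2 ^ 2)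

/-- the inner space-time estimate -/
def InEst (g : ℝ → ℝ) (κ C : ℝ) : Prop :=
  ∀ P, DR P → ∀ S, 0 ≤ S → (∀ V, DR V → BIn g κ V P ^ 2 ≤ S * nXI g V) → nYI g P ≤ C * S

-- generate the equation lemmas here once (avoids name clashes between sibling modules)
theorem unfold_all (L κ ξ c0 C0 C : ℝ) (φ u ψ : ℝ → ℝ → ℝ) (g : ℝ → ℝ) (V P : ℝ → ℂ) (y : ℝ) :
    BB L φ u ψ = BB L φ u ψ ∧ nX κ L φ u = nX κ L φ u ∧ nY κ L φ u = nY κ L φ u ∧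
    (APE κ L C φ ↔ APE κ L C φ) ∧ (InnerOrig c0 C0 g κ C ↔ InnerOrig c0 C0 g κ C) ∧
    (DD V ↔ DD V) ∧ w60 y = w60 y ∧ stForm g κ ξ V P = stForm g κ ξ V P ∧ stX g V = stX g V ∧
    stY g V = stY g V ∧ (StEst g κ C ↔ StEst g κ C) ∧ (DR φ ↔ DR φ) ∧
    BIn g κ φ u = BIn g κ φ u ∧ nXI g φ = nXI g φ ∧ nYI g φ = nYI g φ ∧
    (InEst g κ C ↔ InEst g κ C) := by
  have h1 : BB L φ u ψ = BB L φ u ψ := by unfold BB; rfl
  have h2 : nX κ L φ u = nX κ L φ u := by unfold nX; rfl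
  have h3 : nY κ L φ u = nY κ L φ u := by unfold nY; rfl
  have h4 : APE κ L C φ ↔ APE κ L C φ := by unfold APE; rfl
  have h5 : InnerOrig c0 C0 g κ C ↔ InnerOrig c0 C0 g κ C := by unfold InnerOrig; rfl
  have h6 : DD V ↔ DD V := by unfold DD; rfl
  have h7 : w60 y = w60 y := by unfold w60; rfl
  have h8 : stForm g κ ξ V P = stForm g κ ξ V P := by unfold stForm; rfl
  have h9 : stX g V = stX g V := by unfold stX; rfl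
  have h10 : stY g V = stY g V := by unfold stY; rfl
  have h11 : StEst g κ C ↔ StEst g κ C := by unfold StEst; rfl
  have h12 : DR φ ↔ DR φ := by unfold DR; rfl
  have h13 : BIn g κ φ u = BIn g κ φ u := by unfold BIn; rfl
  have h14 : nXI g φ = nXI g φ := by unfold nXI; rfl
  have h15 : nYI g φ = nYI g φ := by unfold nYI; rfl
  have h16 : InEst g κ C ↔ InEst g κ C := by unfold InEst; rfl
  have h17 : II L u = II L u := by unfold II; rfl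
  have h18 : Tst L u ↔ Tst L u := by unfold Tst; rfl
  have h19 : Wt κ = Wt κ := by unfold Wt; rfl
  have h20 : N2 L u u = N2 L u u := by unfold N2; rfl
  have h21 : Wt' κ = Wt' κ := by unfold Wt'; rfl
  have h22 : Wt'' κ = Wt'' κ := by unfold Wt''; rfl
  have h23 : dx L u = dx L u := by unfold dx; rfl
  have h24 : dt u = dt u := by unfold dt; rfl
  have h25 : Sm univ L u ↔ Sm univ L u := by unfold Sm; rfl
  exact ⟨h1, h2, h3, h4, h5, h6, h7, h8, h9, h10, h11, h12, h13, h14, h15, h16⟩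

end Crest.Agent.R213.A
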