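import Crest.Agent.R213.A.ADefs

/-!
# Row 213, PART A: sub-interface (all `sorry`; NEVER import from a proof file)

`interp1` → `st_interp*`, `st_garding`, `st_mu` → (`st_rellich`, `spec_abstract`) → `inner_static`
→ `four` → `transfer` → `glue` → `ape` → `dual` → `weak_exists`.
Import only `A/ADefs.lean` (+ J0, A/Kit) and copy the statements.
-/

set_option autoImplicit false

open Set MeasureTheory Filter Topology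

noncomputable section

namespace Crest.Agent.R213.A

/-! ### A/Interp.lean (helper835): the one 1D interpolation inequality behind everything.
`∫p|v'|² = -Re∫p v̄ v'' - Re∫p' v̄ v'`. -/
theorem interp1 {b : ℝ} (hb : 0 < b) {v v1 v2 : ℝ → ℂ} {p p1 q1 q2 : ℝ → ℝ}
    (hv : ContinuousOn v (Icc 0 b)) (hv1 : ContinuousOn v1 (Icc 0 b))
    (hv2 : ContinuousOn v2 (Icc 0 b))
    (hdv : ∀ x ∈ Ioo 0 b, HasDerivAt v (v1 x) x) (hdv1 : ∀ x ∈ Ioo 0 b, HasDerivAt v1 (v2 x) x)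
    (hp : ContinuousOn p (Icc 0 b)) (hp1 : ContinuousOn p1 (Icc 0 b))
    (hdp : ∀ x ∈ Ioo 0 b, HasDerivAt p (p1 x) x) (h0 : p 0 = 0) (hbz : p b = 0 ∨ v b = 0)
    (hq1 : IntervalIntegrable q1 volume 0 b) (hq2 : IntervalIntegrable q2 volume 0 b)
    (hpn : ∀ x ∈ Ioo 0 b, 0 ≤ p x) (hq1n : ∀ x ∈ Ioo 0 b, 0 ≤ q1 x)
    (hq2n : ∀ x ∈ Ioo 0 b, 0 ≤ q2 x) {K : ℝ} (hK : 0 ≤ K)
    (h12 : ∀ x ∈ Ioo 0 b, p x ^ 2 ≤ q1 x * q2 x)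
    (h1 : ∀ x ∈ Ioo 0 b, p1 x ^ 2 ≤ K * p x * q1 x) {ε : ℝ} (hε : 0 < ε) :
    ∫ x in (0 : ℝ)..b, p x * ‖v1 x‖ ^ 2 ≤
      ε * (∫ x in (0 : ℝ)..b, q2 x * ‖v2 x‖ ^ 2) +
        (1 / ε + K) * ∫ x in (0 : ℝ)..b, q1 x * ‖v x‖ ^ 2 := by
  sorry

/-! ### A/StGard.lean: static interpolation and Gårding (on `[0,∞)`, `G y = y g y`) -/

theorem st_interpY {c0 C0 : ℝ} {g : ℝ → ℝ} (hg : Prof c0 C0 g) {ε : ℝ} (hε : 0 < ε) :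
    ∃ K : ℝ, 0 ≤ K ∧ ∀ P, DD P →
      ∫ y in Ioi (0 : ℝ), y ^ 9 * w60 y * ((y * g y) ^ 2 / (1 + y ^ 2)) * ‖deriv P y‖ ^ 2 ≤
        ε * (∫ y in Ioi (0 : ℝ), y ^ 9 * w60 y * (y * g y) ^ 2 * ‖deriv (deriv P) y‖ ^ 2) +
          K * ∫ y in Ioi (0 : ℝ), y ^ 9 * w60 y / (1 + y ^ 2) * ‖P y‖ ^ 2 := by
  sorry

theorem st_interpX {c0 C0 : ℝ} {g : ℝ → ℝ} (hg : Prof c0 C0 g) {ε : ℝ} (hε : 0 < ε) :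
    ∃ K : ℝ, 0 ≤ K ∧ ∀ P, DD P →
      ∫ y in Ioi (0 : ℝ), y ^ 9 / w60 y * ((y * g y) ^ 2 / (1 + y ^ 2)) * ‖deriv P y‖ ^ 2 ≤
        ε * (∫ y in Ioi (0 : ℝ), y ^ 9 / w60 y * (y * g y) ^ 2 * ‖deriv (deriv P) y‖ ^ 2) +
          K * ∫ y in Ioi (0 : ℝ), y ^ 9 / w60 y / (1 + y ^ 2) * ‖P y‖ ^ 2 := by
  sorry

theorem st_mu {c0 C0 : ℝ} {g : ℝ → ℝ} (hg : Prof c0 C0 g) :
    ∃ K : ℝ, 0 ≤ K ∧ ∀ P, DD P → DD (fun y => (w60 y : ℂ) * P y) ∧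
      stX g (fun y => (w60 y : ℂ) * P y) ≤ K * stY g P := by
  sorry

/-- test with `V = ν P`:
`Re a_{κ,ξ}(νP,P) = ∫ y⁹ ν (κ - 30/(1+y²)) |P|² + ∫ y⁹ G² Re((ν P̄)'' P'')`. -/
theorem st_garding {c0 C0 : ℝ} {g : ℝ → ℝ} (hg : Prof c0 C0 g) :
    ∃ c Y0 K : ℝ, 0 < c ∧ 0 < Y0 ∧ 0 ≤ K ∧ ∀ κ ∈ Icc (1 / 8 : ℝ) (1 / 4), ∀ ξ : ℝ, ∀ P, DD P →
      c * stY g P ≤ (stForm g κ ξ (fun y => (w60 y : ℂ) * P y) P).re +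
        K * ∫ y in Ioc 0 Y0, y ^ 9 * ‖P y‖ ^ 2 := by
  sorry

/-! ### A/StRell.lean: Rellich in elementary form (two Hardy inequalities near `0`,
Poincaré on short intervals in `[η,Y0]`) -/

theorem st_rellich {c0 C0 : ℝ} {g : ℝ → ℝ} (hg : Prof c0 C0 g) {ε Y0 : ℝ} (hε : 0 < ε)
    (hY : 0 < Y0) :
    ∃ (n : ℕ) (a b : Fin n → ℝ) (K : ℝ), 0 ≤ K ∧ (∀ i, 0 < a i ∧ a i < b i) ∧ ∀ P, DD P →
      ∫ y in Ioc 0 Y0, y ^ 9 * ‖P y‖ ^ 2 ≤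
        ε * stY g P + K * ∑ i, ‖∫ y in Ioc (a i) (b i), P y‖ ^ 2 := by
  sorry

/-! ### A/Spec.lean, A/Static.lean (helper838) -/

theorem inner_static {c0 C0 : ℝ} {g : ℝ → ℝ} (hg : Prof c0 C0 g) :
    ∃ κ ∈ Ioo (1 / 8 : ℝ) (1 / 4), ∃ C : ℝ, 0 ≤ C ∧ StEst g κ C := by
  sorry

/-! ### A/Four.lean (helper944) -/

theorem four {c0 C0 : ℝ} {g : ℝ → ℝ} (hg : Prof c0 C0 g) {κ C : ℝ} (hC : 0 ≤ C)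
    (h : StEst g κ C) : InEst g κ C := by
  sorry

/-! ### A/Transfer.lean (helper795) -/

theorem transfer {c0 C0 : ℝ} {g : ℝ → ℝ} (hg : Prof c0 C0 g) {κ C : ℝ} (hC : 0 ≤ C)
    (h : InEst g κ C) : ∃ C' : ℝ, 0 ≤ C' ∧ InnerOrig c0 C0 g κ C' := by
  sorry

/-! ### A/Gard.lean, A/Loc.lean, A/Glue.lean (helper835) -/

theorem garding_full {c0 C0 : ℝ} {g : ℝ → ℝ} (hg : Prof c0 C0 g) :
    ∃ c K C : ℝ, 0 < c ∧ 0 < K ∧ 0 ≤ C ∧ ∀ κ ∈ Ioo (1 / 8 : ℝ) (1 / 4), ∀ L, 8 ≤ L →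
      ∀ φ m, Bg c0 C0 g L φ m → ∀ ψ, Tst L ψ →
        Tst L (fun τ x => ψ τ x / Wt κ τ x) ∧
        nX κ L φ (fun τ x => ψ τ x / Wt κ τ x) ≤ C * nY κ L φ ψ ∧
        c * nY κ L φ ψ ≤ BB L φ (fun τ x => ψ τ x / Wt κ τ x) ψ +
          C * II L (fun τ x => if x ^ 2 ≤ K * τ then x ^ 9 * ψ τ x ^ 2 / (τ * Wt κ τ x) else 0) := by
  sorry

/-- localisation with `χ = χ0(x/L)`, `χ0 = 1` on `(-∞,1/32]`, `0` on `[1/16,∞)` -/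
theorem loc {c0 C0 : ℝ} {g : ℝ → ℝ} (hg : Prof c0 C0 g) {χ0 : ℝ → ℝ}
    (hχ : ContDiff ℝ (⊤ : ℕ∞) χ0) (h1 : ∀ r, r ≤ 1 / 32 → χ0 r = 1)
    (h2 : ∀ r, 1 / 16 ≤ r → χ0 r = 0) :
    ∃ C : ℝ, 0 ≤ C ∧ ∀ κ ∈ Ioo (1 / 8 : ℝ) (1 / 4), ∀ L, 8 ≤ L →
      ∀ φ m, Bg c0 C0 g L φ m → ∀ u ψ, Tst L u → Tst L ψ →
        Tst L (fun τ x => χ0 (x / L) * u τ x) ∧
        nX κ L φ (fun τ x => χ0 (x / L) * u τ x) ≤ C * nX κ L φ u ∧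
        (BB L φ u (fun τ x => χ0 (x / L) * ψ τ x) - BB L φ (fun τ x => χ0 (x / L) * u τ x) ψ) ^ 2
          ≤ C / L * nX κ L φ u * nY κ L φ ψ := by
  sorry

theorem glue {c0 C0 : ℝ} {g : ℝ → ℝ} (hg : Prof c0 C0 g) {κ C : ℝ}
    (hκ : κ ∈ Ioo (1 / 8 : ℝ) (1 / 4)) (hC : 0 ≤ C) (h : InnerOrig c0 C0 g κ C) :
    ∃ L1 C' : ℝ, 0 ≤ C' ∧ 8 ≤ L1 ∧ ∀ L ≥ L1, ∀ φ m, Bg c0 C0 g L φ m → APE κ L C' φ := by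
  sorry

/-! ### A/Dual.lean (helper872) -/

theorem dual {c0 C0 : ℝ} {g : ℝ → ℝ} {κ L C : ℝ} {φ m : ℝ → ℝ → ℝ} (hB : Bg c0 C0 g L φ m)
    (hC : 0 ≤ C) (h : APE κ L C φ) :
    ∀ E h : ℝ → ℝ → ℝ, Sm (Ioo 0 1) L E → Sm (Ioo 0 1) L h →
        N2 L (Wt'' κ) E < ⊤ → N2 L (Wt κ) h < ⊤ →
      ∃ b δ : ℝ → ℝ → ℝ, Measurable (fun p : ℝ × ℝ => b p.1 p.2) ∧
        Measurable (fun p : ℝ × ℝ => δ p.1 p.2) ∧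
        N2 L (Wt κ) b + N2 L (Wt' κ) δ ≤
          ENNReal.ofReal C * (N2 L (Wt κ) h + N2 L (Wt'' κ) E) ∧
        (∃ u : ℕ → ℝ → ℝ → ℝ, (∀ k, Tst L (u k)) ∧
          Tendsto (fun k => N2 L (Wt κ) (fun τ x => φ τ x * dx L (dx L (u k)) τ x - b τ x))
            atTop (𝓝 0) ∧
          Tendsto (fun k => N2 L (Wt' κ) (fun τ x => u k τ x - δ τ x)) atTop (𝓝 0)) ∧
        (∀ ψ, Tst L ψ →
          II L (fun τ x => x ^ 9 * (dt ψ τ x * δ τ x + φ τ x * dx L (dx L ψ) τ x * b τ x)) =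
            II L (fun τ x => x ^ 9 * (E τ x * ψ τ x + h τ x * φ τ x * dx L (dx L ψ) τ x))) := by
  sorry

/-! ### Assembly (helper795) -/

theorem weak_exists {c0 C0 : ℝ} {g : ℝ → ℝ} (hg : Prof c0 C0 g) :
    ∃ κ ∈ Ioo (1 / 8 : ℝ) (1 / 4), ∃ L1 C : ℝ, ∀ L ≥ L1, ∀ φ m : ℝ → ℝ → ℝ, Bg c0 C0 g L φ m →
      ∀ E h : ℝ → ℝ → ℝ, Sm (Ioo 0 1) L E → Sm (Ioo 0 1) L h →
        N2 L (Wt'' κ) E < ⊤ → N2 L (Wt κ) h < ⊤ →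
      ∃ b δ : ℝ → ℝ → ℝ, Measurable (fun p : ℝ × ℝ => b p.1 p.2) ∧
        Measurable (fun p : ℝ × ℝ => δ p.1 p.2) ∧
        N2 L (Wt κ) b + N2 L (Wt' κ) δ ≤
          ENNReal.ofReal C * (N2 L (Wt κ) h + N2 L (Wt'' κ) E) ∧
        (∃ u : ℕ → ℝ → ℝ → ℝ, (∀ k, Tst L (u k)) ∧
          Tendsto (fun k => N2 L (Wt κ) (fun τ x => φ τ x * dx L (dx L (u k)) τ x - b τ x))
            atTop (𝓝 0) ∧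
          Tendsto (fun k => N2 L (Wt' κ) (fun τ x => u k τ x - δ τ x)) atTop (𝓝 0)) ∧
        (∀ ψ, Tst L ψ →
          II L (fun τ x => x ^ 9 * (dt ψ τ x * δ τ x + φ τ x * dx L (dx L ψ) τ x * b τ x)) =
            II L (fun τ x => x ^ 9 * (E τ x * ψ τ x + h τ x * φ τ x * dx L (dx L ψ) τ x))) := by
  obtain ⟨κ, hκ, Cs, hCs, hS⟩ := inner_static hg
  obtain ⟨Ct, hCt, hT⟩ := transfer hg hCs (four hg hCs hS)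
  obtain ⟨L1, C, hC, _, hG⟩ := glue hg hκ hCt hT
  exact ⟨κ, hκ, L1, C, fun L hL φ m hB => dual hB hC (hG L hL φ m hB)⟩

end Crest.Agent.R213.A
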