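import Crest.Agent.R213.Defs

/-!
# Row 213, part A: calculus on the strip (self-contained)

Continuity / integrability / null Lagrangians for functions with compact support in `τ`.
-/

set_option autoImplicit false

open Set MeasureTheory Filter Topology

noncomputable section

namespace Crest.Agent.R213.A

variable {L : ℝ} {u v F : ℝ → ℝ → ℝ}

/-- the strip -/
abbrev I01 : Set ℝ := Ioo (0 : ℝ) 1

theorem isOpen_I01 : IsOpen I01 := isOpen_Ioo

theorem ud (hL : 0 < L) : UniqueDiffOn ℝ (I01 ×ˢ Icc 0 L) :=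
  isOpen_I01.uniqueDiffOn.prod (uniqueDiffOn_Icc hL)

theorem sm_contOn (hu : Sm I01 L u) :
    ContinuousOn (fun p : ℝ × ℝ => u p.1 p.2) (I01 ×ˢ Icc 0 L) :=
  ContDiffOn.continuousOn hu

theorem sm_diff (hu : Sm I01 L u) {t x : ℝ} (ht : t ∈ I01) (hx : x ∈ Icc 0 L) :
    DifferentiableWithinAt ℝ (fun p : ℝ × ℝ => u p.1 p.2) (I01 ×ˢ Icc 0 L) (t, x) :=
  (ContDiffOn.differentiableOn hu (by simp)) (t, x) ⟨ht, hx⟩

theorem sm_hasDx_aux (hu : Sm I01 L u) {t x : ℝ} (ht : t ∈ I01) (hx : x ∈ Icc 0 L) :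
    HasDerivWithinAt (fun y => u t y)
      (fderivWithin ℝ (fun p : ℝ × ℝ => u p.1 p.2) (I01 ×ˢ Icc 0 L) (t, x) (0, 1))
      (Icc 0 L) x := by
  have h1 : HasDerivWithinAt (fun y : ℝ => (t, y)) ((0 : ℝ), (1 : ℝ)) (Icc 0 L) x :=
    (hasDerivWithinAt_const x _ t).prodMk (hasDerivWithinAt_id x _)
  exact (sm_diff hu ht hx).hasFDerivWithinAt.comp_hasDerivWithinAt x h1
    (fun y hy => Set.mk_mem_prod ht hy)

theorem sm_hasDt_aux (hu : Sm I01 L u) {t x : ℝ} (ht : t ∈ I01) (hx : x ∈ Icc 0 L) :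
    HasDerivAt (fun r => u r x)
      (fderivWithin ℝ (fun p : ℝ × ℝ => u p.1 p.2) (I01 ×ˢ Icc 0 L) (t, x) (1, 0)) t := by
  have h1 : HasDerivWithinAt (fun r : ℝ => (r, x)) ((1 : ℝ), (0 : ℝ)) I01 t :=
    (hasDerivWithinAt_id t _).prodMk (hasDerivWithinAt_const t _ x)
  exact ((sm_diff hu ht hx).hasFDerivWithinAt.comp_hasDerivWithinAt t h1
    (fun y hy => Set.mk_mem_prod hy hx)).hasDerivAt (isOpen_I01.mem_nhds ht)

theorem dx_val {a t x : ℝ} (hL : 0 < L) (hx : x ∈ Icc 0 L)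
    (h : HasDerivWithinAt (fun y => u t y) a (Icc 0 L) x) : dx L u t x = a :=
  h.derivWithin ((uniqueDiffOn_Icc hL) x hx)

theorem dt_val {a t x : ℝ} (h : HasDerivAt (fun r => u r x) a t) : dt u t x = a := h.deriv

theorem sm_hasDx (hL : 0 < L) (hu : Sm I01 L u) {t x : ℝ} (ht : t ∈ I01) (hx : x ∈ Icc 0 L) :
    HasDerivWithinAt (fun y => u t y) (dx L u t x) (Icc 0 L) x := by
  rw [dx_val hL hx (sm_hasDx_aux hu ht hx)]
  exact sm_hasDx_aux hu ht hx

theorem sm_hasDt (hu : Sm I01 L u) {t x : ℝ} (ht : t ∈ I01) (hx : x ∈ Icc 0 L) :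
    HasDerivAt (fun r => u r x) (dt u t x) t := by
  rw [dt_val (sm_hasDt_aux hu ht hx)]
  exact sm_hasDt_aux hu ht hx

theorem sm_hasDx' (hL : 0 < L) (hu : Sm I01 L u) {t x : ℝ} (ht : t ∈ I01) (hx : x ∈ Ioo 0 L) :
    HasDerivAt (fun y => u t y) (dx L u t x) x :=
  (sm_hasDx hL hu ht (Ioo_subset_Icc_self hx)).hasDerivAt (Icc_mem_nhds hx.1 hx.2)

theorem sm_congr (hu : Sm I01 L u) (h : ∀ t ∈ I01, ∀ x ∈ Icc 0 L, v t x = u t x) :
    Sm I01 L v :=
  ContDiffOn.congr hu (fun p hp => h p.1 hp.1 p.2 hp.2)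

theorem sm_fderiv (hL : 0 < L) (hu : Sm I01 L u) (w : ℝ × ℝ) :
    ContDiffOn ℝ (⊤ : ℕ∞)
      (fun p => fderivWithin ℝ (fun p : ℝ × ℝ => u p.1 p.2) (I01 ×ˢ Icc 0 L) p w)
      (I01 ×ˢ Icc 0 L) :=
  (ContDiffOn.fderivWithin hu (ud hL) (by simp)).clm_apply contDiffOn_const

theorem sm_dx (hL : 0 < L) (hu : Sm I01 L u) : Sm I01 L (dx L u) :=
  ContDiffOn.congr (sm_fderiv hL hu (0, 1))
    (fun _ hp => dx_val hL hp.2 (sm_hasDx_aux hu hp.1 hp.2))

theorem sm_dt (hL : 0 < L) (hu : Sm I01 L u) : Sm I01 L (dt u) :=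
  ContDiffOn.congr (sm_fderiv hL hu (1, 0))
    (fun _ hp => dt_val (sm_hasDt_aux hu hp.1 hp.2))

theorem sm_mul (hu : Sm I01 L u) (hv : Sm I01 L v) : Sm I01 L (fun t x => u t x * v t x) :=
  ContDiffOn.mul hu hv

theorem sm_add (hu : Sm I01 L u) (hv : Sm I01 L v) : Sm I01 L (fun t x => u t x + v t x) :=
  ContDiffOn.add hu hv

theorem sm_sub (hu : Sm I01 L u) (hv : Sm I01 L v) : Sm I01 L (fun t x => u t x - v t x) :=
  ContDiffOn.sub hu hv

theorem sm_neg (hu : Sm I01 L u) : Sm I01 L (fun t x => - u t x) :=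
  ContDiffOn.neg hu

theorem sm_pow (hu : Sm I01 L u) (n : ℕ) : Sm I01 L (fun t x => u t x ^ n) :=
  ContDiffOn.pow hu n

theorem sm_const (c : ℝ) : Sm I01 L (fun _ _ => c) := contDiffOn_const

theorem sm_fst : Sm I01 L (fun t _ => t) := contDiff_fst.contDiffOn

theorem sm_snd : Sm I01 L (fun _ x => x) := contDiff_snd.contDiffOn

theorem sm_div (hu : Sm I01 L u) (hv : Sm I01 L v) (h : ∀ t ∈ I01, ∀ x ∈ Icc 0 L, v t x ≠ 0) :
    Sm I01 L (fun t x => u t x / v t x) :=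
  ContDiffOn.div hu hv (fun p hp => h p.1 hp.1 p.2 hp.2)

theorem sm_rpow (hu : Sm I01 L u) (a : ℝ) (h : ∀ t ∈ I01, ∀ x ∈ Icc 0 L, u t x ≠ 0) :
    Sm I01 L (fun t x => u t x ^ a) :=
  ContDiffOn.rpow_const_of_ne hu (fun p hp => h p.1 hp.1 p.2 hp.2)

theorem sm_of_x {f : ℝ → ℝ} (hf : ContDiff ℝ (⊤ : ℕ∞) f) : Sm I01 L (fun _ x => f x) :=
  (hf.comp contDiff_snd).contDiffOn

/-! ### Compact support in `τ` -/

/-- vanishing for `τ` outside a compact subinterval of `(0,1)`. -/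
def TSupp (F : ℝ → ℝ → ℝ) : Prop :=
  ∃ a b : ℝ, 0 < a ∧ a < b ∧ b < 1 ∧ ∀ τ x, τ ∉ Icc a b → F τ x = 0

theorem TSupp.mul_left (hF : TSupp F) (v : ℝ → ℝ → ℝ) : TSupp (fun t x => v t x * F t x) := by
  obtain ⟨a, b, h0, h1, h2, h3⟩ := hF
  exact ⟨a, b, h0, h1, h2, fun τ x h => by simp [h3 τ x h]⟩

theorem TSupp.mul_right (hF : TSupp F) (v : ℝ → ℝ → ℝ) : TSupp (fun t x => F t x * v t x) := by
  obtain ⟨a, b, h0, h1, h2, h3⟩ := hF
  exact ⟨a, b, h0, h1, h2, fun τ x h => by simp [h3 τ x h]⟩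

theorem TSupp.add (hF : TSupp u) (hG : TSupp v) : TSupp (fun t x => u t x + v t x) := by
  obtain ⟨a, b, h0, h1, h2, h3⟩ := hF
  obtain ⟨a', b', h0', h1', h2', h3'⟩ := hG
  refine ⟨min a a', max b b', lt_min h0 h0', lt_of_le_of_lt (min_le_left _ _)
    (lt_of_lt_of_le h1 (le_max_left _ _)), max_lt h2 h2', fun τ x h => ?_⟩
  rw [mem_Icc, not_and_or, not_le, not_le] at h
  have e1 : τ ∉ Icc a b := by
    rw [mem_Icc, not_and_or, not_le, not_le]
    rcases h with h | h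
    · left; exact lt_of_lt_of_le h (min_le_left _ _)
    · right; exact lt_of_le_of_lt (le_max_left _ _) h
  have e2 : τ ∉ Icc a' b' := by
    rw [mem_Icc, not_and_or, not_le, not_le]
    rcases h with h | h
    · left; exact lt_of_lt_of_le h (min_le_right _ _)
    · right; exact lt_of_le_of_lt (le_max_right _ _) h
  simp [h3 τ x e1, h3' τ x e2]

theorem TSupp.neg (hF : TSupp F) : TSupp (fun t x => - F t x) := by
  obtain ⟨a, b, h0, h1, h2, h3⟩ := hF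
  exact ⟨a, b, h0, h1, h2, fun τ x h => by simp [h3 τ x h]⟩

theorem TSupp.sub (hF : TSupp u) (hG : TSupp v) : TSupp (fun t x => u t x - v t x) := by
  simpa [sub_eq_add_neg] using hF.add hG.neg

theorem TSupp.pow (hF : TSupp F) {n : ℕ} (hn : n ≠ 0) : TSupp (fun t x => F t x ^ n) := by
  obtain ⟨a, b, h0, h1, h2, h3⟩ := hF
  exact ⟨a, b, h0, h1, h2, fun τ x h => by simp [h3 τ x h, hn]⟩

theorem TSupp.dx (hF : TSupp F) (L : ℝ) : TSupp (dx L F) := by
  obtain ⟨a, b, h0, h1, h2, h3⟩ := hF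
  refine ⟨a, b, h0, h1, h2, fun τ x h => ?_⟩
  have : (fun y => F τ y) = fun _ => (0 : ℝ) := funext fun y => h3 τ y h
  simp [R213.dx, this]

theorem TSupp.dt (hF : TSupp F) : TSupp (dt F) := by
  obtain ⟨a, b, h0, h1, h2, h3⟩ := hF
  refine ⟨a, b, h0, h1, h2, fun τ x h => ?_⟩
  have hev : (fun r => F r x) =ᶠ[𝓝 τ] fun _ => (0 : ℝ) := by
    filter_upwards [isClosed_Icc.isOpen_compl.mem_nhds h] with r hr
    exact h3 r x hr
  simp only [R213.dt]
  rw [hev.deriv_eq]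
  simp

theorem Tst.tsupp {ψ : ℝ → ℝ → ℝ} (h : Tst L ψ) : TSupp ψ := h.2

theorem tst_iff {ψ : ℝ → ℝ → ℝ} : Tst L ψ ↔ Sm I01 L ψ ∧ TSupp ψ := Iff.rfl

/-! ### Integrability -/

theorem integrable_of_cont (hF : ContinuousOn (fun p : ℝ × ℝ => F p.1 p.2) (I01 ×ˢ Icc 0 L))
    (hS : TSupp F) : IntegrableOn (fun p : ℝ × ℝ => F p.1 p.2) (I01 ×ˢ Ioo (0 : ℝ) L) := by
  obtain ⟨a, b, h0, h1, h2, h3⟩ := hS
  have hK : IntegrableOn (fun p : ℝ × ℝ => F p.1 p.2) (Icc a b ×ˢ Icc (0 : ℝ) L) := by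
    apply ContinuousOn.integrableOn_compact (isCompact_Icc.prod isCompact_Icc)
    exact hF.mono (Set.prod_mono (fun y hy => ⟨lt_of_lt_of_le h0 hy.1, lt_of_le_of_lt hy.2 h2⟩)
      subset_rfl)
  have h4 : IntegrableOn (fun p : ℝ × ℝ => F p.1 p.2)
      ((Icc a b ×ˢ Icc (0 : ℝ) L) ∪ ((Icc a b)ᶜ ×ˢ Icc (0 : ℝ) L)) := by
    refine hK.union ?_
    have hz : IntegrableOn (fun _ : ℝ × ℝ => (0 : ℝ)) ((Icc a b)ᶜ ×ˢ Icc (0 : ℝ) L) :=
      integrableOn_zero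
    exact hz.congr_fun (fun p hp => (h3 p.1 p.2 hp.1).symm)
      (measurableSet_Icc.compl.prod measurableSet_Icc)
  refine h4.mono_set ?_
  rintro ⟨τ, x⟩ ⟨hτ, hx⟩
  by_cases h : τ ∈ Icc a b
  · left; exact ⟨h, Ioo_subset_Icc_self hx⟩
  · right; exact ⟨h, Ioo_subset_Icc_self hx⟩

theorem integrable_of_sm (hF : Sm I01 L F) (hS : TSupp F) :
    IntegrableOn (fun p : ℝ × ℝ => F p.1 p.2) (I01 ×ˢ Ioo (0 : ℝ) L) :=
  integrable_of_cont (sm_contOn hF) hS

/-! ### Null Lagrangians -/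

theorem II_dx_zero (hL : 0 < L) (hF : Sm I01 L F) (hS : TSupp F)
    (h0 : ∀ τ ∈ I01, F τ 0 = 0) (h1 : ∀ τ ∈ I01, F τ L = 0) : II L (dx L F) = 0 := by
  have hi : IntegrableOn (fun p : ℝ × ℝ => dx L F p.1 p.2) (I01 ×ˢ Ioo (0 : ℝ) L) :=
    integrable_of_sm (sm_dx hL hF) (hS.dx L)
  unfold II
  rw [Measure.volume_eq_prod] at hi ⊢
  rw [setIntegral_prod _ hi]
  have : ∀ τ ∈ I01, ∫ y in Ioo (0 : ℝ) L, dx L F τ y = 0 := by
    intro τ hτ
    rw [← integral_Ioc_eq_integral_Ioo, ← intervalIntegral.integral_of_le hL.le]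
    have hc : ContinuousOn (fun y => F τ y) (Icc 0 L) :=
      (sm_contOn hF).comp (f := fun y : ℝ => (τ, y))
        (Continuous.continuousOn (by fun_prop)) (fun y hy => Set.mk_mem_prod hτ hy)
    have hc' : ContinuousOn (fun y => dx L F τ y) (Icc 0 L) :=
      (sm_contOn (sm_dx hL hF)).comp (f := fun y : ℝ => (τ, y))
        (Continuous.continuousOn (by fun_prop)) (fun y hy => Set.mk_mem_prod hτ hy)
    rw [intervalIntegral.integral_eq_sub_of_hasDerivAt_of_le hL.le hc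
      (fun y hy => sm_hasDx' hL hF hτ hy)
      (by
        apply ContinuousOn.intervalIntegrable
        rw [uIcc_of_le hL.le]; exact hc')]
    rw [h0 τ hτ, h1 τ hτ, sub_zero]
  rw [setIntegral_congr_fun measurableSet_Ioo (g := fun _ => (0 : ℝ)) (fun τ hτ => this τ hτ)]
  simp

theorem II_dt_zero (hL : 0 < L) (hF : Sm I01 L F) (hS : TSupp F) : II L (dt F) = 0 := by
  have hi : IntegrableOn (fun p : ℝ × ℝ => dt F p.1 p.2) (I01 ×ˢ Ioo (0 : ℝ) L) :=
    integrable_of_sm (sm_dt hL hF) hS.dt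
  obtain ⟨a, b, h0, h1, h2, h3⟩ := hS
  obtain ⟨a', ha', ha''⟩ := exists_between h0
  obtain ⟨b', hb', hb''⟩ := exists_between h2
  have hab : a' ≤ b' := by linarith
  unfold II
  rw [Measure.volume_eq_prod] at hi ⊢
  rw [← setIntegral_prod_swap, setIntegral_prod]
  · have : ∀ x ∈ Ioo (0 : ℝ) L, ∫ τ in I01, dt F τ x = 0 := by
      intro x hx
      have hx' : x ∈ Icc 0 L := Ioo_subset_Icc_self hx
      have hsub : Ioc a' b' ⊆ I01 := fun y hy => ⟨ha'.trans hy.1, lt_of_le_of_lt hy.2 hb''⟩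
      have h5 : ∫ τ in I01, dt F τ x = ∫ τ in Ioc a' b', dt F τ x := by
        apply setIntegral_eq_of_subset_of_forall_sdiff_eq_zero measurableSet_Ioo hsub
        rintro y ⟨hy, hy'⟩
        have hyy : y ∉ Icc a b := by
          intro h
          exact hy' ⟨lt_of_lt_of_le ha'' h.1, h.2.trans hb'.le⟩
        have hev : (fun r => F r x) =ᶠ[𝓝 y] fun _ => (0 : ℝ) := by
          filter_upwards [isClosed_Icc.isOpen_compl.mem_nhds hyy] with r hr
          exact h3 r x hr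
        simp only [R213.dt]
        rw [hev.deriv_eq]; simp
      rw [h5, ← intervalIntegral.integral_of_le hab]
      have hsub' : Icc a' b' ⊆ I01 := fun y hy => ⟨lt_of_lt_of_le ha' hy.1, lt_of_le_of_lt hy.2 hb''⟩
      have hc' : ContinuousOn (fun y => dt F y x) (Icc a' b') :=
        (sm_contOn (sm_dt hL hF)).comp (f := fun y : ℝ => (y, x))
          (Continuous.continuousOn (by fun_prop)) (fun y hy => Set.mk_mem_prod (hsub' hy) hx')
      rw [intervalIntegral.integral_eq_sub_of_hasDerivAt (f := fun r => F r x)]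
      · rw [h3 b' x (fun h => absurd h.2 (not_le.2 hb')), h3 a' x (fun h => absurd h.1 (not_le.2 ha'')),
          sub_zero]
      · intro y hy
        rw [uIcc_of_le hab] at hy
        exact sm_hasDt hF (hsub' hy) hx'
      · apply ContinuousOn.intervalIntegrable
        rw [uIcc_of_le hab]; exact hc'
    simp only [Prod.fst_swap, Prod.snd_swap]
    rw [setIntegral_congr_fun measurableSet_Ioo (g := fun _ => (0 : ℝ)) (fun x hx => this x hx)]
    simp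
  · exact hi.swap

end Crest.Agent.R213.A
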