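import Crest.Agent.R213.A.ADefs

/-!
# Row 213, PART A: change of variables `τ = e^{-s}`, `x = y e^{-s/2}` (helper795)
-/

set_option autoImplicit false

open Set MeasureTheory Filter Topology

noncomputable section

namespace Crest.Agent.R213.A.CoV

/-- inner variables → original variables -/
def TT (p : ℝ × ℝ) : ℝ × ℝ := (Real.exp (-p.1), p.2 * Real.exp (-p.1 / 2))

/-- the domain in inner variables -/
def Om (L : ℝ) : Set (ℝ × ℝ) := {p | 0 < p.1 ∧ 0 < p.2 ∧ p.2 * Real.exp (-p.1 / 2) < L}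

def TT' (p : ℝ × ℝ) : ℝ × ℝ →L[ℝ] ℝ × ℝ :=
  (Matrix.toLin (.finTwoProd ℝ) (.finTwoProd ℝ)
    !![-Real.exp (-p.1), 0; -(p.2 * Real.exp (-p.1 / 2)) / 2, Real.exp (-p.1 / 2)]).toContinuousLinearMap

theorem hasFDerivAt_TT (p : ℝ × ℝ) : HasFDerivAt TT (TT' p) p := by
  unfold TT'
  rw [Matrix.toLin_finTwoProd_toContinuousLinearMap]
  have h1 : HasFDerivAt (fun q : ℝ × ℝ => Real.exp (-q.1))
      ((-Real.exp (-p.1)) • ContinuousLinearMap.fst ℝ ℝ ℝ + (0 : ℝ) • ContinuousLinearMap.snd ℝ ℝ ℝ) p := by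
    have e1 : HasDerivAt (fun r : ℝ => Real.exp (-r)) (-Real.exp (-p.1)) p.1 := by
      simpa using (hasDerivAt_neg p.1).exp
    have e2 := e1.comp_hasFDerivAt p (hasFDerivAt_fst (𝕜 := ℝ) (E := ℝ) (F := ℝ) (p := p))
    refine e2.congr_fderiv ?_
    ext <;> simp
  have h2 : HasFDerivAt (fun q : ℝ × ℝ => q.2 * Real.exp (-q.1 / 2))
      ((-(p.2 * Real.exp (-p.1 / 2)) / 2) • ContinuousLinearMap.fst ℝ ℝ ℝ +
        (Real.exp (-p.1 / 2)) • ContinuousLinearMap.snd ℝ ℝ ℝ) p := by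
    have e1 : HasDerivAt (fun r : ℝ => Real.exp (-r / 2)) (Real.exp (-p.1 / 2) * (-1 / 2)) p.1 :=
      ((hasDerivAt_neg p.1).div_const 2).exp
    have e2 := e1.comp_hasFDerivAt p (hasFDerivAt_fst (𝕜 := ℝ) (E := ℝ) (F := ℝ) (p := p))
    have e3 := (hasFDerivAt_snd (𝕜 := ℝ) (E := ℝ) (F := ℝ) (p := p)).mul e2
    refine e3.congr_fderiv ?_
    ext
    · simp; ring
    · simp
  exact h1.prodMk h2

theorem det_TT' (p : ℝ × ℝ) : (TT' p).det = -Real.exp (-(3 / 2) * p.1) := by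
  unfold TT'
  simp only [LinearMap.det_toContinuousLinearMap, LinearMap.det_toLin, Matrix.det_fin_two_of]
  rw [zero_mul, sub_zero, neg_mul, ← Real.exp_add]
  congr 2
  ring

theorem TT_injective : Function.Injective TT := by
  rintro ⟨a, b⟩ ⟨c, d⟩ h
  simp only [TT, Prod.mk.injEq] at h
  have h1 : a = c := by
    have := Real.exp_injective h.1
    linarith
  subst h1
  have h2 : b = d := mul_right_cancel₀ (Real.exp_pos _).ne' h.2
  rw [h2]

theorem sqrt_exp (s : ℝ) : √(Real.exp (-s)) = Real.exp (-s / 2) := by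
  rw [← Real.exp_half]

theorem exp_half_log {τ : ℝ} (hτ : 0 < τ) : Real.exp (-(-Real.log τ) / 2) = √τ := by
  rw [neg_neg, Real.exp_half, Real.exp_log hτ]

theorem TT_image (L : ℝ) : TT '' Om L = Ioo (0 : ℝ) 1 ×ˢ Ioo (0 : ℝ) L := by
  ext ⟨τ, x⟩
  constructor
  · rintro ⟨⟨s, y⟩, ⟨h1, h2, h3⟩, h⟩
    simp only [TT, Prod.mk.injEq] at h
    obtain ⟨rfl, rfl⟩ := h
    exact ⟨⟨Real.exp_pos _, by rw [← Real.exp_zero]; exact Real.exp_lt_exp.2 (by linarith)⟩, ⟨by positivity, h3⟩⟩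
  · rintro ⟨⟨h1, h2⟩, ⟨h3, h4⟩⟩
    have hs : 0 < √τ := Real.sqrt_pos.2 h1
    refine ⟨(-Real.log τ, x / √τ), ⟨?_, ?_, ?_⟩, ?_⟩
    · show 0 < -Real.log τ
      linarith [Real.log_neg h1 h2]
    · exact div_pos h3 hs
    · show x / √τ * Real.exp (-(-Real.log τ) / 2) < L
      rw [exp_half_log h1, div_mul_cancel₀ _ hs.ne']; exact h4
    · simp only [TT, Prod.mk.injEq]
      rw [exp_half_log h1, div_mul_cancel₀ _ hs.ne', neg_neg, Real.exp_log h1]
      exact ⟨rfl, rfl⟩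

theorem isOpen_Om (L : ℝ) : IsOpen (Om L) := by
  unfold Om
  apply IsOpen.inter (isOpen_lt continuous_const continuous_fst)
  apply IsOpen.inter (isOpen_lt continuous_const continuous_snd)
  have hc : Continuous (fun p : ℝ × ℝ => p.2 * Real.exp (-p.1 / 2)) := by fun_prop
  exact isOpen_lt hc continuous_const

theorem II_cov (L : ℝ) (F : ℝ → ℝ → ℝ) :
    II L F = ∫ p in Om L, Real.exp (-(3 / 2) * p.1) *
      F (Real.exp (-p.1)) (p.2 * Real.exp (-p.1 / 2)) := by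
  unfold II
  rw [← TT_image, integral_image_eq_integral_abs_det_fderiv_smul volume (isOpen_Om L).measurableSet
    (fun p _ => (hasFDerivAt_TT p).hasFDerivWithinAt) TT_injective.injOn]
  refine setIntegral_congr_fun (isOpen_Om L).measurableSet (fun p _ => ?_)
  show |(TT' p).det| • F (TT p).1 (TT p).2 = _
  rw [det_TT', abs_neg, abs_of_pos (Real.exp_pos _)]
  rfl

end Crest.Agent.R213.A.CoV
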