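import Crest.Agent.R213.Defs

/-!
# Row 213, Part A, block A6 (duality): the inf-sup inequality on test functions gives weak solutions

`weak_of_infsup`: if `‖ψ‖_Y ≤ C sup_u B(u,ψ)/‖u‖_X` for all test functions then the linear problem has
weak solutions, with the constant `C ^ 2`.
-/

set_option autoImplicit false

open Set MeasureTheory Filter Topology
open scoped ENNReal

noncomputable section

namespace Crest.Agent.R213.A.Dual

/-! ### Abstract part -/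

section Abstract

variable {S X : Type*} [AddCommGroup S] [Module ℝ S] [NormedAddCommGroup X]
  [InnerProductSpace ℝ X] [CompleteSpace X]

local notation "⟪" x ", " y "⟫" => inner ℝ x y

/-- Riesz + Hahn–Banach. -/
theorem lions (T : S →ₗ[ℝ] X) (F : S →ₗ[ℝ] ℝ) (K : ℝ) (hK : 0 ≤ K)
    (h : ∀ ψ, |F ψ| ≤ K * ‖T ψ‖) : ∃ z : X, ‖z‖ ≤ K ∧ ∀ ψ, ⟪z, T ψ⟫ = F ψ := by
  have hker : LinearMap.ker T ≤ LinearMap.ker F := by
    intro ψ hψ
    rw [LinearMap.mem_ker] at hψ ⊢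
    have := h ψ
    rw [hψ, norm_zero, mul_zero] at this
    exact abs_nonpos_iff.1 this
  let f0 : LinearMap.range T →ₗ[ℝ] ℝ :=
    ((LinearMap.ker T).liftQ F hker).comp T.quotKerEquivRange.symm.toLinearMap
  have hf0 : ∀ ψ, f0 ⟨T ψ, LinearMap.mem_range_self T ψ⟩ = F ψ := by
    intro ψ
    have h1 : T.quotKerEquivRange.symm ⟨T ψ, LinearMap.mem_range_self T ψ⟩ =
        (LinearMap.ker T).mkQ ψ := by
      rw [LinearEquiv.symm_apply_eq]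
      rfl
    show ((LinearMap.ker T).liftQ F hker) (T.quotKerEquivRange.symm ⟨T ψ, _⟩) = _
    rw [h1]
    rfl
  let f1 : LinearMap.range T →L[ℝ] ℝ := f0.mkContinuous K (by
    rintro ⟨_, ψ, rfl⟩
    rw [hf0, Real.norm_eq_abs]
    exact h ψ)
  have hf1 : ‖f1‖ ≤ K := LinearMap.mkContinuous_norm_le _ hK _
  obtain ⟨g, hg1, hg2⟩ := exists_extension_norm_eq (LinearMap.range T) f1
  refine ⟨(InnerProductSpace.toDual ℝ X).symm g, ?_, fun ψ => ?_⟩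
  · rw [LinearIsometryEquiv.norm_map, hg2]
    exact hf1
  · rw [InnerProductSpace.toDual_symm_apply]
    have := hg1 ⟨T ψ, LinearMap.mem_range_self T ψ⟩
    rw [this]
    exact hf0 ψ

/-- duality: `ι` = the embedding of the trial functions, `T` = Riesz vectors of `B(·,ψ)`. -/
theorem duality (ι T : S →ₗ[ℝ] X) (F : S →ₗ[ℝ] ℝ) (nY : S → ℝ) (C M : ℝ) (hC : 0 ≤ C)
    (hM : 0 ≤ M)
    (hF : ∀ ψ, |F ψ| ≤ M * nY ψ)
    (hinf : ∀ ψ, ∀ s : ℝ, 0 ≤ s → (∀ u, |⟪ι u, T ψ⟫| ≤ s * ‖ι u‖) → nY ψ ≤ C * s) :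
    ∃ z ∈ (LinearMap.range ι).topologicalClosure, ‖z‖ ≤ C * M ∧ ∀ ψ, ⟪z, T ψ⟫ = F ψ := by
  set Xc := (LinearMap.range ι).topologicalClosure with hXc
  have hcl : IsClosed (Xc : Set X) := Submodule.isClosed_topologicalClosure _
  have : CompleteSpace Xc := hcl.completeSpace_coe
  let Q : X →ₗ[ℝ] Xc := (Xc.orthogonalProjectionOnto).toLinearMap
  have hQ : ∀ (w : Xc) (x : X), ⟪(w : X), x⟫ = ⟪w, Q x⟫ := by
    intro w x
    have := Submodule.inner_orthogonalProjectionOnto_eq_of_mem_left (K := Xc) w x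
    show _ = inner ℝ (w : X) ((Xc.orthogonalProjectionOnto x : Xc) : X)
    exact this.symm
  have hι : ∀ u, ι u ∈ Xc := fun u =>
    Submodule.le_topologicalClosure _ (LinearMap.mem_range_self ι u)
  obtain ⟨z, hz1, hz2⟩ := lions (Q.comp T) F (M * C) (mul_nonneg hM hC) (by
    intro ψ
    refine (hF ψ).trans ?_
    rw [mul_assoc]
    refine mul_le_mul_of_nonneg_left ?_ hM
    refine hinf ψ _ (norm_nonneg _) fun u => ?_
    have h1 := hQ ⟨ι u, hι u⟩ (T ψ)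
    rw [show ((⟨ι u, hι u⟩ : Xc) : X) = ι u from rfl] at h1
    rw [h1]
    refine (abs_real_inner_le_norm _ _).trans ?_
    rw [mul_comm]
    exact le_of_eq rfl)
  refine ⟨z, z.2, ?_, fun ψ => ?_⟩
  · rw [mul_comm C M]
    exact hz1
  · rw [hQ]
    exact hz2 ψ

end Abstract

/-! ### Calculus for `Sm` (only what is needed here) -/

section Calc

variable {s : Set ℝ} {L : ℝ} {u v : ℝ → ℝ → ℝ}

theorem uniqueDiff (hs : IsOpen s) (hL : 0 < L) : UniqueDiffOn ℝ (s ×ˢ Icc (0 : ℝ) L) :=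
  hs.uniqueDiffOn.prod (uniqueDiffOn_Icc hL)

theorem dx_eq (hu : Sm s L u) {t x : ℝ} (ht : t ∈ s)
    (hx : x ∈ Icc (0 : ℝ) L) :
    HasDerivWithinAt (fun y => u t y)
      (fderivWithin ℝ (fun p : ℝ × ℝ => u p.1 p.2) (s ×ˢ Icc (0 : ℝ) L) (t, x) (0, 1))
      (Icc 0 L) x := by
  have h1 : HasFDerivWithinAt (fun p : ℝ × ℝ => u p.1 p.2)
      (fderivWithin ℝ (fun p : ℝ × ℝ => u p.1 p.2) (s ×ˢ Icc (0 : ℝ) L) (t, x))
      (s ×ˢ Icc (0 : ℝ) L) (t, x) :=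
    ((hu.differentiableOn (by simp)) (t, x) ⟨ht, hx⟩).hasFDerivWithinAt
  have h2 : HasDerivWithinAt (fun y : ℝ => (t, y)) ((0 : ℝ), (1 : ℝ)) (Icc 0 L) x :=
    (hasDerivWithinAt_const x _ t).prodMk (hasDerivWithinAt_id x _)
  exact h1.comp_hasDerivWithinAt x h2 (fun y hy => ⟨ht, hy⟩)

theorem dt_eq (hs : IsOpen s) (hu : Sm s L u) {t x : ℝ} (ht : t ∈ s)
    (hx : x ∈ Icc (0 : ℝ) L) :
    HasDerivAt (fun r => u r x)
      (fderivWithin ℝ (fun p : ℝ × ℝ => u p.1 p.2) (s ×ˢ Icc (0 : ℝ) L) (t, x) (1, 0)) t := by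
  have h1 : HasFDerivWithinAt (fun p : ℝ × ℝ => u p.1 p.2)
      (fderivWithin ℝ (fun p : ℝ × ℝ => u p.1 p.2) (s ×ˢ Icc (0 : ℝ) L) (t, x))
      (s ×ˢ Icc (0 : ℝ) L) (t, x) :=
    ((hu.differentiableOn (by simp)) (t, x) ⟨ht, hx⟩).hasFDerivWithinAt
  have h2 : HasDerivWithinAt (fun y : ℝ => (y, x)) ((1 : ℝ), (0 : ℝ)) s t :=
    (hasDerivWithinAt_id t _).prodMk (hasDerivWithinAt_const t _ x)
  have h3 : MapsTo (fun y : ℝ => (y, x)) s (s ×ˢ Icc (0 : ℝ) L) := fun y hy => ⟨hy, hx⟩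
  exact (h1.comp_hasDerivWithinAt t h2 h3).hasDerivAt (hs.mem_nhds ht)

theorem sm_dx (hs : IsOpen s) (hL : 0 < L) (hu : Sm s L u) : Sm s L (dx L u) := by
  have h1 : ContDiffOn ℝ (⊤ : ℕ∞)
      (fderivWithin ℝ (fun p : ℝ × ℝ => u p.1 p.2) (s ×ˢ Icc (0 : ℝ) L)) (s ×ˢ Icc (0 : ℝ) L) :=
    hu.fderivWithin (uniqueDiff hs hL) (by simp)
  have h2 := h1.clm_apply (contDiffOn_const (c := ((0 : ℝ), (1 : ℝ))))
  refine h2.congr fun p hp => ?_
  exact (dx_eq hu hp.1 hp.2).derivWithin (uniqueDiffOn_Icc hL p.2 hp.2)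

theorem sm_dt (hs : IsOpen s) (hL : 0 < L) (hu : Sm s L u) : Sm s L (dt u) := by
  have h1 : ContDiffOn ℝ (⊤ : ℕ∞)
      (fderivWithin ℝ (fun p : ℝ × ℝ => u p.1 p.2) (s ×ˢ Icc (0 : ℝ) L)) (s ×ˢ Icc (0 : ℝ) L) :=
    hu.fderivWithin (uniqueDiff hs hL) (by simp)
  have h2 := h1.clm_apply (contDiffOn_const (c := ((1 : ℝ), (0 : ℝ))))
  refine h2.congr fun p hp => ?_
  exact (dt_eq hs hu hp.1 hp.2).deriv

theorem dx_add (hu : Sm s L u) (hv : Sm s L v) {t x : ℝ}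
    (ht : t ∈ s) (hx : x ∈ Icc (0 : ℝ) L) :
    dx L (fun t x => u t x + v t x) t x = dx L u t x + dx L v t x :=
  derivWithin_fun_add (dx_eq hu ht hx).differentiableWithinAt
    (dx_eq hv ht hx).differentiableWithinAt

theorem dx_smul (c : ℝ) {t x : ℝ} :
    dx L (fun t x => c * u t x) t x = c * dx L u t x := by
  show derivWithin (fun y => c * u t y) (Icc 0 L) x = c * derivWithin (fun y => u t y) (Icc 0 L) x
  by_cases hx : UniqueDiffWithinAt ℝ (Icc 0 L) x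
  · simp [derivWithin_const_mul_field]
  · rw [derivWithin_zero_of_not_uniqueDiffWithinAt hx,
      derivWithin_zero_of_not_uniqueDiffWithinAt hx, mul_zero]

end Calc

/-! ### The `L²` spaces -/

section L2

variable {L : ℝ}

/-- the domain -/
def Dm (L : ℝ) : Set (ℝ × ℝ) := Ioo (0 : ℝ) 1 ×ˢ Ioo (0 : ℝ) L

theorem measurableSet_Dm : MeasurableSet (Dm L) := measurableSet_Ioo.prod measurableSet_Ioo

/-- the measure -/
def μD (L : ℝ) : Measure (ℝ × ℝ) := (volume : Measure (ℝ × ℝ)).restrict (Dm L)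

instance : IsFiniteMeasure (μD L) := by
  constructor
  rw [μD, Measure.restrict_apply MeasurableSet.univ, univ_inter, Dm]
  rw [Measure.volume_eq_prod, Measure.prod_prod]
  exact ENNReal.mul_lt_top measure_Ioo_lt_top measure_Ioo_lt_top

theorem ae_mem_Dm : ∀ᵐ p ∂(μD L), p ∈ Dm L := ae_restrict_mem measurableSet_Dm

theorem aesm_of_cont {g : ℝ × ℝ → ℝ} (hg : ContinuousOn g (Ioo (0 : ℝ) 1 ×ˢ Icc (0 : ℝ) L)) :
    AEStronglyMeasurable g (μD L) :=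
  (hg.mono (prod_mono_right Ioo_subset_Icc_self)).aestronglyMeasurable measurableSet_Dm

theorem memLp_of_supp {g : ℝ × ℝ → ℝ} (hg : ContinuousOn g (Ioo (0 : ℝ) 1 ×ˢ Icc (0 : ℝ) L))
    {a b : ℝ} (ha : 0 < a) (hb : b < 1) (h0 : ∀ p ∈ Dm L, p.1 ∉ Icc a b → g p = 0) :
    MemLp g 2 (μD L) := by
  have hK : IsCompact (Icc a b ×ˢ Icc (0 : ℝ) L) := isCompact_Icc.prod isCompact_Icc
  have hsub : Icc a b ×ˢ Icc (0 : ℝ) L ⊆ Ioo (0 : ℝ) 1 ×ˢ Icc (0 : ℝ) L := by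
    rintro ⟨t, x⟩ ⟨ht, hx⟩
    exact ⟨⟨ha.trans_le ht.1, ht.2.trans_lt hb⟩, hx⟩
  obtain ⟨C, hC⟩ := hK.exists_bound_of_continuousOn (hg.mono hsub)
  refine MemLp.of_bound (aesm_of_cont hg) (max C 0) ?_
  filter_upwards [ae_mem_Dm (L := L)] with p hp
  by_cases h : p.1 ∈ Icc a b
  · exact (hC p ⟨h, Ioo_subset_Icc_self hp.2⟩).trans (le_max_left _ _)
  · rw [h0 p hp h, norm_zero]
    exact le_max_right _ _

/-- `√(V x⁹) f` -/
def emb (V f : ℝ → ℝ → ℝ) : ℝ × ℝ → ℝ := fun p => √(V p.1 p.2 * p.2 ^ 9) * f p.1 p.2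

theorem N2_eq {V f : ℝ → ℝ → ℝ} (hV : ∀ p ∈ Dm L, 0 ≤ V p.1 p.2) :
    N2 L V f = (eLpNorm (emb V f) 2 (μD L)) ^ 2 := by
  have h1 := eLpNorm_nnreal_pow_eq_lintegral (μ := μD L) (f := emb V f) (p := 2) two_ne_zero
  have h2 : (eLpNorm (emb V f) 2 (μD L)) ^ 2 =
      (eLpNorm (emb V f) ((2 : NNReal) : ℝ≥0∞) (μD L)) ^ ((2 : NNReal) : ℝ) := by
    rw [show ((2 : NNReal) : ℝ) = ((2 : ℕ) : ℝ) by norm_num, ENNReal.rpow_natCast]
    rfl
  rw [h2, h1, N2, μD]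
  refine setLIntegral_congr_fun measurableSet_Dm fun p hp => ?_
  have h3 : 0 ≤ V p.1 p.2 * p.2 ^ 9 := mul_nonneg (hV p hp) (pow_nonneg hp.2.1.le 9)
  have h4 : ‖emb V f p‖ₑ ^ ((2 : NNReal) : ℝ) = ENNReal.ofReal ((emb V f p) ^ 2) := by
    rw [Real.enorm_eq_ofReal_abs]
    have : ENNReal.ofReal |emb V f p| ^ ((2 : NNReal) : ℝ) = ENNReal.ofReal |emb V f p| ^ 2 := by
      rw [show ((2 : NNReal) : ℝ) = ((2 : ℕ) : ℝ) by norm_num, ENNReal.rpow_natCast]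
    rw [this, ← ENNReal.ofReal_pow (abs_nonneg _), sq_abs]
  show ENNReal.ofReal (V p.1 p.2 * p.2 ^ 9 * (f p.1 p.2) ^ 2) = ‖emb V f p‖ₑ ^ ((2 : NNReal) : ℝ)
  rw [h4, emb, mul_pow, Real.sq_sqrt h3]

theorem inner_toLp {f g : ℝ × ℝ → ℝ} (hf : MemLp f 2 (μD L)) (hg : MemLp g 2 (μD L)) :
    inner ℝ (hf.toLp f) (hg.toLp g) = ∫ p in Dm L, f p * g p := by
  rw [L2.inner_def]
  refine integral_congr_ae ?_
  filter_upwards [hf.coeFn_toLp, hg.coeFn_toLp] with p h1 h2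
  rw [h1, h2]
  simp [mul_comm]

theorem integrable_mul {f g : ℝ × ℝ → ℝ} (hf : MemLp f 2 (μD L)) (hg : MemLp g 2 (μD L)) :
    IntegrableOn (fun p => f p * g p) (Dm L) :=
  MemLp.integrable_mul hf hg

theorem norm_toLp_sq {f : ℝ × ℝ → ℝ} (hf : MemLp f 2 (μD L)) :
    ENNReal.ofReal (‖hf.toLp f‖ ^ 2) = (eLpNorm f 2 (μD L)) ^ 2 := by
  rw [Lp.norm_toLp, ← ENNReal.toReal_pow, ENNReal.ofReal_toReal]
  exact ENNReal.pow_ne_top hf.2.ne

/-- the Hilbert space -/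
abbrev HH (L : ℝ) := WithLp 2 (Lp ℝ 2 (μD L) × Lp ℝ 2 (μD L))

theorem norm_HH_sq (z : HH L) : ‖z‖ ^ 2 = ‖z.fst‖ ^ 2 + ‖z.snd‖ ^ 2 :=
  WithLp.prod_norm_sq_eq_of_L2 z

end L2

/-! ### Test functions -/

section Test

variable {L : ℝ}

theorem tst_zero : Tst L (0 : ℝ → ℝ → ℝ) :=
  ⟨contDiffOn_const, 1 / 4, 1 / 2, by norm_num, by norm_num, by norm_num, fun _ _ _ => rfl⟩

theorem tst_add {u v : ℝ → ℝ → ℝ} (hu : Tst L u) (hv : Tst L v) : Tst L (u + v) := by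
  obtain ⟨h1, a, b, ha, hab, hb, h2⟩ := hu
  obtain ⟨k1, a', b', ha', hab', hb', k2⟩ := hv
  refine ⟨h1.add k1, min a a', max b b', lt_min ha ha', ?_, max_lt hb hb', ?_⟩
  · exact (min_le_left _ _).trans_lt (hab.trans_le (le_max_left _ _))
  · intro τ x hτ
    have e1 : u τ x = 0 := h2 τ x (fun h => hτ ⟨(min_le_left _ _).trans h.1,
      h.2.trans (le_max_left _ _)⟩)
    have e2 : v τ x = 0 := k2 τ x (fun h => hτ ⟨(min_le_right _ _).trans h.1,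
      h.2.trans (le_max_right _ _)⟩)
    show u τ x + v τ x = 0
    rw [e1, e2, add_zero]

theorem tst_smul (c : ℝ) {u : ℝ → ℝ → ℝ} (hu : Tst L u) : Tst L (c • u) := by
  obtain ⟨h1, a, b, ha, hab, hb, h2⟩ := hu
  refine ⟨contDiffOn_const.mul h1, a, b, ha, hab, hb, ?_⟩
  intro τ x hτ
  show c * u τ x = 0
  rw [h2 τ x hτ, mul_zero]

/-- the space of test functions -/
def TS (L : ℝ) : Submodule ℝ (ℝ → ℝ → ℝ) where
  carrier := {u | Tst L u}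
  add_mem' := fun h1 h2 => tst_add h1 h2
  zero_mem' := tst_zero
  smul_mem' := fun c _ h => tst_smul c h

/-- weights that are positive and continuous -/
structure Wgt (L : ℝ) (V : ℝ → ℝ → ℝ) : Prop where
  cont : ContinuousOn (fun p : ℝ × ℝ => V p.1 p.2) (Ioo (0 : ℝ) 1 ×ˢ Icc (0 : ℝ) L)
  pos : ∀ p ∈ Dm L, 0 < V p.1 p.2

theorem Wgt.inv {V : ℝ → ℝ → ℝ} (h : Wgt L V)
    (h' : ∀ p ∈ Ioo (0 : ℝ) 1 ×ˢ Icc (0 : ℝ) L, V p.1 p.2 ≠ 0) :
    Wgt L (fun τ x => (V τ x)⁻¹) :=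
  ⟨h.cont.inv₀ h', fun p hp => inv_pos.2 (h.pos p hp)⟩

theorem emb_cont {V f : ℝ → ℝ → ℝ} (hV : Wgt L V)
    (hf : ContinuousOn (fun p : ℝ × ℝ => f p.1 p.2) (Ioo (0 : ℝ) 1 ×ˢ Icc (0 : ℝ) L)) :
    ContinuousOn (emb V f) (Ioo (0 : ℝ) 1 ×ˢ Icc (0 : ℝ) L) :=
  ((hV.cont.mul (by fun_prop)).sqrt).mul hf

theorem emb_mul {V f g : ℝ → ℝ → ℝ} {p : ℝ × ℝ} (hp : p ∈ Dm L) (hV : 0 < V p.1 p.2) :
    emb V f p * emb (fun τ x => (V τ x)⁻¹) g p = p.2 ^ 9 * (f p.1 p.2 * g p.1 p.2) := by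
  have h9 : 0 ≤ p.2 ^ 9 := pow_nonneg hp.2.1.le 9
  unfold emb
  have h1 : √(V p.1 p.2 * p.2 ^ 9) * √((V p.1 p.2)⁻¹ * p.2 ^ 9) = p.2 ^ 9 := by
    rw [← Real.sqrt_mul (mul_nonneg hV.le h9)]
    have : V p.1 p.2 * p.2 ^ 9 * ((V p.1 p.2)⁻¹ * p.2 ^ 9) = (p.2 ^ 9) ^ 2 := by
      field_simp
    rw [this, Real.sqrt_sq h9]
  calc _ = √(V p.1 p.2 * p.2 ^ 9) * √((V p.1 p.2)⁻¹ * p.2 ^ 9) * (f p.1 p.2 * g p.1 p.2) := by ring
    _ = _ := by rw [h1]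

/-- an operation on test functions -/
structure Op (L : ℝ) (O : (ℝ → ℝ → ℝ) → ℝ → ℝ → ℝ) : Prop where
  cont : ∀ u, Tst L u →
    ContinuousOn (fun p : ℝ × ℝ => O u p.1 p.2) (Ioo (0 : ℝ) 1 ×ˢ Icc (0 : ℝ) L)
  supp : ∀ u, Tst L u → ∃ a b : ℝ, 0 < a ∧ b < 1 ∧ ∀ p ∈ Dm L, p.1 ∉ Icc a b → O u p.1 p.2 = 0
  add : ∀ u v, Tst L u → Tst L v → ∀ p ∈ Dm L, O (u + v) p.1 p.2 = O u p.1 p.2 + O v p.1 p.2
  smul : ∀ (c : ℝ) u, Tst L u → ∀ p ∈ Dm L, O (c • u) p.1 p.2 = c * O u p.1 p.2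

theorem Op.memLp {O : (ℝ → ℝ → ℝ) → ℝ → ℝ → ℝ} (hO : Op L O) {V : ℝ → ℝ → ℝ} (hV : Wgt L V)
    {u : ℝ → ℝ → ℝ} (hu : Tst L u) : MemLp (emb V (O u)) 2 (μD L) := by
  obtain ⟨a, b, ha, hb, h⟩ := hO.supp u hu
  refine memLp_of_supp (emb_cont hV (hO.cont u hu)) ha hb fun p hp h1 => ?_
  rw [emb, h p hp h1, mul_zero]

/-- the linear map into `L²` -/
def Op.lin {O : (ℝ → ℝ → ℝ) → ℝ → ℝ → ℝ} (hO : Op L O) {V : ℝ → ℝ → ℝ} (hV : Wgt L V) :
    TS L →ₗ[ℝ] Lp ℝ 2 (μD L) where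
  toFun u := (hO.memLp hV u.2).toLp _
  map_add' u v := by
    rw [← MemLp.toLp_add]
    refine MemLp.toLp_congr _ _ ?_
    filter_upwards [ae_mem_Dm (L := L)] with p hp
    show emb V (O (u.1 + v.1)) p = emb V (O u.1) p + emb V (O v.1) p
    simp only [emb]
    rw [hO.add u.1 v.1 u.2 v.2 p hp]
    ring
  map_smul' c u := by
    rw [RingHom.id_apply, ← MemLp.toLp_const_smul]
    refine MemLp.toLp_congr _ _ ?_
    filter_upwards [ae_mem_Dm (L := L)] with p hp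
    show emb V (O (c • u.1)) p = c * emb V (O u.1) p
    simp only [emb]
    rw [hO.smul c u.1 u.2 p hp]
    ring

theorem op_id : Op L (fun u => u) where
  cont := fun u hu => hu.1.continuousOn
  supp := fun u hu => by
    obtain ⟨-, a, b, ha, -, hb, h⟩ := hu
    exact ⟨a, b, ha, hb, fun p _ hp => h p.1 p.2 hp⟩
  add := fun u v _ _ p _ => rfl
  smul := fun c u _ p _ => rfl

theorem op_dt (hL : 0 < L) : Op L dt where
  cont := fun u hu => (sm_dt isOpen_Ioo hL hu.1).continuousOn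
  supp := fun u hu => by
    obtain ⟨-, a, b, ha, -, hb, h⟩ := hu
    refine ⟨a, b, ha, hb, fun p _ hp => ?_⟩
    have h1 : (fun r => u r p.2) =ᶠ[𝓝 p.1] fun _ => 0 := by
      filter_upwards [isClosed_Icc.isOpen_compl.mem_nhds hp] with r hr
      exact h r p.2 hr
    show deriv (fun r => u r p.2) p.1 = 0
    rw [h1.deriv_eq, deriv_const]
  add := fun u v hu hv p hp => by
    have hx : p.2 ∈ Icc (0 : ℝ) L := Ioo_subset_Icc_self hp.2
    exact deriv_fun_add (dt_eq isOpen_Ioo hu.1 hp.1 hx).differentiableAt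
      (dt_eq isOpen_Ioo hv.1 hp.1 hx).differentiableAt
  smul := fun c u hu p hp => by
    have hx : p.2 ∈ Icc (0 : ℝ) L := Ioo_subset_Icc_self hp.2
    exact deriv_const_mul c (dt_eq isOpen_Ioo hu.1 hp.1 hx).differentiableAt

theorem op_dxx (hL : 0 < L) {φ : ℝ → ℝ → ℝ}
    (hφ : ContinuousOn (fun p : ℝ × ℝ => φ p.1 p.2) (Ioo (0 : ℝ) 1 ×ˢ Icc (0 : ℝ) L)) :
    Op L (fun u τ x => φ τ x * dx L (dx L u) τ x) where
  cont := fun u hu => hφ.mul (sm_dx isOpen_Ioo hL (sm_dx isOpen_Ioo hL hu.1)).continuousOn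
  supp := fun u hu => by
    obtain ⟨-, a, b, ha, -, hb, h⟩ := hu
    refine ⟨a, b, ha, hb, fun p _ hp => ?_⟩
    have h1 : ∀ x, dx L u p.1 x = 0 := by
      intro x
      have : (fun y => u p.1 y) = fun _ => 0 := funext fun y => h p.1 y hp
      show derivWithin (fun y => u p.1 y) (Icc 0 L) x = 0
      rw [this]; simp
    have h2 : dx L (dx L u) p.1 p.2 = 0 := by
      have : (fun y => dx L u p.1 y) = fun _ => 0 := funext h1
      show derivWithin (fun y => dx L u p.1 y) (Icc 0 L) p.2 = 0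
      rw [this]; simp
    rw [h2, mul_zero]
  add := fun u v hu hv p hp => by
    have hx : p.2 ∈ Icc (0 : ℝ) L := Ioo_subset_Icc_self hp.2
    have h1 : ∀ x ∈ Icc (0 : ℝ) L, dx L (u + v) p.1 x = dx L u p.1 x + dx L v p.1 x :=
      fun x hx => dx_add hu.1 hv.1 hp.1 hx
    have h2 : dx L (dx L (u + v)) p.1 p.2 = dx L (dx L u) p.1 p.2 + dx L (dx L v) p.1 p.2 := by
      have h3 : dx L (dx L (u + v)) p.1 p.2 =
          dx L (fun t x => dx L u t x + dx L v t x) p.1 p.2 :=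
        derivWithin_congr (fun x hx => h1 x hx) (h1 p.2 hx)
      rw [h3]
      exact dx_add (sm_dx isOpen_Ioo hL hu.1) (sm_dx isOpen_Ioo hL hv.1) hp.1 hx
    show φ p.1 p.2 * dx L (dx L (u + v)) p.1 p.2 = _
    rw [h2]; ring
  smul := fun c u hu p hp => by
    have h1 : ∀ x, dx L (c • u) p.1 x = c * dx L u p.1 x := fun x => dx_smul c
    have h2 : dx L (dx L (c • u)) p.1 p.2 = c * dx L (dx L u) p.1 p.2 := by
      have h3 : (fun y => dx L (c • u) p.1 y) = fun y => c * dx L u p.1 y := funext h1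
      show derivWithin (fun y => dx L (c • u) p.1 y) (Icc 0 L) p.2 = _
      rw [h3]
      exact dx_smul (L := L) (u := dx L u) (t := p.1) c
    show φ p.1 p.2 * dx L (dx L (c • u)) p.1 p.2 = _
    rw [h2]; ring

end Test

/-! ### The three weights -/

section Weights

variable {L : ℝ}

theorem Wt_pos (κ : ℝ) {τ x : ℝ} (hτ : 0 < τ) : 0 < Wt κ τ x :=
  div_pos (Real.rpow_pos_of_pos hτ _) (by positivity)

theorem wgt_W (κ : ℝ) : Wgt L (Wt κ) where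
  cont := by
    have h1 : ContinuousOn (fun p : ℝ × ℝ => p.1 ^ (2 * κ)) (Ioo (0 : ℝ) 1 ×ˢ Icc (0 : ℝ) L) :=
      continuousOn_fst.rpow_const fun p hp => Or.inl hp.1.1.ne'
    exact h1.div (by fun_prop) fun p hp => by
      have : 0 < p.1 := hp.1.1
      positivity
  pos := fun p hp => Wt_pos κ hp.1.1

theorem wgt_W' (κ : ℝ) : Wgt L (Wt' κ) where
  cont := (wgt_W (L := L) κ).cont.div continuousOn_fst fun p hp => hp.1.1.ne'
  pos := fun p hp => div_pos (Wt_pos κ hp.1.1) hp.1.1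

theorem wgt_W'' (κ : ℝ) : Wgt L (Wt'' κ) where
  cont := continuousOn_fst.mul (wgt_W (L := L) κ).cont
  pos := fun p hp => mul_pos hp.1.1 (Wt_pos κ hp.1.1)

theorem wgt_Wi (κ : ℝ) : Wgt L (fun τ x => (Wt κ τ x)⁻¹) :=
  (wgt_W κ).inv fun _ hp => (Wt_pos κ hp.1.1).ne'

theorem wgt_W'i (κ : ℝ) : Wgt L (fun τ x => (Wt' κ τ x)⁻¹) :=
  (wgt_W' κ).inv fun _ hp => (div_pos (Wt_pos κ hp.1.1) hp.1.1).ne'

theorem wgt_W''i (κ : ℝ) : Wgt L (fun τ x => (Wt'' κ τ x)⁻¹) :=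
  (wgt_W'' κ).inv fun _ hp => (mul_pos hp.1.1 (Wt_pos κ hp.1.1)).ne'

theorem meas_W (κ : ℝ) : Measurable (fun p : ℝ × ℝ => Wt κ p.1 p.2) := by
  unfold Wt
  exact (measurable_fst.pow_const _).div (by fun_prop)

end Weights

/-! ### Main theorem -/

section Main

variable {L : ℝ}

local notation "⟪" x ", " y "⟫" => inner ℝ x y

/-- pair of linear maps into `HH`. -/
def pairL (f g : TS L →ₗ[ℝ] Lp ℝ 2 (μD L)) : TS L →ₗ[ℝ] HH L :=
  (WithLp.linearEquiv 2 ℝ (Lp ℝ 2 (μD L) × Lp ℝ 2 (μD L))).symm.toLinearMap.comp (f.prod g)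

@[simp] theorem pairL_fst (f g : TS L →ₗ[ℝ] Lp ℝ 2 (μD L)) (u : TS L) :
    (pairL f g u).fst = f u := rfl

@[simp] theorem pairL_snd (f g : TS L →ₗ[ℝ] Lp ℝ 2 (μD L)) (u : TS L) :
    (pairL f g u).snd = g u := rfl

theorem inner_HH (z w : HH L) : ⟪z, w⟫ = ⟪z.fst, w.fst⟫ + ⟪z.snd, w.snd⟫ := rfl

/-- **Block A6 (duality).** -/
theorem weak_of_infsup (hL : 0 < L) {κ : ℝ} {φ : ℝ → ℝ → ℝ}
    (hφ : ContinuousOn (fun p : ℝ × ℝ => φ p.1 p.2) (Ioo (0 : ℝ) 1 ×ˢ Icc (0 : ℝ) L))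
    {C : ℝ} (hC : 0 ≤ C)
    (hinf : ∀ ψ, Tst L ψ → ∀ s : ℝ, 0 ≤ s →
      (∀ u, Tst L u →
        |II L (fun τ x => x ^ 9 * (dt ψ τ x * u τ x +
          φ τ x * dx L (dx L ψ) τ x * (φ τ x * dx L (dx L u) τ x)))| ≤
        s * √((N2 L (Wt κ) (fun τ x => φ τ x * dx L (dx L u) τ x) + N2 L (Wt' κ) u).toReal)) →
      √((N2 L (fun τ x => (Wt κ τ x)⁻¹) (fun τ x => φ τ x * dx L (dx L ψ) τ x) +
        N2 L (fun τ x => (Wt'' κ τ x)⁻¹) ψ).toReal) ≤ C * s)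
    {E h : ℝ → ℝ → ℝ} (hE : Sm (Ioo 0 1) L E) (hh : Sm (Ioo 0 1) L h)
    (hE2 : N2 L (Wt'' κ) E < ⊤) (hh2 : N2 L (Wt κ) h < ⊤) :
    ∃ b δ : ℝ → ℝ → ℝ, Measurable (fun p : ℝ × ℝ => b p.1 p.2) ∧
      Measurable (fun p : ℝ × ℝ => δ p.1 p.2) ∧
      N2 L (Wt κ) b + N2 L (Wt' κ) δ ≤
        ENNReal.ofReal (C ^ 2) * (N2 L (Wt κ) h + N2 L (Wt'' κ) E) ∧
      (∃ u : ℕ → ℝ → ℝ → ℝ, (∀ k, Tst L (u k)) ∧
        Tendsto (fun k => N2 L (Wt κ) (fun τ x => φ τ x * dx L (dx L (u k)) τ x - b τ x))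
          atTop (𝓝 0) ∧
        Tendsto (fun k => N2 L (Wt' κ) (fun τ x => u k τ x - δ τ x)) atTop (𝓝 0)) ∧
      (∀ ψ, Tst L ψ →
        II L (fun τ x => x ^ 9 * (dt ψ τ x * δ τ x + φ τ x * dx L (dx L ψ) τ x * b τ x)) =
          II L (fun τ x => x ^ 9 * (E τ x * ψ τ x + h τ x * φ τ x * dx L (dx L ψ) τ x))) := by
  classical
  have hW := wgt_W (L := L) κ
  have hW' := wgt_W' (L := L) κ
  have hW'' := wgt_W'' (L := L) κ
  have hWi := wgt_Wi (L := L) κ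
  have hW'i := wgt_W'i (L := L) κ
  have hW''i := wgt_W''i (L := L) κ
  have oxx := op_dxx hL hφ
  have oid := op_id (L := L)
  have odt := op_dt hL
  let ι : TS L →ₗ[ℝ] HH L := pairL (oxx.lin hW) (oid.lin hW')
  let T : TS L →ₗ[ℝ] HH L := pairL (oxx.lin hWi) (odt.lin hW'i)
  let Y : TS L →ₗ[ℝ] HH L := pairL (oxx.lin hWi) (oid.lin hW''i)
  -- the data
  have mh : MemLp (emb (Wt κ) h) 2 (μD L) := by
    refine ⟨aesm_of_cont (emb_cont hW hh.continuousOn), ?_⟩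
    have h1 := N2_eq (L := L) (V := Wt κ) (f := h) (fun p hp => (hW.pos p hp).le)
    rw [h1] at hh2
    exact (ENNReal.pow_lt_top_iff.1 hh2).resolve_right (by norm_num)
  have mE : MemLp (emb (Wt'' κ) E) 2 (μD L) := by
    refine ⟨aesm_of_cont (emb_cont hW'' hE.continuousOn), ?_⟩
    have h1 := N2_eq (L := L) (V := Wt'' κ) (f := E) (fun p hp => (hW''.pos p hp).le)
    rw [h1] at hE2
    exact (ENNReal.pow_lt_top_iff.1 hE2).resolve_right (by norm_num)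
  let Gd : HH L := WithLp.toLp 2 (mh.toLp _, mE.toLp _)
  let F : TS L →ₗ[ℝ] ℝ := (innerSL ℝ Gd).toLinearMap.comp Y
  -- norms
  have hnorm : ∀ (O₁ O₂ : (ℝ → ℝ → ℝ) → ℝ → ℝ → ℝ) (h₁ : Op L O₁) (h₂ : Op L O₂)
      (V₁ V₂ : ℝ → ℝ → ℝ) (k₁ : Wgt L V₁) (k₂ : Wgt L V₂) (u : TS L),
      √((N2 L V₁ (O₁ u.1) + N2 L V₂ (O₂ u.1)).toReal) = ‖pairL (h₁.lin k₁) (h₂.lin k₂) u‖ := by
    intro O₁ O₂ h₁ h₂ V₁ V₂ k₁ k₂ u
    rw [N2_eq (fun p hp => (k₁.pos p hp).le), N2_eq (fun p hp => (k₂.pos p hp).le),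
      ← norm_toLp_sq (h₁.memLp k₁ u.2), ← norm_toLp_sq (h₂.memLp k₂ u.2),
      ← ENNReal.ofReal_add (sq_nonneg _) (sq_nonneg _), ENNReal.toReal_ofReal (by positivity)]
    have := norm_HH_sq (pairL (h₁.lin k₁) (h₂.lin k₂) u)
    rw [pairL_fst, pairL_snd] at this
    rw [show (‖(h₁.memLp k₁ u.2).toLp _‖ ^ 2 + ‖(h₂.memLp k₂ u.2).toLp _‖ ^ 2 : ℝ) =
      ‖pairL (h₁.lin k₁) (h₂.lin k₂) u‖ ^ 2 from this.symm, Real.sqrt_sq (norm_nonneg _)]
  -- the bilinear form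
  have hB : ∀ u ψ : TS L, ⟪ι u, T ψ⟫ =
      II L (fun τ x => x ^ 9 * (dt ψ.1 τ x * u.1 τ x +
          φ τ x * dx L (dx L ψ.1) τ x * (φ τ x * dx L (dx L u.1) τ x))) := by
    intro u ψ
    rw [inner_HH]
    show ⟪(oxx.memLp hW u.2).toLp _, (oxx.memLp hWi ψ.2).toLp _⟫ +
      ⟪(oid.memLp hW' u.2).toLp _, (odt.memLp hW'i ψ.2).toLp _⟫ = _
    rw [inner_toLp, inner_toLp, ← integral_add (integrable_mul _ _) (integrable_mul _ _), II]
    · refine setIntegral_congr_fun measurableSet_Dm fun p hp => ?_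
      show emb (Wt κ) _ p * emb (fun τ x => (Wt κ τ x)⁻¹) _ p +
        emb (Wt' κ) _ p * emb (fun τ x => (Wt' κ τ x)⁻¹) _ p = _
      rw [emb_mul hp (hW.pos p hp), emb_mul hp (hW'.pos p hp)]
      ring
    · exact oxx.memLp hW u.2
    · exact oxx.memLp hWi ψ.2
    · exact oid.memLp hW' u.2
    · exact odt.memLp hW'i ψ.2
  have hFeq : ∀ ψ : TS L, F ψ =
      II L (fun τ x => x ^ 9 * (E τ x * ψ.1 τ x + h τ x * φ τ x * dx L (dx L ψ.1) τ x)) := by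
    intro ψ
    show ⟪Gd, Y ψ⟫ = _
    rw [inner_HH]
    show ⟪mh.toLp _, (oxx.memLp hWi ψ.2).toLp _⟫ + ⟪mE.toLp _, (oid.memLp hW''i ψ.2).toLp _⟫ = _
    rw [inner_toLp, inner_toLp, ← integral_add (integrable_mul mh (oxx.memLp hWi ψ.2))
      (integrable_mul mE (oid.memLp hW''i ψ.2)), II]
    refine setIntegral_congr_fun measurableSet_Dm fun p hp => ?_
    show emb (Wt κ) _ p * emb (fun τ x => (Wt κ τ x)⁻¹) _ p +
      emb (Wt'' κ) _ p * emb (fun τ x => (Wt'' κ τ x)⁻¹) _ p = _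
    rw [emb_mul hp (hW.pos p hp), emb_mul hp (hW''.pos p hp)]
    ring
  -- duality
  obtain ⟨z, hz, hz1, hz2⟩ := duality ι T F (fun ψ => ‖Y ψ‖) C ‖Gd‖ hC (norm_nonneg _)
    (by
      intro ψ
      show |⟪Gd, Y ψ⟫| ≤ _
      exact abs_real_inner_le_norm _ _)
    (by
      intro ψ s hs h1
      have h2 := hinf ψ.1 ψ.2 s hs (by
        intro u hu
        have h3 := h1 ⟨u, hu⟩
        rw [hB] at h3
        have h4 := hnorm _ _ oxx oid _ _ hW hW' ⟨u, hu⟩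
        rw [← h4] at h3
        exact h3)
      have h5 := hnorm _ _ oxx oid _ _ hWi hW''i ψ
      show ‖pairL (oxx.lin hWi) (oid.lin hW''i) ψ‖ ≤ C * s
      rw [← h5]
      exact h2)
  -- representatives
  have mz1 : StronglyMeasurable (z.fst : ℝ × ℝ → ℝ) := Lp.stronglyMeasurable _
  have mz2 : StronglyMeasurable (z.snd : ℝ × ℝ → ℝ) := Lp.stronglyMeasurable _
  let b : ℝ → ℝ → ℝ := fun τ x => (z.fst : ℝ × ℝ → ℝ) (τ, x) / √(Wt κ τ x * x ^ 9)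
  let δ : ℝ → ℝ → ℝ := fun τ x => (z.snd : ℝ × ℝ → ℝ) (τ, x) / √(Wt' κ τ x * x ^ 9)
  have hs1 : ∀ p ∈ Dm L, 0 < √(Wt κ p.1 p.2 * p.2 ^ 9) := fun p hp =>
    Real.sqrt_pos.2 (mul_pos (hW.pos p hp) (pow_pos hp.2.1 9))
  have hs2 : ∀ p ∈ Dm L, 0 < √(Wt' κ p.1 p.2 * p.2 ^ 9) := fun p hp =>
    Real.sqrt_pos.2 (mul_pos (hW'.pos p hp) (pow_pos hp.2.1 9))
  have hb : ∀ p ∈ Dm L, emb (Wt κ) b p = (z.fst : ℝ × ℝ → ℝ) p := fun p hp =>
    mul_div_cancel₀ _ (hs1 p hp).ne'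
  have hd : ∀ p ∈ Dm L, emb (Wt' κ) δ p = (z.snd : ℝ × ℝ → ℝ) p := fun p hp =>
    mul_div_cancel₀ _ (hs2 p hp).ne'
  have hb' : emb (Wt κ) b =ᵐ[μD L] (z.fst : ℝ × ℝ → ℝ) := by
    filter_upwards [ae_mem_Dm (L := L)] with p hp using hb p hp
  have hd' : emb (Wt' κ) δ =ᵐ[μD L] (z.snd : ℝ × ℝ → ℝ) := by
    filter_upwards [ae_mem_Dm (L := L)] with p hp using hd p hp
  have mb : MemLp (emb (Wt κ) b) 2 (μD L) := (memLp_congr_ae hb').2 (Lp.memLp _)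
  have md : MemLp (emb (Wt' κ) δ) 2 (μD L) := (memLp_congr_ae hd').2 (Lp.memLp _)
  have ezb : mb.toLp _ = z.fst := by
    rw [← Lp.toLp_coeFn z.fst (Lp.memLp _)]
    exact MemLp.toLp_congr _ _ hb'
  have ezd : md.toLp _ = z.snd := by
    rw [← Lp.toLp_coeFn z.snd (Lp.memLp _)]
    exact MemLp.toLp_congr _ _ hd'
  refine ⟨b, δ, ?_, ?_, ?_, ?_, ?_⟩
  · exact mz1.measurable.div ((meas_W κ).mul (by fun_prop)).sqrt
  · exact mz2.measurable.div ((((meas_W κ).div measurable_fst)).mul (by fun_prop)).sqrt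
  · -- bound
    rw [N2_eq (fun p hp => (hW.pos p hp).le), N2_eq (fun p hp => (hW'.pos p hp).le),
      N2_eq (fun p hp => (hW.pos p hp).le), N2_eq (fun p hp => (hW''.pos p hp).le),
      ← norm_toLp_sq mb, ← norm_toLp_sq md, ← norm_toLp_sq mh, ← norm_toLp_sq mE, ezb, ezd,
      ← ENNReal.ofReal_add (sq_nonneg _) (sq_nonneg _),
      ← ENNReal.ofReal_add (sq_nonneg _) (sq_nonneg _), ← ENNReal.ofReal_mul (sq_nonneg _)]
    apply ENNReal.ofReal_le_ofReal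
    rw [← norm_HH_sq z]
    have h1 : ‖Gd‖ ^ 2 = ‖mh.toLp _‖ ^ 2 + ‖mE.toLp _‖ ^ 2 := norm_HH_sq Gd
    rw [← h1, ← mul_pow]
    exact pow_le_pow_left₀ (norm_nonneg _) hz1 2
  · -- approximation
    obtain ⟨w, hw1, hw2⟩ := mem_closure_iff_seq_limit.1 hz
    choose u hu using hw1
    refine ⟨fun k => (u k).1, fun k => (u k).2, ?_, ?_⟩
    · have h1 : ∀ k, N2 L (Wt κ) (fun τ x => φ τ x * dx L (dx L (u k).1) τ x - b τ x) =
          ENNReal.ofReal (‖(w k).fst - z.fst‖ ^ 2) := by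
        intro k
        rw [N2_eq (fun p hp => (hW.pos p hp).le)]
        have h2 : emb (Wt κ) (fun τ x => φ τ x * dx L (dx L (u k).1) τ x - b τ x) =
            emb (Wt κ) (fun τ x => φ τ x * dx L (dx L (u k).1) τ x) - emb (Wt κ) b := by
          funext p
          simp only [emb, Pi.sub_apply]; ring
        have h3 := (oxx.memLp hW (u k).2).sub mb
        rw [h2, ← norm_toLp_sq h3, MemLp.toLp_sub (oxx.memLp hW (u k).2) mb, ezb]
        congr 4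
        rw [← hu k]
        rfl
      simp only [h1]
      have h4 : Tendsto (fun k => ‖(w k).fst - z.fst‖ ^ 2) atTop (𝓝 0) := by
        have h5 : Tendsto (fun k => (w k).fst - z.fst) atTop (𝓝 0) := by
          have h6 : Tendsto (fun k => (w k).fst) atTop (𝓝 z.fst) :=
            ((WithLp.prod_continuous_ofLp 2 _ _).fst.tendsto z).comp hw2
          have := h6.sub_const z.fst
          rwa [sub_self] at this
        have h7 := (h5.norm).pow 2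
        simpa using h7
      have h8 := (ENNReal.continuous_ofReal.tendsto 0).comp h4
      rw [ENNReal.ofReal_zero] at h8
      exact h8
    · have h1 : ∀ k, N2 L (Wt' κ) (fun τ x => (u k).1 τ x - δ τ x) =
          ENNReal.ofReal (‖(w k).snd - z.snd‖ ^ 2) := by
        intro k
        rw [N2_eq (fun p hp => (hW'.pos p hp).le)]
        have h2 : emb (Wt' κ) (fun τ x => (u k).1 τ x - δ τ x) =
            emb (Wt' κ) (u k).1 - emb (Wt' κ) δ := by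
          funext p
          simp only [emb, Pi.sub_apply]; ring
        have h3 := (oid.memLp hW' (u k).2).sub md
        rw [h2, ← norm_toLp_sq h3, MemLp.toLp_sub (oid.memLp hW' (u k).2) md, ezd]
        congr 4
        rw [← hu k]
        rfl
      simp only [h1]
      have h4 : Tendsto (fun k => ‖(w k).snd - z.snd‖ ^ 2) atTop (𝓝 0) := by
        have h5 : Tendsto (fun k => (w k).snd - z.snd) atTop (𝓝 0) := by
          have h6 : Tendsto (fun k => (w k).snd) atTop (𝓝 z.snd) :=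
            ((WithLp.prod_continuous_ofLp 2 _ _).snd.tendsto z).comp hw2
          have := h6.sub_const z.snd
          rwa [sub_self] at this
        have h7 := (h5.norm).pow 2
        simpa using h7
      have h8 := (ENNReal.continuous_ofReal.tendsto 0).comp h4
      rw [ENNReal.ofReal_zero] at h8
      exact h8
  · -- weak equation
    intro ψ hψ
    rw [← hFeq ⟨ψ, hψ⟩, ← hz2 ⟨ψ, hψ⟩, inner_HH]
    show _ = ⟪z.fst, (oxx.memLp hWi hψ).toLp _⟫ + ⟪z.snd, (odt.memLp hW'i hψ).toLp _⟫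
    rw [← ezb, ← ezd, inner_toLp, inner_toLp,
      ← integral_add (integrable_mul mb (oxx.memLp hWi hψ))
        (integrable_mul md (odt.memLp hW'i hψ)), II]
    refine setIntegral_congr_fun measurableSet_Dm fun p hp => ?_
    show _ = emb (Wt κ) _ p * emb (fun τ x => (Wt κ τ x)⁻¹) _ p +
        emb (Wt' κ) _ p * emb (fun τ x => (Wt' κ τ x)⁻¹) _ p
    rw [emb_mul hp (hW.pos p hp), emb_mul hp (hW'.pos p hp)]
    ring

end Main

end Crest.Agent.R213.A.Dual
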