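import Crest.Agent.R213.A.ADefs
import Crest.Agent.R213.A.Dual

/-!
# Row 213, PART A: from the a priori estimate `APE` to weak solutions
-/

set_option autoImplicit false

open Set MeasureTheory Filter Topology
open scoped ENNReal

noncomputable section

namespace Crest.Agent.R213.A

open Crest.Agent.R213.A.Dual

variable {L : ℝ}

theorem emb_sq {V f : ℝ → ℝ → ℝ} {p : ℝ × ℝ} (hp : p ∈ Dm L) (hV : 0 < V p.1 p.2) :
    emb V f p * emb V f p = p.2 ^ 9 * (V p.1 p.2 * f p.1 p.2 ^ 2) := by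
  have h9 : 0 ≤ V p.1 p.2 * p.2 ^ 9 := mul_nonneg hV.le (pow_nonneg hp.2.1.le 9)
  unfold emb
  have h1 : √(V p.1 p.2 * p.2 ^ 9) * √(V p.1 p.2 * p.2 ^ 9) = V p.1 p.2 * p.2 ^ 9 :=
    Real.mul_self_sqrt h9
  calc _ = √(V p.1 p.2 * p.2 ^ 9) * √(V p.1 p.2 * p.2 ^ 9) * (f p.1 p.2) ^ 2 := by ring
    _ = _ := by rw [h1]; ring

/-- the weighted norm of a function in `L²` is the obvious integral -/
theorem N2_int {V f : ℝ → ℝ → ℝ} (hV : ∀ p ∈ Dm L, 0 < V p.1 p.2)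
    (hm : MemLp (emb V f) 2 (μD L)) :
    IntegrableOn (fun p : ℝ × ℝ => p.2 ^ 9 * (V p.1 p.2 * f p.1 p.2 ^ 2)) (Dm L) ∧
      N2 L V f = ENNReal.ofReal (II L (fun τ x => x ^ 9 * (V τ x * f τ x ^ 2))) := by
  have h1 := integrable_mul hm hm
  have h2 : IntegrableOn (fun p : ℝ × ℝ => p.2 ^ 9 * (V p.1 p.2 * f p.1 p.2 ^ 2)) (Dm L) :=
    h1.congr_fun (fun p hp => emb_sq hp (hV p hp)) measurableSet_Dm
  refine ⟨h2, ?_⟩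
  rw [N2_eq (fun p hp => (hV p hp).le), ← norm_toLp_sq hm, ← real_inner_self_eq_norm_sq,
    inner_toLp hm hm, II]
  congr 1
  exact setIntegral_congr_fun measurableSet_Dm fun p hp => emb_sq hp (hV p hp)

theorem N2_add_int {V₁ V₂ f₁ f₂ : ℝ → ℝ → ℝ} (hV₁ : ∀ p ∈ Dm L, 0 < V₁ p.1 p.2)
    (hV₂ : ∀ p ∈ Dm L, 0 < V₂ p.1 p.2)
    (hm₁ : MemLp (emb V₁ f₁) 2 (μD L)) (hm₂ : MemLp (emb V₂ f₂) 2 (μD L)) :
    (N2 L V₁ f₁ + N2 L V₂ f₂).toReal =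
      II L (fun τ x => x ^ 9 * (V₁ τ x * f₁ τ x ^ 2 + V₂ τ x * f₂ τ x ^ 2)) := by
  obtain ⟨i1, e1⟩ := N2_int hV₁ hm₁
  obtain ⟨i2, e2⟩ := N2_int hV₂ hm₂
  have n1 : 0 ≤ II L (fun τ x => x ^ 9 * (V₁ τ x * f₁ τ x ^ 2)) :=
    setIntegral_nonneg measurableSet_Dm fun p hp =>
      mul_nonneg (pow_nonneg hp.2.1.le 9) (mul_nonneg (hV₁ p hp).le (sq_nonneg _))
  have n2 : 0 ≤ II L (fun τ x => x ^ 9 * (V₂ τ x * f₂ τ x ^ 2)) :=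
    setIntegral_nonneg measurableSet_Dm fun p hp =>
      mul_nonneg (pow_nonneg hp.2.1.le 9) (mul_nonneg (hV₂ p hp).le (sq_nonneg _))
  rw [e1, e2, ← ENNReal.ofReal_add n1 n2, ENNReal.toReal_ofReal (add_nonneg n1 n2), II, II, II]
  have := integral_add i1 i2
  rw [show (Ioo (0 : ℝ) 1 ×ˢ Ioo (0 : ℝ) L : Set (ℝ × ℝ)) = Dm L from rfl, ← this]
  exact setIntegral_congr_fun measurableSet_Dm fun p _ => (mul_add _ _ _).symm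

theorem nX_eq (hL : 0 < L) {κ : ℝ} {φ : ℝ → ℝ → ℝ}
    (hφ : ContinuousOn (fun p : ℝ × ℝ => φ p.1 p.2) (Ioo (0 : ℝ) 1 ×ˢ Icc (0 : ℝ) L))
    {u : ℝ → ℝ → ℝ} (hu : Tst L u) :
    (N2 L (Wt κ) (fun τ x => φ τ x * dx L (dx L u) τ x) + N2 L (Wt' κ) u).toReal =
      nX κ L φ u := by
  rw [N2_add_int (wgt_W κ).pos (wgt_W' κ).pos ((op_dxx hL hφ).memLp (wgt_W κ) hu)
    (op_id.memLp (wgt_W' κ) hu), nX]
  rfl

theorem nY_eq (hL : 0 < L) {κ : ℝ} {φ : ℝ → ℝ → ℝ}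
    (hφ : ContinuousOn (fun p : ℝ × ℝ => φ p.1 p.2) (Ioo (0 : ℝ) 1 ×ˢ Icc (0 : ℝ) L))
    {ψ : ℝ → ℝ → ℝ} (hψ : Tst L ψ) :
    (N2 L (fun τ x => (Wt κ τ x)⁻¹) (fun τ x => φ τ x * dx L (dx L ψ) τ x) +
      N2 L (fun τ x => (Wt'' κ τ x)⁻¹) ψ).toReal = nY κ L φ ψ := by
  rw [N2_add_int (wgt_Wi κ).pos (wgt_W''i κ).pos ((op_dxx hL hφ).memLp (wgt_Wi κ) hψ)
    (op_id.memLp (wgt_W''i κ) hψ), nY]
  congr 1
  funext τ x
  rw [Wt'']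
  ring

theorem nX_nonneg {κ : ℝ} {φ u : ℝ → ℝ → ℝ} : 0 ≤ nX κ L φ u := by
  refine setIntegral_nonneg (measurableSet_Dm (L := L)) fun p hp => ?_
  have h0 : 0 < p.1 := hp.1.1
  have h1 := Wt_pos κ (x := p.2) h0
  exact mul_nonneg (pow_nonneg hp.2.1.le 9) (by positivity)

theorem nY_nonneg {κ : ℝ} {φ u : ℝ → ℝ → ℝ} : 0 ≤ nY κ L φ u := by
  refine setIntegral_nonneg (measurableSet_Dm (L := L)) fun p hp => ?_
  have h0 : 0 < p.1 := hp.1.1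
  have h1 := Wt_pos κ (x := p.2) h0
  exact mul_nonneg (pow_nonneg hp.2.1.le 9) (by positivity)

theorem phi_cont {c0 C0 : ℝ} {g : ℝ → ℝ} {L : ℝ} {φ m : ℝ → ℝ → ℝ} (hB : Bg c0 C0 g L φ m) :
    ContinuousOn (fun p : ℝ × ℝ => φ p.1 p.2) (Ioo (0 : ℝ) 1 ×ˢ Icc (0 : ℝ) L) := by
  have h1 : ContinuousOn (fun p : ℝ × ℝ => p.2 * (1 - p.2 / L) * m p.1 p.2)
      (Ioo (0 : ℝ) 1 ×ˢ Icc (0 : ℝ) L) :=
    ContinuousOn.mul (by fun_prop) hB.sm.continuousOn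
  exact h1.congr fun p hp => hB.phi_eq p.1 hp.1 p.2 hp.2

theorem dual {c0 C0 : ℝ} {g : ℝ → ℝ} {κ L C : ℝ} {φ m : ℝ → ℝ → ℝ} (hB : Bg c0 C0 g L φ m)
    (hC : 0 ≤ C) (h : APE κ L C φ) :
    ∀ E h : ℝ → ℝ → ℝ, Sm (Ioo 0 1) L E → Sm (Ioo 0 1) L h →
        N2 L (Wt'' κ) E < ⊤ → N2 L (Wt κ) h < ⊤ →
      ∃ b δ : ℝ → ℝ → ℝ, Measurable (fun p : ℝ × ℝ => b p.1 p.2) ∧
        Measurable (fun p : ℝ × ℝ => δ p.1 p.2) ∧
        N2 L (Wt κ) b + N2 L (Wt' κ) δ ≤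
          ENNReal.ofReal C * (N2 L (Wt κ) h + N2 L (Wt'' κ) E) ∧
        (∃ u : ℕ → ℝ → ℝ → ℝ, (∀ k, Tst L (u k)) ∧
          Tendsto (fun k => N2 L (Wt κ) (fun τ x => φ τ x * dx L (dx L (u k)) τ x - b τ x))
            atTop (𝓝 0) ∧
          Tendsto (fun k => N2 L (Wt' κ) (fun τ x => u k τ x - δ τ x)) atTop (𝓝 0)) ∧
        (∀ ψ, Tst L ψ →
          II L (fun τ x => x ^ 9 * (dt ψ τ x * δ τ x + φ τ x * dx L (dx L ψ) τ x * b τ x)) =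
            II L (fun τ x => x ^ 9 * (E τ x * ψ τ x + h τ x * φ τ x * dx L (dx L ψ) τ x))) := by
  have hL : 0 < L := by linarith [hB.L_ge]
  have hφ := phi_cont hB
  intro E f hE hf hE2 hf2
  have key := weak_of_infsup hL hφ (κ := κ) (Real.sqrt_nonneg C) (by
    intro ψ hψ s hs hu
    have h1 := h ψ hψ (s ^ 2) (sq_nonneg s) (by
      intro u hu'
      have h2 := hu u hu'
      rw [nX_eq hL hφ hu'] at h2
      have h3 : BB L φ u ψ = II L (fun τ x => x ^ 9 * (dt ψ τ x * u τ x +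
          φ τ x * dx L (dx L ψ) τ x * (φ τ x * dx L (dx L u) τ x))) := by
        rw [BB]
        congr 1
        funext τ x
        ring
      rw [h3, ← sq_abs]
      calc _ ≤ (s * √(nX κ L φ u)) ^ 2 := pow_le_pow_left₀ (abs_nonneg _) h2 2
        _ = s ^ 2 * nX κ L φ u := by rw [mul_pow, Real.sq_sqrt nX_nonneg])
    rw [nY_eq hL hφ hψ]
    calc √(nY κ L φ ψ) ≤ √(C * s ^ 2) := Real.sqrt_le_sqrt h1
      _ = √C * s := by rw [Real.sqrt_mul hC, Real.sqrt_sq hs]) hE hf hE2 hf2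
  rwa [Real.sq_sqrt hC] at key

end Crest.Agent.R213.A
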