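import Crest.Agent.R213.A.FourMain

/-!
# Row 213, part A, block A-FOUR (helper944): `StEst g κ C → InEst g κ C`
-/

set_option autoImplicit false

open Set MeasureTheory Filter Topology
open scoped ContDiff FourierTransform InnerProductSpace ENNReal

noncomputable section

namespace Crest.Agent.R213.A

variable {g : ℝ → ℝ} {κ : ℝ}

/-- density of the `Y` norm -/
def GY (g : ℝ → ℝ) (Z P : ℝ → ℝ → ℂ) (s y : ℝ) : ℝ :=
  y ^ 9 * w60 y * ((y * g y) ^ 2 * ‖Z s y‖ ^ 2 + ‖P s y‖ ^ 2)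

lemma GY_nonneg {Z P : ℝ → ℝ → ℂ} {s y : ℝ} (hy : 0 < y) : 0 ≤ GY g Z P s y := by
  unfold GY
  have := w60_pos944 y
  positivity

lemma GY_contOn (hg : Continuous g) {Z P : ℝ → ℝ → ℂ}
    (hZ : ContinuousOn (fun p : ℝ × ℝ => Z p.1 p.2) (univ ×ˢ Ici 0))
    (hP : ContinuousOn (fun p : ℝ × ℝ => P p.1 p.2) (univ ×ˢ Ici 0)) :
    ContinuousOn (fun p : ℝ × ℝ => GY g Z P p.1 p.2) (univ ×ˢ Ioi 0) := by
  have hcy : Continuous (fun p : ℝ × ℝ => p.2 ^ 9 * w60 p.2) :=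
    (continuous_snd.pow 9).mul (w60_cont944.comp continuous_snd)
  have hcg : Continuous (fun p : ℝ × ℝ => (p.2 * g p.2) ^ 2) := by fun_prop
  unfold GY
  exact (hcy.continuousOn.mul ((hcg.continuousOn.mul (hZ.norm.pow 2)).add (hP.norm.pow 2))).mono
    (fun p hp => ⟨hp.1, show (0 : ℝ) ≤ p.2 from le_of_lt hp.2⟩)

lemma prod_restrict' : (volume : Measure (ℝ × ℝ)).restrict (univ ×ˢ Ioi 0) =
    (volume : Measure ℝ).prod mu := by
  rw [Measure.volume_eq_prod, ← Measure.prod_restrict, Measure.restrict_univ]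

lemma GY_aem (hg : Continuous g) {Z P : ℝ → ℝ → ℂ}
    (hZ : ContinuousOn (fun p : ℝ × ℝ => Z p.1 p.2) (univ ×ˢ Ici 0))
    (hP : ContinuousOn (fun p : ℝ × ℝ => P p.1 p.2) (univ ×ˢ Ici 0)) :
    AEMeasurable (fun p : ℝ × ℝ => ENNReal.ofReal (GY g Z P p.1 p.2))
      ((volume : Measure ℝ).prod mu) := by
  rw [← prod_restrict']
  exact ((GY_contOn hg hZ hP).aemeasurable (MeasurableSet.univ.prod measurableSet_Ioi)).ennreal_ofReal

/-- for fixed `y`, Plancherel in `s` -/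
lemma GY_planch {Z P : ℝ → ℝ → ℂ} (hZ : TS Z) (hP : TS P) {y : ℝ} (hy : 0 < y) :
    ∫⁻ s, ENNReal.ofReal (GY g Z P s y) = ∫⁻ ξ, ENNReal.ofReal (GY g (hat Z) (hat P) ξ y) := by
  have hn := w60_pos944 y
  have h1 : ∀ (Z P : ℝ → ℝ → ℂ) (s : ℝ), ENNReal.ofReal (GY g Z P s y) =
      ENNReal.ofReal (y ^ 9 * w60 y * (y * g y) ^ 2) * ENNReal.ofReal (‖Z s y‖ ^ 2) +
        ENNReal.ofReal (y ^ 9 * w60 y) * ENNReal.ofReal (‖P s y‖ ^ 2) := by
    intro Z P s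
    rw [← ENNReal.ofReal_mul (by positivity), ← ENNReal.ofReal_mul (by positivity),
      ← ENNReal.ofReal_add (by positivity) (by positivity)]
    unfold GY
    congr 1
    ring
  have m1 : ∀ {Q : ℝ → ℝ → ℂ}, TS Q → Measurable (fun s => ENNReal.ofReal (‖Q s y‖ ^ 2)) :=
    fun hQ => ((hQ.sliceS hy.le).continuous.norm.pow 2).measurable.ennreal_ofReal
  have m2 : ∀ {Q : ℝ → ℝ → ℂ}, TS Q → Measurable (fun s => ENNReal.ofReal (‖hat Q s y‖ ^ 2)) := by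
    intro Q hQ
    have hc : Continuous (fun s => hat Q s y) := by
      rw [← continuousOn_univ]
      exact hQ.hat_joint.continuousOn.comp (f := fun s : ℝ => (s, y)) (by fun_prop)
        (fun s _ => ⟨trivial, hy.le⟩)
    exact (hc.norm.pow 2).measurable.ennreal_ofReal
  simp only [h1]
  rw [lintegral_add_left ((m1 hZ).const_mul _), lintegral_const_mul _ (m1 hZ),
    lintegral_const_mul _ (m1 hP), lintegral_add_left ((m2 hZ).const_mul _),
    lintegral_const_mul _ (m2 hZ), lintegral_const_mul _ (m2 hP)]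
  have p1 := plancherel_lintegral (hZ.sliceS hy.le) (hZ.compS hy.le)
  have p2 := plancherel_lintegral (hP.sliceS hy.le) (hP.compS hy.le)
  rw [← p1, ← p2]
  rfl

lemma nYS_hat (hg : Continuous g) {P : ℝ → ℝ → ℂ} (hP : TS P) (ξ : ℝ) :
    ENNReal.ofReal (stY g (hat P ξ)) =
      ∫⁻ y in Ioi (0 : ℝ), ENNReal.ofReal (GY g (hat (zz1 P)) (hat P) ξ y) := by
  have hT := hP.hat_TD ξ
  rw [nYS_eq hT]
  have e : (∫ y in Ioi (0 : ℝ), y ^ 9 * w60 y * ((y * g y) ^ 2 * ‖dh (dh (hat P ξ)) y‖ ^ 2 +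
      ‖hat P ξ y‖ ^ 2)) = ∫ y in Ioi (0 : ℝ), GY g (hat (zz1 P)) (hat P) ξ y := by
    refine setIntegral_congr_fun measurableSet_Ioi fun y hy => ?_
    unfold GY
    simp only [hat_zz1 hP ξ (le_of_lt hy)]
  rw [e]
  have hT1 := (hP.zz1.hat_TD ξ)
  have hcd : CD (fun y => GY g (hat (zz1 P)) (hat P) ξ y) := by
    obtain ⟨R, hR⟩ := hT.2
    obtain ⟨R', hR'⟩ := hT1.2
    refine ⟨?_, max R R', fun y h0 hy => ?_⟩
    · unfold GY
      have hcy : Continuous (fun y : ℝ => y ^ 9 * w60 y) := (continuous_id.pow 9).mul w60_cont944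
      have hcg : Continuous (fun y : ℝ => (y * g y) ^ 2) := by fun_prop
      exact hcy.continuousOn.mul ((hcg.continuousOn.mul (hT1.cont.norm.pow 2)).add
        (hT.cont.norm.pow 2))
    · unfold GY
      simp only [hR y (le_trans (le_max_left _ _) hy), hR' y (le_trans (le_max_right _ _) hy)]
      simp
  exact ofReal_integral_eq_lintegral_ofReal hcd.integrableOn
    ((ae_restrict_mem measurableSet_Ioi).mono fun y hy => GY_nonneg hy)

lemma aST_hat {V : ℝ → ℂ} (hV : TD V) {P : ℝ → ℝ → ℂ} (hP : TS P) (ξ : ℝ) :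
    stForm g κ (2 * Real.pi * ξ) V (hat P ξ) =
      ∫ y in Ioi (0 : ℝ), fX g V (hat (zz1 P) ξ) (hat (zz2 κ P) ξ) y := by
  rw [aST_eq hV (hP.hat_TD ξ)]
  refine setIntegral_congr_fun measurableSet_Ioi fun y hy => ?_
  rw [fX_eq, fX_eq, hat_zz1 hP ξ (le_of_lt hy), hat_zz2 hP ξ (le_of_lt hy)]

/-- the static estimate at one frequency -/
lemma at_freq (hg : ContDiff ℝ ∞ g) {C : ℝ} (h : StEst g κ C) {P : ℝ → ℝ → ℂ} (hP : TS P)
    {e : ℕ → HH} {V : ℕ → ℝ → ℂ} (hV : ∀ k, TD (V k))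
    (heV : ∀ k, (e k : ℝ → C2) =ᵐ[mu] vecX g (V k))
    (hgs : ∀ (h : HH) (S : ℝ), (∀ n, ∑ k ∈ Finset.range n, ‖(inner ℂ (e k) h : ℂ)‖ ^ 2 ≤ S) →
        ∀ v ∈ subE g, ‖(inner ℂ v h : ℂ)‖ ^ 2 ≤ S * ‖v‖ ^ 2)
    (ξ M : ℝ) (hM0 : 0 ≤ M)
    (hM : ∀ n, ∑ k ∈ Finset.range n, ‖𝓕 (qV g κ P (V k)) ξ‖ ^ 2 ≤ M) :
    stY g (hat P ξ) ≤ C * M := by
  obtain ⟨h0, hh⟩ := exists_vecY hg.continuous (hP.zz1.hat_TD ξ).toCD
    ((hP.zz2 (κ := κ)).hat_TD ξ).toCD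
  refine h (2 * Real.pi * ξ) (hat P ξ) (hP.hat_TD ξ).toDD M hM0 fun W hW => ?_
  obtain ⟨x, hx⟩ := exists_vec hg.continuous hW.toTD
  have h1 := hgs h0 M (fun n => ?_) x ⟨W, hW.toTD, hx⟩
  · rwa [inner_HH hx hh, ← aST_hat hW.toTD hP ξ, norm_HH hW.toTD hx] at h1
  · refine le_trans (le_of_eq (Finset.sum_congr rfl fun k _ => ?_)) (hM n)
    rw [inner_HH (heV k) hh, ← aST_hat (hV k) hP ξ, fourier_qV hg (hV k) hP ξ]

theorem four_core (hg : ContDiff ℝ ∞ g) {C : ℝ} (hC : 0 ≤ C) (h : StEst g κ C) : InEst g κ C := by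
  intro P hP S hS0 hS
  have hPT := hP.toTS
  have : Fact ((2 : ENNReal) ≠ ⊤) := ⟨by simp⟩
  obtain ⟨e, heE, horth, hn, hgs⟩ := exists_gs (subE g)
  choose V hV heV using heE
  have hsum := sum_q_le hg hP hS0 hS e V hV heV horth hn
  set q : ℕ → ℝ → ℂ := fun k => qV g κ (cx P) (V k) with hq
  have hqs : ∀ k, ContDiff ℝ ∞ (q k) := fun k => (qV_smooth hg (hV k) hPT).1
  have hqc : ∀ k, HasCompactSupport (q k) := fun k => (qV_smooth hg (hV k) hPT).2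
  -- the frequency function
  set M : ℝ → ℝ≥0∞ := fun ξ => ∑' k, ENNReal.ofReal (‖𝓕 (q k) ξ‖ ^ 2) with hMdef
  have hcont : ∀ k, Continuous (𝓕 (q k)) := by
    intro k
    have e2 : ((𝓕 ((hqc k).toSchwartzMap (hqs k)) : SchwartzMap ℝ ℂ) : ℝ → ℂ) = 𝓕 (q k) := by
      rw [SchwartzMap.fourier_coe]; rfl
    rw [← e2]
    exact SchwartzMap.continuous _
  have hmeas : ∀ k, Measurable (fun ξ => ENNReal.ofReal (‖𝓕 (q k) ξ‖ ^ 2)) :=
    fun k => ((hcont k).norm.pow 2).measurable.ennreal_ofReal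
  have hMm : Measurable M := Measurable.tsum hmeas
  have hMint : ∫⁻ ξ, M ξ ≤ ENNReal.ofReal S := by
    rw [lintegral_tsum fun k => (hmeas k).aemeasurable]
    have h1 : ∀ k, ∫⁻ ξ, ENNReal.ofReal (‖𝓕 (q k) ξ‖ ^ 2) =
        ENNReal.ofReal (∫ s, ‖q k s‖ ^ 2) := by
      intro k
      rw [plancherel_lintegral (hqs k) (hqc k),
        ofReal_integral_eq_lintegral_ofReal (int_sq (hqs k) (hqc k))
          (Filter.Eventually.of_forall fun _ => by positivity)]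
    simp only [h1]
    refine ENNReal.tsum_le_of_sum_range_le fun n => ?_
    rw [← ENNReal.ofReal_sum_of_nonneg fun k _ => integral_nonneg fun s => by positivity]
    exact ENNReal.ofReal_le_ofReal (hsum n)
  have hMfin : ∀ᵐ ξ, M ξ < ⊤ :=
    ae_lt_top hMm (ne_top_of_le_ne_top ENNReal.ofReal_ne_top hMint)
  have hpt : ∀ᵐ ξ, ENNReal.ofReal (stY g (hat (cx P) ξ)) ≤ ENNReal.ofReal C * M ξ := by
    filter_upwards [hMfin] with ξ hξ
    have hb : ∀ n, ∑ k ∈ Finset.range n, ‖𝓕 (q k) ξ‖ ^ 2 ≤ (M ξ).toReal := by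
      intro n
      have h1 : ENNReal.ofReal (∑ k ∈ Finset.range n, ‖𝓕 (q k) ξ‖ ^ 2) ≤ M ξ := by
        rw [ENNReal.ofReal_sum_of_nonneg fun k _ => by positivity]
        exact ENNReal.sum_le_tsum _
      exact (ENNReal.ofReal_le_iff_le_toReal hξ.ne).1 h1
    have h2 := at_freq hg h hPT hV heV hgs ξ (M ξ).toReal ENNReal.toReal_nonneg hb
    calc ENNReal.ofReal (stY g (hat (cx P) ξ)) ≤ ENNReal.ofReal (C * (M ξ).toReal) :=
          ENNReal.ofReal_le_ofReal h2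
      _ = ENNReal.ofReal C * M ξ := by rw [ENNReal.ofReal_mul hC, ENNReal.ofReal_toReal hξ.ne]
  -- the `Y` norm
  have hchain : ∫⁻ p in (univ ×ˢ Ioi 0 : Set (ℝ × ℝ)),
      ENNReal.ofReal (GY g (zz1 (cx P)) (cx P) p.1 p.2) =
        ∫⁻ ξ, ENNReal.ofReal (stY g (hat (cx P) ξ)) := by
    have hg' := hg.continuous
    rw [prod_restrict', lintegral_prod_symm _ (GY_aem hg' hPT.zz1.cont hPT.cont)]
    have h1 : ∀ᵐ y ∂mu, ∫⁻ s, ENNReal.ofReal (GY g (zz1 (cx P)) (cx P) s y) =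
        ∫⁻ ξ, ENNReal.ofReal (GY g (hat (zz1 (cx P))) (hat (cx P)) ξ y) :=
      (ae_restrict_mem measurableSet_Ioi).mono fun y hy => GY_planch hPT.zz1 hPT hy
    rw [lintegral_congr_ae h1]
    have h2 := GY_aem hg' (Z := hat (zz1 (cx P))) (P := hat (cx P))
      hPT.zz1.hat_joint.continuousOn hPT.hat_joint.continuousOn
    rw [← lintegral_prod_symm _ h2, lintegral_prod _ h2]
    refine lintegral_congr fun ξ => ?_
    exact (nYS_hat hg' hPT ξ).symm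
  have hint : ∫⁻ p in (univ ×ˢ Ioi 0 : Set (ℝ × ℝ)),
      ENNReal.ofReal (GY g (zz1 (cx P)) (cx P) p.1 p.2) ≤ ENNReal.ofReal (C * S) := by
    rw [hchain]
    calc ∫⁻ ξ, ENNReal.ofReal (stY g (hat (cx P) ξ)) ≤ ∫⁻ ξ, ENNReal.ofReal C * M ξ :=
          lintegral_mono_ae hpt
      _ = ENNReal.ofReal C * ∫⁻ ξ, M ξ := lintegral_const_mul _ hMm
      _ ≤ ENNReal.ofReal C * ENNReal.ofReal S := by gcongr
      _ = ENNReal.ofReal (C * S) := (ENNReal.ofReal_mul hC).symm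
  have hY : nYI g P = ∫ p in (univ ×ˢ Ioi 0 : Set (ℝ × ℝ)), GY g (zz1 (cx P)) (cx P) p.1 p.2 := by
    unfold nYI
    refine setIntegral_congr_fun (MeasurableSet.univ.prod measurableSet_Ioi) fun p hp => ?_
    have hy : (0 : ℝ) < p.2 := hp.2
    show p.2 ^ 9 * w60 p.2 * ((p.2 * g p.2) ^ 2 * deriv (deriv (P p.1)) p.2 ^ 2 + P p.1 p.2 ^ 2) = _
    rw [deriv2_eq (hP.toTSR.slice p.1) hy]
    unfold GY
    have z1 : zz1 (cx P) p.1 p.2 = ((dh (dh (P p.1)) p.2 : ℝ) : ℂ) := cx_dyy hP p.1 hy.le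
    rw [z1]
    unfold cx
    rw [Complex.norm_real, Complex.norm_real, Real.norm_eq_abs, Real.norm_eq_abs, sq_abs, sq_abs]
  rw [hY, integral_eq_lintegral_of_nonneg_ae]
  · exact ENNReal.toReal_le_of_le_ofReal (by positivity) hint
  · exact (ae_restrict_mem (MeasurableSet.univ.prod measurableSet_Ioi)).mono
      fun p hp => GY_nonneg hp.2
  · exact ((GY_contOn hg.continuous hPT.zz1.cont hPT.cont).aemeasurable
      (MeasurableSet.univ.prod measurableSet_Ioi)).aestronglyMeasurable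

/-- **A-FOUR** -/
theorem four {c0 C0 : ℝ} {g : ℝ → ℝ} (hg : Prof c0 C0 g) {κ C : ℝ} (hC : 0 ≤ C)
    (h : StEst g κ C) : InEst g κ C := four_core hg.smooth hC h

end Crest.Agent.R213.A
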