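import Mathlib

/-!
# Row 213, part A, block A-FOUR (helper944): abstract parts

* `exists_gs`: in a second countable Hilbert space every subspace `E` has a sequence of orthogonal vectors of
  norm `0` or `1` which computes the norm of every continuous functional on `E`.
* `plancherel`: Plancherel for smooth compactly supported functions.
-/

set_option autoImplicit false

open Set MeasureTheory Filter Topology
open scoped ContDiff FourierTransform InnerProductSpace

noncomputable section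

namespace Crest.Agent.R213.A

section gs
variable {H : Type*} [NormedAddCommGroup H] [InnerProductSpace ℂ H]

local notation "⟪" x ", " y "⟫" => inner ℂ x y

lemma gs_finsupp (e : ℕ → H) (horth : ∀ i j, i ≠ j → ⟪e i, e j⟫ = 0)
    (hn : ∀ i, e i = 0 ∨ ‖e i‖ = 1) (h : H) (S : ℝ)
    (hS : ∀ n, ∑ k ∈ Finset.range n, ‖⟪e k, h⟫‖ ^ 2 ≤ S) (c : ℕ →₀ ℂ) :
    ‖⟪c.sum fun i a => a • e i, h⟫‖ ^ 2 ≤ S * ‖c.sum fun i a => a • e i‖ ^ 2 := by
  classical
  have hv : (c.sum fun i a => a • e i) = ∑ i ∈ c.support, c i • e i := rfl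
  rw [hv]
  have h1 : ⟪∑ i ∈ c.support, c i • e i, h⟫ = ∑ i ∈ c.support, (starRingEnd ℂ (c i)) * ⟪e i, h⟫ := by
    rw [sum_inner]
    exact Finset.sum_congr rfl fun i _ => by rw [inner_smul_left]
  have h2 : ‖∑ i ∈ c.support, c i • e i‖ ^ 2 = ∑ i ∈ c.support, (‖c i‖ * ‖e i‖) ^ 2 := by
    have : (‖∑ i ∈ c.support, c i • e i‖ ^ 2 : ℝ) =
        RCLike.re ⟪∑ i ∈ c.support, c i • e i, ∑ i ∈ c.support, c i • e i⟫ := by
      rw [inner_self_eq_norm_sq (𝕜 := ℂ)]
    rw [this, sum_inner, map_sum]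
    refine Finset.sum_congr rfl fun i hi => ?_
    rw [inner_sum, Finset.sum_eq_single i]
    · rw [inner_smul_left, inner_smul_right, ← mul_assoc, mul_comm (starRingEnd ℂ (c i)),
        RCLike.mul_conj, ← inner_self_ofReal_re, mul_pow]
      rw [inner_self_eq_norm_sq (𝕜 := ℂ)]
      norm_cast
    · intro j _ hj
      rw [inner_smul_left, inner_smul_right, horth i j (Ne.symm hj)]; simp
    · intro hi'; exact absurd hi hi'
  have h3 : ‖⟪∑ i ∈ c.support, c i • e i, h⟫‖ ≤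
      ∑ i ∈ c.support, (‖c i‖ * ‖e i‖) * ‖⟪e i, h⟫‖ := by
    rw [h1]
    refine (norm_sum_le _ _).trans (Finset.sum_le_sum fun i _ => ?_)
    rw [norm_mul, RCLike.norm_conj]
    rcases hn i with h0 | h0
    · simp [h0]
    · rw [h0, mul_one]
  have h4 : ∑ i ∈ c.support, ‖⟪e i, h⟫‖ ^ 2 ≤ S := by
    refine le_trans (Finset.sum_le_sum_of_subset_of_nonneg ?_ fun _ _ _ => by positivity)
      (hS (c.support.sup id + 1))
    intro i hi
    rw [Finset.mem_range]
    exact Nat.lt_succ_of_le (Finset.le_sup (f := id) hi)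
  calc ‖⟪∑ i ∈ c.support, c i • e i, h⟫‖ ^ 2
      ≤ (∑ i ∈ c.support, (‖c i‖ * ‖e i‖) * ‖⟪e i, h⟫‖) ^ 2 :=
        pow_le_pow_left₀ (norm_nonneg _) h3 2
    _ ≤ (∑ i ∈ c.support, (‖c i‖ * ‖e i‖) ^ 2) * ∑ i ∈ c.support, ‖⟪e i, h⟫‖ ^ 2 :=
        Finset.sum_mul_sq_le_sq_mul_sq _ _ _
    _ ≤ (∑ i ∈ c.support, (‖c i‖ * ‖e i‖) ^ 2) * S :=
        mul_le_mul_of_nonneg_left h4 (Finset.sum_nonneg fun _ _ => by positivity)
    _ = S * ‖∑ i ∈ c.support, c i • e i‖ ^ 2 := by rw [h2, mul_comm]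

/-- a sequence in the subspace `E` which computes the norm of every functional `⟪·, h⟫` on `E` -/
theorem exists_gs [SecondCountableTopology H] (E : Submodule ℂ H) :
    ∃ e : ℕ → H, (∀ k, e k ∈ E) ∧ (∀ i j, i ≠ j → ⟪e i, e j⟫ = 0) ∧ (∀ i, e i = 0 ∨ ‖e i‖ = 1) ∧
      ∀ (h : H) (S : ℝ), (∀ n, ∑ k ∈ Finset.range n, ‖⟪e k, h⟫‖ ^ 2 ≤ S) →
        ∀ v ∈ E, ‖⟪v, h⟫‖ ^ 2 ≤ S * ‖v‖ ^ 2 := by
  classical
  have : TopologicalSpace.SeparableSpace E := inferInstance
  set d : ℕ → E := TopologicalSpace.denseSeq E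
  set f : ℕ → E := InnerProductSpace.gramSchmidtNormed ℂ d
  have horth : ∀ i j, i ≠ j → ⟪(f i : H), (f j : H)⟫ = 0 := by
    intro i j hij
    have := InnerProductSpace.gramSchmidt_orthogonal ℂ d hij
    rw [← Submodule.coe_inner]
    simp only [f, InnerProductSpace.gramSchmidtNormed, inner_smul_left, inner_smul_right, this,
      mul_zero]
  have hn : ∀ i, (f i : H) = 0 ∨ ‖(f i : H)‖ = 1 := by
    intro i
    by_cases h0 : f i = 0
    · left; rw [h0]; rfl
    · right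
      exact InnerProductSpace.gramSchmidtNormed_unit_length' h0
  refine ⟨fun k => (f k : H), fun k => (f k).2, horth, hn, ?_⟩
  intro h S hS v hv
  have hspan : ∀ w ∈ Submodule.span ℂ (Set.range f), ‖⟪(w : H), h⟫‖ ^ 2 ≤ S * ‖(w : H)‖ ^ 2 := by
    intro w hw
    rw [Finsupp.mem_span_range_iff_exists_finsupp] at hw
    obtain ⟨c, hc⟩ := hw
    have hc' : (w : H) = c.sum fun i a => a • (f i : H) := by
      rw [← hc, Finsupp.sum, Finsupp.sum]
      simp
    rw [hc']
    exact gs_finsupp (fun k => (f k : H)) horth hn h S hS c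
  have hclosed : IsClosed {w : E | ‖⟪(w : H), h⟫‖ ^ 2 ≤ S * ‖(w : H)‖ ^ 2} := by
    refine isClosed_le ?_ ?_
    · fun_prop
    · fun_prop
  have hdense : Dense (Submodule.span ℂ (Set.range f) : Set E) := by
    rw [InnerProductSpace.span_gramSchmidtNormed_range, InnerProductSpace.span_gramSchmidt]
    exact (TopologicalSpace.denseRange_denseSeq E).mono Submodule.subset_span
  have := hclosed.closure_subset_iff.2 (show (Submodule.span ℂ (Set.range f) : Set E) ⊆ _ from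
    fun w hw => hspan w hw)
  exact this (hdense.closure_eq ▸ mem_univ (⟨v, hv⟩ : E))

end gs

/-- Plancherel for smooth compactly supported functions. -/
theorem plancherel {f : ℝ → ℂ} (hf : ContDiff ℝ ∞ f) (hc : HasCompactSupport f) :
    ∫ ξ, ‖𝓕 f ξ‖ ^ 2 = ∫ x, ‖f x‖ ^ 2 := by
  have h := SchwartzMap.integral_norm_sq_fourier (hc.toSchwartzMap hf)
  have e : ((hc.toSchwartzMap hf : SchwartzMap ℝ ℂ) : ℝ → ℂ) = f := rfl
  rw [SchwartzMap.fourier_coe, e] at h
  exact h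

end Crest.Agent.R213.A
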