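import Crest.Agent.R213.A.FourReg

/-!
# Row 213, part A, block A-FOUR (helper944): integrals and partial Fourier transform
-/

set_option autoImplicit false

open Set MeasureTheory Filter Topology
open scoped ContDiff FourierTransform InnerProductSpace

noncomputable section

namespace Crest.Agent.R213.A

section CS
variable {E : Type*} [NormedAddCommGroup E]

/-- continuous on the closed half plane, bounded support -/
def CS (F : ℝ → ℝ → E) : Prop :=
  ContinuousOn (fun p : ℝ × ℝ => F p.1 p.2) (univ ×ˢ Ici 0) ∧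
    ∃ R : ℝ, ∀ s y, 0 ≤ y → (R ≤ |s| ∨ R ≤ y) → F s y = 0

/-- continuous on the closed half line, bounded support -/
def CD (F : ℝ → E) : Prop :=
  ContinuousOn F (Ici 0) ∧ ∃ R : ℝ, ∀ y, 0 ≤ y → R ≤ y → F y = 0

lemma CD.integrableOn {F : ℝ → E} (h : CD F) : IntegrableOn F (Ioi 0) := by
  obtain ⟨hc, R, hR⟩ := h
  have h1 : IntegrableOn F (Icc 0 (max R 0)) :=
    (hc.mono fun y hy => hy.1).integrableOn_compact isCompact_Icc
  refine h1.of_forall_sdiff_eq_zero measurableSet_Ioi fun y hy => ?_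
  have h0 : (0 : ℝ) < y := hy.1
  refine hR y h0.le ?_
  by_contra hlt
  push Not at hlt
  exact hy.2 ⟨h0.le, le_trans hlt.le (le_max_left _ _)⟩

lemma CS.integrableOn {F : ℝ → ℝ → E} (h : CS F) :
    IntegrableOn (fun p : ℝ × ℝ => F p.1 p.2) (univ ×ˢ Ioi 0) := by
  obtain ⟨hc, R, hR⟩ := h
  set S := max R 0
  have h1 : IntegrableOn (fun p : ℝ × ℝ => F p.1 p.2) (Icc (-S) S ×ˢ Icc 0 S) :=
    (hc.mono fun p hp => ⟨trivial, hp.2.1⟩).integrableOn_compact (isCompact_Icc.prod isCompact_Icc)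
  refine h1.of_forall_sdiff_eq_zero (MeasurableSet.univ.prod measurableSet_Ioi) fun p hp => ?_
  have h0 : (0 : ℝ) < p.2 := hp.1.2
  refine hR _ _ h0.le ?_
  by_contra hlt
  push Not at hlt
  refine hp.2 ⟨abs_le.1 (le_trans hlt.1.le (le_max_left _ _)), h0.le,
    le_trans hlt.2.le (le_max_left _ _)⟩

lemma CS.slice {F : ℝ → ℝ → E} (h : CS F) (s : ℝ) : CD (F s) := by
  obtain ⟨hc, R, hR⟩ := h
  exact ⟨hc.comp (f := fun y : ℝ => (s, y)) (by fun_prop) (fun y hy => ⟨trivial, hy⟩), R,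
    fun y h0 hy => hR s y h0 (Or.inr hy)⟩

lemma CS.sliceS {F : ℝ → ℝ → E} (h : CS F) {y : ℝ} (hy : 0 ≤ y) :
    Continuous (fun s => F s y) ∧ HasCompactSupport (fun s => F s y) := by
  obtain ⟨hc, R, hR⟩ := h
  constructor
  · rw [← continuousOn_univ]
    exact hc.comp (f := fun s : ℝ => (s, y)) (by fun_prop) (fun s _ => ⟨trivial, hy⟩)
  · refine HasCompactSupport.intro (isCompact_Icc (a := -R) (b := R)) fun s hs => ?_
    refine hR s y hy (Or.inl ?_)
    by_contra hlt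
    push Not at hlt
    exact hs (abs_le.1 hlt.le)

lemma CS.integrableS {F : ℝ → ℝ → E} (h : CS F) {y : ℝ} (hy : 0 ≤ y) :
    Integrable (fun s => F s y) :=
  (h.sliceS hy).1.integrable_of_hasCompactSupport (h.sliceS hy).2

lemma TS.toCS [NormedSpace ℝ E] {F : ℝ → ℝ → E} (h : TS F) : CS F := ⟨h.cont, h.2⟩

lemma TD.toCD [NormedSpace ℝ E] {F : ℝ → E} (h : TD F) : CD F := by
  obtain ⟨R, hR⟩ := h.2
  exact ⟨h.cont, R, fun y _ hy => hR y hy⟩

/-- image of a CS function under a map which is continuous and fixes `0` -/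
lemma CS.map {E' : Type*} [NormedAddCommGroup E'] {F : ℝ → ℝ → E} (h : CS F) {a : ℝ → E → E'}
    (ha : ContinuousOn (fun p : ℝ × E => a p.1 p.2) (Ici 0 ×ˢ univ)) (h0 : ∀ y, a y 0 = 0) :
    CS (fun s y => a y (F s y)) := by
  obtain ⟨hc, R, hR⟩ := h
  refine ⟨?_, R, fun s y hy hsy => by simp only [hR s y hy hsy, h0]⟩
  exact ha.comp (f := fun p : ℝ × ℝ => (p.2, F p.1 p.2)) (continuousOn_snd.prodMk hc)
    (fun p hp => ⟨hp.2, trivial⟩)

lemma CD.map {E' : Type*} [NormedAddCommGroup E'] {F : ℝ → E} (h : CD F) {a : ℝ → E → E'}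
    (ha : ContinuousOn (fun p : ℝ × E => a p.1 p.2) (Ici 0 ×ˢ univ)) (h0 : ∀ y, a y 0 = 0) :
    CD (fun y => a y (F y)) := by
  obtain ⟨hc, R, hR⟩ := h
  refine ⟨?_, R, fun y hy hsy => by simp only [hR y hy hsy, h0]⟩
  exact ha.comp (f := fun y : ℝ => (y, F y)) (continuousOn_id.prodMk hc)
    (fun p hp => ⟨hp, trivial⟩)

lemma CS.add {F G : ℝ → ℝ → E} (h : CS F) (k : CS G) : CS (fun s y => F s y + G s y) := by
  obtain ⟨h1, R, hR⟩ := h
  obtain ⟨k1, S, hS⟩ := k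
  refine ⟨h1.add k1, max R S, fun s y h0 hy => ?_⟩
  simp only [hR s y h0 (hy.imp (le_trans (le_max_left _ _)) (le_trans (le_max_left _ _))),
    hS s y h0 (hy.imp (le_trans (le_max_right _ _)) (le_trans (le_max_right _ _))), add_zero]

lemma CD.add {F G : ℝ → E} (h : CD F) (k : CD G) : CD (fun y => F y + G y) := by
  obtain ⟨h1, R, hR⟩ := h
  obtain ⟨k1, S, hS⟩ := k
  refine ⟨h1.add k1, max R S, fun y h0 hy => ?_⟩
  simp only [hR y h0 (le_trans (le_max_left _ _) hy), hS y h0 (le_trans (le_max_right _ _) hy),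
    add_zero]

/-- Fubini on the half plane -/
lemma CS.integral_prod [NormedSpace ℝ E] {F : ℝ → ℝ → E} (h : CS F) :
    ∫ p in (univ ×ˢ Ioi 0 : Set (ℝ × ℝ)), F p.1 p.2 = ∫ s, ∫ y in Ioi (0 : ℝ), F s y := by
  have := setIntegral_prod (μ := (volume : Measure ℝ)) (ν := (volume : Measure ℝ))
    (s := univ) (t := Ioi 0) (fun p : ℝ × ℝ => F p.1 p.2) h.integrableOn
  rw [Measure.restrict_univ] at this
  exact this

lemma CS.integral_swap [NormedSpace ℝ E] {F : ℝ → ℝ → E} (h : CS F) :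
    ∫ s, ∫ y in Ioi (0 : ℝ), F s y = ∫ y in Ioi (0 : ℝ), ∫ s, F s y := by
  have hi : Integrable (Function.uncurry F)
      ((volume : Measure ℝ).prod ((volume : Measure ℝ).restrict (Ioi 0))) := by
    have := h.integrableOn
    rw [IntegrableOn, Measure.volume_eq_prod, ← Measure.prod_restrict, Measure.restrict_univ] at this
    exact this
  exact integral_integral_swap hi

end CS

section hat

/-- partial Fourier transform in the first variable -/
def hat (P : ℝ → ℝ → ℂ) (ξ y : ℝ) : ℂ := 𝓕 (fun s => P s y) ξ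

variable {P Q : ℝ → ℝ → ℂ}

/-- the kernel -/
def ek (s ξ : ℝ) : ℂ := Complex.exp (↑(-2 * Real.pi * s * ξ) * Complex.I)

lemma norm_ek (s ξ : ℝ) : ‖ek s ξ‖ = 1 := by
  unfold ek
  exact Complex.norm_exp_ofReal_mul_I _

lemma ek_smooth : ContDiff ℝ ∞ (fun p : ℝ × ℝ => ek p.1 p.2) := by
  unfold ek
  have h1 : ContDiff ℝ ∞ (fun p : ℝ × ℝ => (-2 * Real.pi * p.1 * p.2 : ℝ)) := by fun_prop
  have h2 : ContDiff ℝ ∞ (fun p : ℝ × ℝ => ((-2 * Real.pi * p.1 * p.2 : ℝ) : ℂ)) :=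
    Complex.ofRealCLM.contDiff.comp h1
  exact (h2.mul contDiff_const).cexp

lemma hat_eq (ξ y : ℝ) : hat P ξ y = ∫ s, ek s ξ * P s y := by
  unfold hat ek
  rw [Real.fourier_real_eq_integral_exp_smul]
  rfl

lemma TS.hat_interval (h : TS P) : ∃ R : ℝ, 0 < R ∧ ∀ S, R ≤ S → ∀ ξ y, 0 ≤ y →
    hat P ξ y = ∫ s in (-S)..S, ek s ξ * P s y := by
  obtain ⟨R, hR⟩ := h.2
  refine ⟨|R| + 1, by positivity, fun S hS ξ y hy => ?_⟩
  rw [hat_eq, intervalIntegral.integral_eq_integral_of_support_subset]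
  intro s hs
  by_contra hn
  have h1 : R ≤ |s| := by
    by_contra hlt
    push Not at hlt
    have h3 := abs_lt.1 (lt_of_lt_of_le hlt (le_abs_self R))
    exact hn ⟨by linarith [h3.1], by linarith [h3.2]⟩
  exact hs (by simp [hR s y hy (Or.inl h1)])

lemma TS.hat_joint (h : TS P) :
    ContDiffOn ℝ ∞ (fun p : ℝ × ℝ => hat P p.1 p.2) (univ ×ˢ Ici 0) := by
  obtain ⟨R, hR, hI⟩ := h.hat_interval
  have hH : ContDiffOn ℝ ∞ (fun z : ℝ × (ℝ × ℝ) => ek z.1 z.2.1 * P z.1 z.2.2)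
      (Icc (-R) R ×ˢ (univ ×ˢ Ici 0)) := by
    refine ContDiffOn.mul ?_ ?_
    · exact (ek_smooth.comp (contDiff_fst.prodMk (contDiff_fst.comp contDiff_snd))).contDiffOn
    · exact h.1.comp (f := fun z : ℝ × (ℝ × ℝ) => (z.1, z.2.2))
        (contDiff_fst.prodMk (contDiff_snd.comp contDiff_snd)).contDiffOn
        (fun z hz => ⟨trivial, hz.2.2⟩)
  have hK : Convex ℝ ((univ : Set ℝ) ×ˢ Ici (0 : ℝ)) := convex_univ.prod (convex_Ici 0)
  have := contDiffOn_pint (a := -R) (b := R) (by linarith) hK uniqueDiffOn_half hH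
  exact this.congr fun p hp => hI R le_rfl p.1 p.2 hp.2

lemma TS.hat_supp (h : TS P) : ∃ R : ℝ, ∀ ξ y, 0 ≤ y → R ≤ y → hat P ξ y = 0 := by
  obtain ⟨R, hR⟩ := h.2
  refine ⟨R, fun ξ y h0 hy => ?_⟩
  rw [hat_eq]
  have : ∀ s, ek s ξ * P s y = 0 := fun s => by rw [hR s y h0 (Or.inr hy), mul_zero]
  simp [this]

lemma TS.hat_TD (h : TS P) (ξ : ℝ) : TD (hat P ξ) := by
  obtain ⟨R, hR⟩ := h.hat_supp
  refine ⟨?_, max R 0, fun y hy => hR ξ y (le_trans (le_max_right _ _) hy)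
    (le_trans (le_max_left _ _) hy)⟩
  exact h.hat_joint.comp (f := fun y : ℝ => (ξ, y)) (by fun_prop) (fun y hy => ⟨trivial, hy⟩)

lemma ek_cont (ξ : ℝ) : Continuous (fun s => ek s ξ) :=
  ek_smooth.continuous.comp (continuous_id.prodMk continuous_const)

lemma TS.dh_hat (h : TS P) (ξ : ℝ) {y : ℝ} (hy : 0 ≤ y) : dh (hat P ξ) y = hat (dy P) ξ y := by
  obtain ⟨R1, hR1, hI⟩ := h.hat_interval
  obtain ⟨R2, hR2, hI'⟩ := h.tdy.hat_interval
  set S := max R1 R2
  have hS : 0 < S := lt_of_lt_of_le hR1 (le_max_left _ _)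
  have hc1 : ContinuousOn (fun z : ℝ × ℝ => ek z.1 ξ * P z.1 z.2) (Icc (-S) S ×ˢ Ici 0) :=
    (((ek_cont ξ).comp continuous_fst).continuousOn).mul
      (h.cont.mono fun z hz => ⟨trivial, hz.2⟩)
  have hc2 : ContinuousOn (fun z : ℝ × ℝ => ek z.1 ξ * dy P z.1 z.2) (Icc (-S) S ×ˢ Ici 0) :=
    (((ek_cont ξ).comp continuous_fst).continuousOn).mul
      (h.tdy.cont.mono fun z hz => ⟨trivial, hz.2⟩)
  have hc3 : ContinuousOn (fun z : ℝ × ℝ => ContinuousLinearMap.toSpanSingleton ℝ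
      (ek z.1 ξ * dy P z.1 z.2)) (Icc (-S) S ×ˢ Ici 0) :=
    (ContinuousLinearMap.toSpanSingletonLIE ℝ ℂ).continuous.comp_continuousOn hc2
  have := hasFDerivWithinAt_pint (K := Ici (0 : ℝ)) (a := -S) (b := S) (by linarith)
    (convex_Ici 0) (H := fun z : ℝ × ℝ => ek z.1 ξ * P z.1 z.2) hc1 hc3
    (fun r _ q hq => ((h.hasDerivY r hq).const_mul (ek r ξ)).hasFDerivWithinAt) (p := y) hy
  have h2 := this.hasDerivWithinAt
  have h3 : (∫ r in (-S)..S, ContinuousLinearMap.toSpanSingleton ℝ (ek r ξ * dy P r y)) 1 =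
      ∫ s in (-S)..S, ek s ξ * dy P s y := by
    rw [ContinuousLinearMap.intervalIntegral_apply]
    · simp
    · exact ContinuousOn.intervalIntegrable_of_Icc (by linarith)
        (hc3.comp (f := fun s : ℝ => (s, y)) (by fun_prop) (fun s hs => ⟨hs, hy⟩))
  rw [h3] at h2
  rw [hI' S (le_max_right _ _) ξ y hy]
  exact dh_eq hy (h2.congr (fun z hz' => hI S (le_max_left _ _) ξ z hz')
    (hI S (le_max_left _ _) ξ y hy))

lemma TS.hat_ds (h : TS P) (ξ : ℝ) {y : ℝ} (hy : 0 ≤ y) :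
    hat (ds P) ξ y = (2 * Real.pi * Complex.I * ξ) * hat P ξ y := by
  have hd : (fun s => ds P s y) = deriv (fun s => P s y) := rfl
  unfold hat
  rw [hd, Real.fourier_deriv]
  · rfl
  · exact h.toCS.integrableS hy
  · exact (h.sliceS hy).differentiable (by simp)
  · exact h.tds.toCS.integrableS hy

lemma hat_smul (a : ℝ → ℂ) (ξ y : ℝ) : hat (fun s y => a y * P s y) ξ y = a y * hat P ξ y := by
  rw [hat_eq, hat_eq, ← integral_const_mul]
  congr 1
  ext s
  ring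

lemma CS.ek_int (h : CS P) (ξ : ℝ) {y : ℝ} (hy : 0 ≤ y) : Integrable (fun s => ek s ξ * P s y) :=
  (h.integrableS hy).bdd_mul (c := 1) (ek_cont ξ).aestronglyMeasurable
    (Filter.Eventually.of_forall fun s => (norm_ek s ξ).le)

lemma hat_add (hP : CS P) (hQ : CS Q) (ξ : ℝ) {y : ℝ} (hy : 0 ≤ y) :
    hat (fun s y => P s y + Q s y) ξ y = hat P ξ y + hat Q ξ y := by
  rw [hat_eq, hat_eq, hat_eq, ← integral_add (hP.ek_int ξ hy) (hQ.ek_int ξ hy)]
  congr 1
  ext s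
  ring

/-- the integral in `y` of a test function is a test function in `s` -/
lemma TS.q_smooth (h : TS P) : ContDiff ℝ ∞ (fun s => ∫ y in Ioi (0 : ℝ), P s y) ∧
    HasCompactSupport (fun s => ∫ y in Ioi (0 : ℝ), P s y) := by
  obtain ⟨R, hR⟩ := h.2
  constructor
  · set S := |R| + 1
    have hS : 0 < S := by positivity
    have e : (fun s => ∫ y in Ioi (0 : ℝ), P s y) = fun s => ∫ y in (0 : ℝ)..S, P s y := by
      ext s
      rw [intervalIntegral.integral_of_le hS.le]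
      refine setIntegral_eq_of_subset_of_forall_sdiff_eq_zero (s := Ioc 0 S) measurableSet_Ioi
        (fun y hy => hy.1) ?_
      intro y hy
      have h0 : (0 : ℝ) < y := hy.1
      refine hR s y h0.le (Or.inr ?_)
      by_contra hlt
      push Not at hlt
      exact hy.2 ⟨h0, by linarith [le_abs_self R]⟩
    rw [e, ← contDiffOn_univ]
    refine contDiffOn_pint (a := 0) (b := S) hS convex_univ uniqueDiffOn_univ
      (H := fun z : ℝ × ℝ => P z.2 z.1) ?_
    exact h.1.comp (f := fun z : ℝ × ℝ => (z.2, z.1)) (by fun_prop)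
      (fun z hz => ⟨trivial, hz.1.1⟩)
  · refine HasCompactSupport.intro (isCompact_Icc (a := -R) (b := R)) fun s hs => ?_
    have hR' : R ≤ |s| := by
      by_contra hlt
      push Not at hlt
      exact hs (abs_le.1 hlt.le)
    refine setIntegral_eq_zero_of_forall_eq_zero fun y hy => hR s y (le_of_lt hy) (Or.inl hR')

/-- Fourier transform of the integral in `y` -/
lemma CS.fourier_q (h : CS P) (ξ : ℝ) :
    𝓕 (fun s => ∫ y in Ioi (0 : ℝ), P s y) ξ = ∫ y in Ioi (0 : ℝ), hat P ξ y := by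
  have h1 : CS (fun s y => ek s ξ * P s y) := by
    obtain ⟨hc, R, hR⟩ := h
    refine ⟨(((ek_cont ξ).comp continuous_fst).continuousOn).mul hc, R, fun s y hy hsy => ?_⟩
    simp only [hR s y hy hsy, mul_zero]
  have e1 : 𝓕 (fun s => ∫ y in Ioi (0 : ℝ), P s y) ξ =
      ∫ s, ek s ξ * ∫ y in Ioi (0 : ℝ), P s y := by
    rw [Real.fourier_real_eq_integral_exp_smul]; rfl
  rw [e1]
  have e2 : ∀ s, ek s ξ * ∫ y in Ioi (0 : ℝ), P s y = ∫ y in Ioi (0 : ℝ), ek s ξ * P s y :=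
    fun s => (integral_const_mul _ _).symm
  simp_rw [e2]
  rw [h1.integral_swap]
  simp_rw [hat_eq]

end hat

/-- Plancherel, `lintegral` form -/
theorem plancherel_lintegral {f : ℝ → ℂ} (hf : ContDiff ℝ ∞ f) (hc : HasCompactSupport f) :
    ∫⁻ ξ, ENNReal.ofReal (‖𝓕 f ξ‖ ^ 2) = ∫⁻ x, ENNReal.ofReal (‖f x‖ ^ 2) := by
  set φ : SchwartzMap ℝ ℂ := hc.toSchwartzMap hf
  have e : ((φ : SchwartzMap ℝ ℂ) : ℝ → ℂ) = f := rfl
  have e2 : ((𝓕 φ : SchwartzMap ℝ ℂ) : ℝ → ℂ) = 𝓕 f := by rw [SchwartzMap.fourier_coe, e]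
  have i1 : Integrable (fun x => ‖f x‖ ^ 2) := by
    have := (φ.memLp 2 volume).integrable_norm_pow (by norm_num)
    simpa [e] using this
  have i2 : Integrable (fun x => ‖𝓕 f x‖ ^ 2) := by
    have := ((𝓕 φ).memLp 2 volume).integrable_norm_pow (by norm_num)
    rw [← e2]
    simpa using this
  rw [← ofReal_integral_eq_lintegral_ofReal i2 (Filter.Eventually.of_forall fun _ => by positivity),
    ← ofReal_integral_eq_lintegral_ofReal i1 (Filter.Eventually.of_forall fun _ => by positivity),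
    plancherel hf hc]

end Crest.Agent.R213.A
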