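import Crest.Agent.R213.A.FourQ

/-!
# Row 213, part A, block A-FOUR (helper944): the stationary estimate implies the inner estimate
-/

set_option autoImplicit false

open Set MeasureTheory Filter Topology
open scoped ContDiff FourierTransform InnerProductSpace

noncomputable section

namespace Crest.Agent.R213.A

variable {g : ℝ → ℝ} {κ : ℝ}

/-! ### Step 1: testing with `∑ q_k(s) V_k(y)` -/

section test

variable {P : ℝ → ℝ → ℝ}

/-- complexification -/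
def cx (P : ℝ → ℝ → ℝ) : ℝ → ℝ → ℂ := fun s y => ((P s y : ℝ) : ℂ)

lemma DR.toTS (h : DR P) : TS (cx P) := by
  obtain ⟨h1, R, hR⟩ := h
  refine ⟨Complex.ofRealCLM.contDiff.comp_contDiffOn h1, R + 1, fun s y _ hsy => ?_⟩
  unfold cx
  rw [hR s y (hsy.imp (fun h => by linarith) (fun h => by linarith))]
  simp

lemma DR.toTSR (h : DR P) : TS P := by
  obtain ⟨h1, R, hR⟩ := h
  exact ⟨h1, R + 1, fun s y _ hsy => hR s y (hsy.imp (fun h => by linarith) (fun h => by linarith))⟩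

lemma cx_ds (h : DR P) (s : ℝ) {y : ℝ} (hy : 0 ≤ y) : ds (cx P) s y = ((ds P s y : ℝ) : ℂ) :=
  ((h.toTSR.hasDerivS s hy).ofReal_comp).deriv

lemma cx_dy (h : DR P) (s : ℝ) {y : ℝ} (hy : 0 ≤ y) : dy (cx P) s y = ((dy P s y : ℝ) : ℂ) :=
  dh_eq hy ((h.toTSR.hasDerivY s hy).ofReal_comp)

lemma cx_dyy (h : DR P) (s : ℝ) {y : ℝ} (hy : 0 ≤ y) :
    dy (dy (cx P)) s y = ((dy (dy P) s y : ℝ) : ℂ) := by
  have h1 : HasDerivWithinAt (fun z => ((dy P s z : ℝ) : ℂ)) ((dy (dy P) s y : ℝ) : ℂ) (Ici 0) y :=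
    (h.toTSR.tdy.hasDerivY s hy).ofReal_comp
  exact dh_eq hy (h1.congr (fun z hz => cx_dy h s hz) (cx_dy h s hy))

/-- the combination `∑_{k<n} q_k(s) V_k(y)` -/
def WW (n : ℕ) (q : ℕ → ℝ → ℂ) (V : ℕ → ℝ → ℂ) : ℝ → ℝ → ℂ := fun s y =>
  ∑ k ∈ Finset.range n, q k s * V k y

lemma TS_prod {q V : ℝ → ℂ} (hq : ContDiff ℝ ∞ q) (hc : HasCompactSupport q) (hV : TD V) :
    TS (fun s y => q s * V y) := by
  obtain ⟨hV1, R, hR⟩ := hV
  obtain ⟨R', hR'⟩ := hc.isCompact.isBounded.subset_closedBall 0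
  refine ⟨?_, max R (R' + 1), fun s y _ hsy => ?_⟩
  · exact (hq.comp contDiff_fst).contDiffOn.mul
      (hV1.comp (f := fun p : ℝ × ℝ => p.2) contDiff_snd.contDiffOn (fun p hp => hp.2))
  · rcases hsy with h | h
    · have : q s = 0 := by
        by_contra hne
        have h1 : s ∈ Metric.closedBall (0 : ℝ) R' := hR' (subset_tsupport _ hne)
        rw [mem_closedBall_zero_iff, Real.norm_eq_abs] at h1
        linarith [le_trans (le_max_right R (R' + 1)) h]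
      simp only [this, zero_mul]
    · simp only [hR y (le_trans (le_max_left _ _) h), mul_zero]

lemma supp_prod {q V : ℝ → ℂ} (hc : HasCompactSupport q) (hV : TD V) :
    ∃ R : ℝ, ∀ s y, (R < |s| ∨ R < y) → q s * V y = 0 := by
  obtain ⟨hV1, R, hR⟩ := hV
  obtain ⟨R', hR'⟩ := hc.isCompact.isBounded.subset_closedBall 0
  refine ⟨max R (R' + 1), fun s y hsy => ?_⟩
  rcases hsy with h | h
  · have : q s = 0 := by
      by_contra hne
      have h1 : s ∈ Metric.closedBall (0 : ℝ) R' := hR' (subset_tsupport _ hne)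
      rw [mem_closedBall_zero_iff, Real.norm_eq_abs] at h1
      linarith [lt_of_le_of_lt (le_max_right R (R' + 1)) h]
    simp only [this, zero_mul]
  · simp only [hR y (le_of_lt (lt_of_le_of_lt (le_max_left _ _) h)), mul_zero]

lemma supp_WW {n : ℕ} {q : ℕ → ℝ → ℂ} {V : ℕ → ℝ → ℂ} (hc : ∀ k, HasCompactSupport (q k))
    (hV : ∀ k, TD (V k)) : ∃ R : ℝ, ∀ s y, (R < |s| ∨ R < y) → WW n q V s y = 0 := by
  choose R hR using fun k => supp_prod (hc k) (hV k)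
  obtain ⟨M, hM⟩ : ∃ M : ℝ, ∀ k ∈ Finset.range n, R k ≤ M :=
    ⟨∑ k ∈ Finset.range n, |R k|, fun k hk => (le_abs_self _).trans
      (Finset.single_le_sum (f := fun k => |R k|) (fun i _ => abs_nonneg _) hk)⟩
  refine ⟨M, fun s y hsy => Finset.sum_eq_zero fun k hk => hR k s y ?_⟩
  exact hsy.imp (lt_of_le_of_lt (hM k hk)) (lt_of_le_of_lt (hM k hk))

lemma TS_WW {n : ℕ} {q : ℕ → ℝ → ℂ} {V : ℕ → ℝ → ℂ} (hq : ∀ k, ContDiff ℝ ∞ (q k))
    (hc : ∀ k, HasCompactSupport (q k)) (hV : ∀ k, TD (V k)) : TS (WW n q V) :=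
  TS.sum _ fun k _ => TS_prod (hq k) (hc k) (hV k)

lemma dhh_WW {n : ℕ} {q : ℕ → ℝ → ℂ} {V : ℕ → ℝ → ℂ} (hV : ∀ k, TD (V k)) (s : ℝ) {y : ℝ}
    (hy : 0 ≤ y) : dh (dh (WW n q V s)) y = ∑ k ∈ Finset.range n, q k s * dh (dh (V k)) y := by
  have e : WW n q V s = fun y => ∑ k ∈ Finset.range n, (fun y => q k s * V k y) y := rfl
  rw [e, dh2_sum _ (fun k _ => (hV k).cmul (q k s)) hy]
  exact Finset.sum_congr rfl fun k _ => dh2_cmul (hV k) (q k s) hy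

/-- real part of a complex test function -/
lemma re_TD {V : ℝ → ℂ} (h : TD V) : TD (fun y => (V y).re) := h.clm Complex.reCLM

lemma dhh_re {V : ℝ → ℂ} (h : TD V) {y : ℝ} (hy : 0 ≤ y) :
    dh (dh (fun y => (V y).re)) y = (dh (dh V) y).re := by
  have h1 : ∀ z, 0 ≤ z → dh (fun y => (V y).re) z = (dh V z).re :=
    fun z hz => dh_clm h Complex.reCLM hz
  rw [dh_congr h1 hy]
  exact dh_clm h.tdh Complex.reCLM hy

lemma DR_re_WW {n : ℕ} {q : ℕ → ℝ → ℂ} {V : ℕ → ℝ → ℂ} (hq : ∀ k, ContDiff ℝ ∞ (q k))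
    (hc : ∀ k, HasCompactSupport (q k)) (hV : ∀ k, TD (V k)) :
    DR (fun s y => (WW n q V s y).re) := by
  obtain ⟨R, hR⟩ := supp_WW (n := n) hc hV
  refine ⟨(Complex.reCLM.contDiff).comp_contDiffOn (TS_WW hq hc hV).1, R, fun s y hsy => ?_⟩
  simp only [hR s y hsy, Complex.zero_re]

/-- the form evaluated on `Re W` -/
lemma BIn_re (hg : ContDiff ℝ ∞ g) (hP : DR P) {W : ℝ → ℝ → ℂ} (hW : TS W) :
    BIn g κ (fun s y => (W s y).re) P =
      (∫ s, ∫ y in Ioi (0 : ℝ), fX g (W s) (zz1 (cx P) s) (zz2 κ (cx P) s) y).re := by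
  have hcs : CS (fun s y => fX g (W s) (zz1 (cx P) s) (zz2 κ (cx P) s) y) := by
    obtain ⟨hW1, R1, hR1⟩ := hW.tdy.tdy
    obtain ⟨hW2, R2, hR2⟩ := hW
    obtain ⟨hz1, -⟩ := hP.toTS.zz1
    obtain ⟨hz2, -⟩ := hP.toTS.zz2 (κ := κ)
    have hcy : ContinuousOn (fun p : ℝ × ℝ => ((p.2 : ℝ) : ℂ) ^ 9) (univ ×ˢ Ici 0) := by fun_prop
    have hcg : ContinuousOn (fun p : ℝ × ℝ => (((p.2 * g p.2) ^ 2 : ℝ) : ℂ)) (univ ×ˢ Ici 0) := by
      have := hg.continuous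
      fun_prop
    refine ⟨?_, max R1 R2, fun s y hy hsy => ?_⟩
    · unfold fX
      exact hcy.mul (((Complex.continuous_conj.comp_continuousOn hW2.continuousOn).mul
        hz2.continuousOn).add ((hcg.mul (Complex.continuous_conj.comp_continuousOn
          hW1.continuousOn)).mul hz1.continuousOn))
    · have e1 : W s y = 0 := hR2 s y hy
        (hsy.imp (le_trans (le_max_right _ _)) (le_trans (le_max_right _ _)))
      have e2 : dh (dh (W s)) y = 0 := hR1 s y hy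
        (hsy.imp (le_trans (le_max_left _ _)) (le_trans (le_max_left _ _)))
      simp only [fX, e1, e2]
      simp
  rw [← hcs.integral_prod]
  have hre := integral_re (𝕜 := ℂ) hcs.integrableOn
  simp only [RCLike.re_to_complex] at hre
  rw [← hre]
  unfold BIn
  refine setIntegral_congr_fun (MeasurableSet.univ.prod measurableSet_Ioi) fun p hp => ?_
  have hy : (0 : ℝ) < p.2 := hp.2
  have hsl := hP.toTSR.slice p.1
  simp only []
  rw [deriv2_eq hsl hy, deriv_eq_dh hsl hy, deriv2_eq (re_TD (hW.slice p.1)) hy,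
    dhh_re (hW.slice p.1) hy.le]
  have z1 : zz1 (cx P) p.1 p.2 = ((dh (dh (P p.1)) p.2 : ℝ) : ℂ) := cx_dyy hP p.1 hy.le
  have z2 : zz2 κ (cx P) p.1 p.2 = ((-(deriv (fun s => P s p.2) p.1) - (65 / 2 - κ) * P p.1 p.2
        - p.2 / 2 * dh (P p.1) p.2 : ℝ) : ℂ) := by
    unfold zz2
    rw [cx_ds hP p.1 hy.le, cx_dy hP p.1 hy.le]
    unfold cx ds dy
    push_cast
    ring
  unfold fX
  rw [z1, z2]
  have e9 : ((p.2 : ℝ) : ℂ) ^ 9 = ((p.2 ^ 9 : ℝ) : ℂ) := by push_cast; ring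
  rw [e9, Complex.re_ofReal_mul, Complex.add_re, Complex.re_mul_ofReal, Complex.re_mul_ofReal,
    Complex.re_ofReal_mul, Complex.conj_re, Complex.conj_re]

/-- the `X` norm of `Re W` -/
lemma nXI_re (hg : ContDiff ℝ ∞ g) {W : ℝ → ℝ → ℂ} (hW : TS W) :
    nXI g (fun s y => (W s y).re) ≤ ∫ s, stX g (W s) := by
  have hcs : CS (fun s y => y ^ 9 / w60 y * ((y * g y) ^ 2 * ‖dh (dh (W s)) y‖ ^ 2 +
      ‖W s y‖ ^ 2)) := by
    obtain ⟨hW1, R1, hR1⟩ := hW.tdy.tdy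
    obtain ⟨hW2, R2, hR2⟩ := hW
    have hcy : Continuous (fun p : ℝ × ℝ => p.2 ^ 9 / w60 p.2) :=
      (continuous_snd.pow 9).div (w60_cont944.comp continuous_snd) fun p => (w60_pos944 p.2).ne'
    have hcg : Continuous (fun p : ℝ × ℝ => (p.2 * g p.2) ^ 2) := by
      have := hg.continuous
      fun_prop
    refine ⟨?_, max R1 R2, fun s y hy hsy => ?_⟩
    · exact hcy.continuousOn.mul ((hcg.continuousOn.mul (hW1.continuousOn.norm.pow 2)).add
        (hW2.continuousOn.norm.pow 2))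
    · have e1 : W s y = 0 := hR2 s y hy
        (hsy.imp (le_trans (le_max_right _ _)) (le_trans (le_max_right _ _)))
      have e2 : dh (dh (W s)) y = 0 := hR1 s y hy
        (hsy.imp (le_trans (le_max_left _ _)) (le_trans (le_max_left _ _)))
      simp only [e1, e2]
      simp
  have e : ∫ s, stX g (W s) = ∫ s, ∫ y in Ioi (0 : ℝ),
      y ^ 9 / w60 y * ((y * g y) ^ 2 * ‖dh (dh (W s)) y‖ ^ 2 + ‖W s y‖ ^ 2) := by
    congr 1
    ext s
    exact nXS_eq (hW.slice s)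
  rw [e, ← hcs.integral_prod]
  unfold nXI
  refine integral_mono_of_nonneg ?_ hcs.integrableOn ?_
  · filter_upwards [ae_restrict_mem (MeasurableSet.univ.prod measurableSet_Ioi)] with p hp
    have hy : (0 : ℝ) < p.2 := hp.2
    have := w60_pos944 p.2
    simp only [Pi.zero_apply]
    positivity
  · filter_upwards [ae_restrict_mem (MeasurableSet.univ.prod measurableSet_Ioi)] with p hp
    have hy : (0 : ℝ) < p.2 := hp.2
    have hn := w60_pos944 p.2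
    show p.2 ^ 9 / w60 p.2 * ((p.2 * g p.2) ^ 2 *
      deriv (deriv (fun y => (W p.1 y).re)) p.2 ^ 2 + (W p.1 p.2).re ^ 2) ≤ _
    rw [deriv2_eq (re_TD (hW.slice p.1)) hy, dhh_re (hW.slice p.1) hy.le]
    have h1 : (dh (dh (W p.1)) p.2).re ^ 2 ≤ ‖dh (dh (W p.1)) p.2‖ ^ 2 := by
      rw [← sq_abs]; exact pow_le_pow_left₀ (abs_nonneg _) (Complex.abs_re_le_norm _) 2
    have h2 : (W p.1 p.2).re ^ 2 ≤ ‖W p.1 p.2‖ ^ 2 := by
      rw [← sq_abs]; exact pow_le_pow_left₀ (abs_nonneg _) (Complex.abs_re_le_norm _) 2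
    refine mul_le_mul_of_nonneg_left (add_le_add (mul_le_mul_of_nonneg_left h1 (by positivity)) h2)
      (by positivity)

lemma int_sq {q : ℝ → ℂ} (hq : ContDiff ℝ ∞ q) (hc : HasCompactSupport q) :
    Integrable (fun s => ‖q s‖ ^ 2) := by
  have h1 : Continuous (fun s => ‖q s‖ ^ 2) := hq.continuous.norm.pow 2
  exact h1.integrable_of_hasCompactSupport (hc.comp_left (g := fun z : ℂ => ‖z‖ ^ 2) (by simp))

lemma vec_WW {n : ℕ} {q : ℕ → ℝ → ℂ} {e : ℕ → HH} {V : ℕ → ℝ → ℂ} (hV : ∀ k, TD (V k))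
    (heV : ∀ k, (e k : ℝ → C2) =ᵐ[mu] vecX g (V k)) (s : ℝ) :
    ((∑ k ∈ Finset.range n, q k s • e k : HH) : ℝ → C2) =ᵐ[mu] vecX g (WW n q V s) := by
  have h1 : ∀ᵐ y ∂mu, ∀ k, (e k : ℝ → C2) y = vecX g (V k) y := ae_all_iff.2 heV
  have h2 : ∀ᵐ y ∂mu, ∀ k, ((q k s • e k : HH) : ℝ → C2) y = q k s • (e k : ℝ → C2) y :=
    ae_all_iff.2 fun k => Lp.coeFn_smul (q k s) (e k)
  have h3 : ((∑ k ∈ Finset.range n, q k s • e k : HH) : ℝ → C2) =ᵐ[mu]
      ∑ k ∈ Finset.range n, ((q k s • e k : HH) : ℝ → C2) :=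
    Lp.coeFn_finsetSum _ _
  filter_upwards [h1, h2, h3, ae_restrict_mem measurableSet_Ioi] with y g1 g2 g3 g4
  rw [g3, Finset.sum_apply]
  have hy : (0 : ℝ) ≤ y := le_of_lt g4
  have e1 : ∀ k, ((q k s • e k : HH) : ℝ → C2) y = q k s • vecX g (V k) y :=
    fun k => by rw [g2 k, g1 k]
  simp only [e1]
  unfold vecX
  rw [dhh_WW hV s hy]
  ext i
  fin_cases i
  · simp only [WithLp.ofLp_sum, Finset.sum_apply, Finset.mul_sum]
    simp [Finset.mul_sum]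
    refine Finset.sum_congr rfl fun k _ => ?_
    ring
  · simp only [WithLp.ofLp_sum, Finset.sum_apply]
    unfold WW
    simp [Finset.mul_sum]
    refine Finset.sum_congr rfl fun k _ => ?_
    ring

lemma norm_sum_le_sq {n : ℕ} (c : ℕ → ℂ) (e : ℕ → HH)
    (horth : ∀ i j, i ≠ j → (inner ℂ (e i) (e j) : ℂ) = 0) (hn : ∀ i, e i = 0 ∨ ‖e i‖ = 1) :
    ‖(∑ k ∈ Finset.range n, c k • e k : HH)‖ ^ 2 ≤ ∑ k ∈ Finset.range n, ‖c k‖ ^ 2 := by
  classical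
  have h2 : (‖(∑ k ∈ Finset.range n, c k • e k : HH)‖ ^ 2 : ℝ) =
      ∑ k ∈ Finset.range n, ‖c k‖ ^ 2 * ‖e k‖ ^ 2 := by
    have e1 : (‖(∑ k ∈ Finset.range n, c k • e k : HH)‖ ^ 2 : ℝ) = RCLike.re (inner ℂ
        (∑ k ∈ Finset.range n, c k • e k : HH) (∑ k ∈ Finset.range n, c k • e k : HH) : ℂ) := by
      rw [inner_self_eq_norm_sq (𝕜 := ℂ)]
    rw [e1, sum_inner, map_sum]
    refine Finset.sum_congr rfl fun i hi => ?_
    rw [inner_sum, Finset.sum_eq_single i]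
    · rw [inner_smul_left, inner_smul_right, ← mul_assoc, mul_comm (starRingEnd ℂ (c i)),
        RCLike.mul_conj, ← inner_self_ofReal_re, inner_self_eq_norm_sq (𝕜 := ℂ)]
      norm_cast
    · intro j _ hj
      rw [inner_smul_left, inner_smul_right, horth i j (Ne.symm hj)]; simp
    · intro hi'; exact absurd hi hi'
  rw [h2]
  refine Finset.sum_le_sum fun k _ => ?_
  have h3 : ‖e k‖ ^ 2 ≤ 1 := by
    rcases hn k with h | h <;> simp [h]
  exact mul_le_of_le_one_right (by positivity) h3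

lemma BIn_WW (hg : ContDiff ℝ ∞ g) (hP : DR P) {n : ℕ} {q : ℕ → ℝ → ℂ} {e : ℕ → HH}
    {V : ℕ → ℝ → ℂ} (hq : ∀ k, ContDiff ℝ ∞ (q k)) (hc : ∀ k, HasCompactSupport (q k))
    (hqV : ∀ k s, qV g κ (cx P) (V k) s = q k s) (hV : ∀ k, TD (V k))
    (heV : ∀ k, (e k : ℝ → C2) =ᵐ[mu] vecX g (V k)) :
    BIn g κ (fun s y => (WW n q V s y).re) P = ∑ k ∈ Finset.range n, ∫ s, ‖q k s‖ ^ 2 := by
  rw [BIn_re hg hP (TS_WW hq hc hV), ← integral_finsetSum _ fun k _ => int_sq (hq k) (hc k)]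
  have h1 : ∀ s, (∫ y in Ioi (0 : ℝ), fX g (WW n q V s) (zz1 (cx P) s) (zz2 κ (cx P) s) y) =
      ((∑ k ∈ Finset.range n, ‖q k s‖ ^ 2 : ℝ) : ℂ) := by
    intro s
    obtain ⟨h, hh⟩ := exists_vecY hg.continuous (hP.toTS.zz1.slice s).toCD
      ((hP.toTS.zz2 (κ := κ)).slice s).toCD
    rw [← inner_HH (vec_WW hV heV s) hh, sum_inner]
    push_cast
    refine Finset.sum_congr rfl fun k _ => ?_
    rw [inner_smul_left, inner_HH (heV k) hh]
    have e1 : (∫ y in Ioi (0 : ℝ), fX g (V k) (zz1 (cx P) s) (zz2 κ (cx P) s) y) = q k s := hqV k s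
    rw [e1, mul_comm, RCLike.mul_conj]
    rfl
  simp only [h1]
  have h2 : (∫ s, ((∑ k ∈ Finset.range n, ‖q k s‖ ^ 2 : ℝ) : ℂ)) =
      ((∫ s, ∑ k ∈ Finset.range n, ‖q k s‖ ^ 2 : ℝ) : ℂ) := integral_ofReal
  rw [h2, Complex.ofReal_re]

lemma nXI_WW (hg : ContDiff ℝ ∞ g) {n : ℕ} {q : ℕ → ℝ → ℂ} {e : ℕ → HH}
    {V : ℕ → ℝ → ℂ} (hq : ∀ k, ContDiff ℝ ∞ (q k)) (hc : ∀ k, HasCompactSupport (q k))
    (hV : ∀ k, TD (V k)) (heV : ∀ k, (e k : ℝ → C2) =ᵐ[mu] vecX g (V k))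
    (horth : ∀ i j, i ≠ j → (inner ℂ (e i) (e j) : ℂ) = 0) (hn : ∀ i, e i = 0 ∨ ‖e i‖ = 1) :
    nXI g (fun s y => (WW n q V s y).re) ≤ ∑ k ∈ Finset.range n, ∫ s, ‖q k s‖ ^ 2 := by
  have hWT := TS_WW (n := n) hq hc hV
  refine (nXI_re hg hWT).trans ?_
  rw [← integral_finsetSum _ fun k _ => int_sq (hq k) (hc k)]
  refine integral_mono_of_nonneg (Filter.Eventually.of_forall fun s => ?_)
    (integrable_finsetSum _ fun k _ => int_sq (hq k) (hc k))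
    (Filter.Eventually.of_forall fun s => ?_)
  · show 0 ≤ stX g (WW n q V s)
    rw [← norm_HH (hWT.slice s) (vec_WW hV heV s)]
    positivity
  · show stX g (WW n q V s) ≤ ∑ k ∈ Finset.range n, ‖q k s‖ ^ 2
    rw [← norm_HH (hWT.slice s) (vec_WW hV heV s)]
    exact norm_sum_le_sq (fun k => q k s) e horth hn

/-- **Step 1**: the finite orthogonal sums are bounded by `S` -/
lemma sum_q_le (hg : ContDiff ℝ ∞ g) (hP : DR P) {S : ℝ} (hS0 : 0 ≤ S)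
    (hS : ∀ V, DR V → BIn g κ V P ^ 2 ≤ S * nXI g V) (e : ℕ → HH) (V : ℕ → ℝ → ℂ)
    (hV : ∀ k, TD (V k)) (heV : ∀ k, (e k : ℝ → C2) =ᵐ[mu] vecX g (V k))
    (horth : ∀ i j, i ≠ j → (inner ℂ (e i) (e j) : ℂ) = 0) (hn : ∀ i, e i = 0 ∨ ‖e i‖ = 1) (n : ℕ) :
    ∑ k ∈ Finset.range n, ∫ s, ‖qV g κ (cx P) (V k) s‖ ^ 2 ≤ S := by
  have hqs : ∀ k, ContDiff ℝ ∞ (qV g κ (cx P) (V k)) := fun k => (qV_smooth hg (hV k) hP.toTS).1
  have hqc : ∀ k, HasCompactSupport (qV g κ (cx P) (V k)) :=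
    fun k => (qV_smooth hg (hV k) hP.toTS).2
  have hB := BIn_WW (κ := κ) (n := n) (q := fun k => qV g κ (cx P) (V k)) hg hP hqs hqc
    (fun _ _ => rfl) hV heV
  have hX := nXI_WW (n := n) (q := fun k => qV g κ (cx P) (V k)) hg hqs hqc hV heV horth hn
  have key := hS _ (DR_re_WW (n := n) (q := fun k => qV g κ (cx P) (V k)) hqs hqc hV)
  rw [hB] at key
  have hT0 : 0 ≤ ∑ k ∈ Finset.range n, ∫ s, ‖qV g κ (cx P) (V k) s‖ ^ 2 :=
    Finset.sum_nonneg fun k _ => integral_nonneg fun s => by positivity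
  have h2 := mul_le_mul_of_nonneg_left hX hS0
  by_contra hneg
  push Not at hneg
  have h3 : 0 < ∑ k ∈ Finset.range n, ∫ s, ‖qV g κ (cx P) (V k) s‖ ^ 2 := lt_of_le_of_lt hS0 hneg
  have h4 := key.trans h2
  rw [sq] at h4
  exact absurd (le_of_mul_le_mul_right h4 h3) (not_le.2 hneg)

end test

end Crest.Agent.R213.A
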