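import Crest.Agent.R213.A.FourVec

/-!
# Row 213, part A, block A-FOUR (helper944): the scalar functions `q_V(s)` and their Fourier transform
-/

set_option autoImplicit false

open Set MeasureTheory Filter Topology
open scoped ContDiff FourierTransform InnerProductSpace

noncomputable section

namespace Crest.Agent.R213.A

variable {g : ℝ → ℝ} {κ : ℝ}

lemma TS.mulY {P : ℝ → ℝ → ℂ} (h : TS P) {c : ℝ → ℂ} (hc : ContDiffOn ℝ ∞ c (Ici 0)) :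
    TS (fun s y => c y * P s y) := by
  obtain ⟨h1, R, hR⟩ := h
  refine ⟨?_, R, fun s y h0 hy => by simp only [hR s y h0 hy, mul_zero]⟩
  exact (hc.comp (f := fun p : ℝ × ℝ => p.2) contDiff_snd.contDiffOn (fun p hp => hp.2)).mul h1

/-- second `y` derivative -/
def zz1 (P : ℝ → ℝ → ℂ) : ℝ → ℝ → ℂ := dy (dy P)

/-- `-P_s - (65/2-κ) P - (y/2) P_y` -/
def zz2 (κ : ℝ) (P : ℝ → ℝ → ℂ) : ℝ → ℝ → ℂ := fun s y =>
  -(ds P s y) - ((65 / 2 - κ : ℝ) : ℂ) * P s y - ((y / 2 : ℝ) : ℂ) * dy P s y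

lemma smooth_ofReal {f : ℝ → ℝ} (hf : ContDiff ℝ ∞ f) : ContDiff ℝ ∞ (fun y => ((f y : ℝ) : ℂ)) :=
  Complex.ofRealCLM.contDiff.comp hf

lemma TS.zz1 {P : ℝ → ℝ → ℂ} (h : TS P) : TS (zz1 P) := h.tdy.tdy

lemma TS.zz2 {P : ℝ → ℝ → ℂ} (h : TS P) : TS (zz2 κ P) := by
  have h1 := h.tds.mulY (c := fun _ => (-1 : ℂ)) contDiffOn_const
  have h2 := h.mulY (c := fun _ => -((65 / 2 - κ : ℝ) : ℂ)) contDiffOn_const
  have h3 := h.tdy.mulY (c := fun y => -((y / 2 : ℝ) : ℂ))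
    (smooth_ofReal (by fun_prop)).neg.contDiffOn
  have h4 := (h1.add h2).add h3
  have e : A.zz2 κ P = fun s y => ((-1 : ℂ) * A.ds P s y + -((65 / 2 - κ : ℝ) : ℂ) * P s y) +
      -((y / 2 : ℝ) : ℂ) * A.dy P s y := by
    funext s y
    unfold A.zz2
    ring
  rw [e]
  exact h4

def cA (V : ℝ → ℂ) (y : ℝ) : ℂ := (y : ℂ) ^ 9 * starRingEnd ℂ (V y)

def cB (g : ℝ → ℝ) (V : ℝ → ℂ) (y : ℝ) : ℂ :=
  (y : ℂ) ^ 9 * ((((y * g y) ^ 2 : ℝ) : ℂ) * starRingEnd ℂ (dh (dh V) y))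

lemma fX_eq (V Z1 Z2 : ℝ → ℂ) (y : ℝ) : fX g V Z1 Z2 y = cA V y * Z2 y + cB g V y * Z1 y := by
  unfold fX cA cB; ring

lemma conj_smooth {V : ℝ → ℂ} {s : Set ℝ} (h : ContDiffOn ℝ ∞ V s) :
    ContDiffOn ℝ ∞ (fun y => starRingEnd ℂ (V y)) s :=
  Complex.conjCLE.contDiff.comp_contDiffOn h

lemma cA_smooth {V : ℝ → ℂ} (h : TD V) : ContDiffOn ℝ ∞ (cA V) (Ici 0) := by
  unfold cA
  exact ((smooth_ofReal contDiff_id).pow 9).contDiffOn.mul (conj_smooth h.1)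

lemma cB_smooth (hg : ContDiff ℝ ∞ g) {V : ℝ → ℂ} (h : TD V) :
    ContDiffOn ℝ ∞ (cB g V) (Ici 0) := by
  unfold cB
  exact ((smooth_ofReal contDiff_id).pow 9).contDiffOn.mul
    ((smooth_ofReal ((contDiff_id.mul hg).pow 2)).contDiffOn.mul (conj_smooth h.tdh.tdh.1))

lemma TS.fX (hg : ContDiff ℝ ∞ g) {V : ℝ → ℂ} (hV : TD V) {Z1 Z2 : ℝ → ℝ → ℂ}
    (h1 : TS Z1) (h2 : TS Z2) : TS (fun s y => fX g V (Z1 s) (Z2 s) y) := by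
  have := (h2.mulY (cA_smooth hV)).add (h1.mulY (cB_smooth hg hV))
  simpa only [fX_eq] using this

lemma hat_fX (hg : ContDiff ℝ ∞ g) {V : ℝ → ℂ} (hV : TD V) {Z1 Z2 : ℝ → ℝ → ℂ}
    (h1 : TS Z1) (h2 : TS Z2) (ξ : ℝ) {y : ℝ} (hy : 0 ≤ y) :
    hat (fun s y => A.fX g V (Z1 s) (Z2 s) y) ξ y = A.fX g V (hat Z1 ξ) (hat Z2 ξ) y := by
  simp only [fX_eq]
  rw [hat_add (h2.mulY (cA_smooth hV)).toCS (h1.mulY (cB_smooth hg hV)).toCS ξ hy,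
    hat_smul, hat_smul]

lemma hat_zz1 {P : ℝ → ℝ → ℂ} (h : TS P) (ξ : ℝ) {y : ℝ} (hy : 0 ≤ y) :
    hat (zz1 P) ξ y = dh (dh (hat P ξ)) y := by
  unfold zz1
  rw [← h.tdy.dh_hat ξ hy]
  exact dh_congr (fun z hz => (h.dh_hat ξ hz).symm) hy

lemma hat_zz2 {P : ℝ → ℝ → ℂ} (h : TS P) (ξ : ℝ) {y : ℝ} (hy : 0 ≤ y) :
    hat (zz2 κ P) ξ y = -(Complex.I * ((2 * Real.pi * ξ : ℝ) : ℂ)) * hat P ξ y -
      ((65 / 2 - κ : ℝ) : ℂ) * hat P ξ y - ((y / 2 : ℝ) : ℂ) * dh (hat P ξ) y := by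
  have h1 := h.tds.mulY (c := fun _ => (-1 : ℂ)) contDiffOn_const
  have h2 := h.mulY (c := fun _ => -((65 / 2 - κ : ℝ) : ℂ)) contDiffOn_const
  have h3 := h.tdy.mulY (c := fun y => -((y / 2 : ℝ) : ℂ))
    (smooth_ofReal (by fun_prop)).neg.contDiffOn
  have e : zz2 κ P = fun s y => ((-1 : ℂ) * ds P s y + -((65 / 2 - κ : ℝ) : ℂ) * P s y) +
      -((y / 2 : ℝ) : ℂ) * dy P s y := by
    funext s y
    unfold zz2
    ring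
  rw [e, hat_add (h1.add h2).toCS h3.toCS ξ hy, hat_add h1.toCS h2.toCS ξ hy,
    hat_smul (fun _ => (-1 : ℂ)), hat_smul (fun _ => -((65 / 2 - κ : ℝ) : ℂ)),
    hat_smul (fun y => -((y / 2 : ℝ) : ℂ)), h.hat_ds ξ hy, h.dh_hat ξ hy]
  push_cast
  ring

lemma aST_eq {V Q : ℝ → ℂ} (hV : TD V) (hQ : TD Q) (ξ : ℝ) :
    stForm g κ ξ V Q = ∫ y in Ioi (0 : ℝ), fX g V (dh (dh Q))
      (fun y => -(Complex.I * (ξ : ℂ)) * Q y - ((65 / 2 - κ : ℝ) : ℂ) * Q y -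
        ((y / 2 : ℝ) : ℂ) * dh Q y) y := by
  unfold stForm fX
  refine setIntegral_congr_fun measurableSet_Ioi fun y hy => ?_
  simp only [deriv2_eq hV hy, deriv2_eq hQ hy, deriv_eq_dh hQ hy]
  push_cast
  ring

/-- the scalar function `q_V` -/
def qV (g : ℝ → ℝ) (κ : ℝ) (P : ℝ → ℝ → ℂ) (V : ℝ → ℂ) (s : ℝ) : ℂ :=
  ∫ y in Ioi (0 : ℝ), fX g V (zz1 P s) (zz2 κ P s) y

lemma qV_smooth (hg : ContDiff ℝ ∞ g) {V : ℝ → ℂ} (hV : TD V) {P : ℝ → ℝ → ℂ} (h : TS P) :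
    ContDiff ℝ ∞ (qV g κ P V) ∧ HasCompactSupport (qV g κ P V) :=
  (TS.fX hg hV h.zz1 h.zz2).q_smooth

lemma fourier_qV (hg : ContDiff ℝ ∞ g) {V : ℝ → ℂ} (hV : TD V) {P : ℝ → ℝ → ℂ} (h : TS P)
    (ξ : ℝ) : 𝓕 (qV g κ P V) ξ = stForm g κ (2 * Real.pi * ξ) V (hat P ξ) := by
  have h1 := (TS.fX hg hV h.zz1 (h.zz2 (κ := κ))).toCS.fourier_q ξ
  have e : qV g κ P V = fun s => ∫ y in Ioi (0 : ℝ), fX g V (zz1 P s) (zz2 κ P s) y := rfl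
  rw [e, h1, aST_eq hV (h.hat_TD ξ)]
  refine setIntegral_congr_fun measurableSet_Ioi fun y hy => ?_
  have hy' : (0 : ℝ) ≤ y := le_of_lt hy
  show hat (fun s y => fX g V (zz1 P s) (zz2 κ P s) y) ξ y = _
  rw [hat_fX hg hV h.zz1 h.zz2 ξ hy', fX_eq, fX_eq, hat_zz1 h ξ hy', hat_zz2 h ξ hy']

end Crest.Agent.R213.A
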