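import Crest.Agent.R213.J0bGen
import Crest.Agent.R213.A.FourGS

/-!
# Row 213, part A, block A-FOUR (helper944): test functions on the half line and on `ℝ × [0,∞)`
-/

set_option autoImplicit false

open Set MeasureTheory Filter Topology
open scoped ContDiff FourierTransform InnerProductSpace

noncomputable section

namespace Crest.Agent.R213.A

section defs
variable {E : Type*} [NormedAddCommGroup E] [NormedSpace ℝ E]

/-- static test functions: smooth on `[0,∞)` (one-sided at `0`), bounded support -/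
def TD (P : ℝ → E) : Prop :=
  ContDiffOn ℝ ∞ P (Ici 0) ∧ ∃ R : ℝ, ∀ y, R ≤ y → P y = 0

/-- one-sided derivative on `[0,∞)` -/
def dh (P : ℝ → E) : ℝ → E := fun y => derivWithin P (Ici 0) y

/-- space-time test functions: smooth on `ℝ × [0,∞)`, bounded support -/
def TS (P : ℝ → ℝ → E) : Prop :=
  ContDiffOn ℝ ∞ (fun p : ℝ × ℝ => P p.1 p.2) (univ ×ˢ Ici 0) ∧
    ∃ R : ℝ, ∀ s y, 0 ≤ y → (R ≤ |s| ∨ R ≤ y) → P s y = 0

/-- `∂_s` -/
def ds (P : ℝ → ℝ → E) : ℝ → ℝ → E := fun s y => deriv (fun r => P r y) s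

/-- `∂_y` (one-sided at `0`) -/
def dy (P : ℝ → ℝ → E) : ℝ → ℝ → E := fun s y => dh (P s) y

end defs

section TD
variable {E : Type*} [NormedAddCommGroup E] [NormedSpace ℝ E]
variable {P Q : ℝ → E}

lemma TD.cont (h : TD P) : ContinuousOn P (Ici 0) := h.1.continuousOn

lemma TD.diff (h : TD P) : DifferentiableOn ℝ P (Ici 0) := h.1.differentiableOn (by simp)

lemma TD.zero : TD (fun _ => (0 : E)) := ⟨contDiffOn_const, 0, fun _ _ => rfl⟩

lemma TD.add (h : TD P) (k : TD Q) : TD (fun y => P y + Q y) := by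
  obtain ⟨h1, R, hR⟩ := h
  obtain ⟨k1, S, hS⟩ := k
  exact ⟨h1.add k1, max R S, fun y hy => by
    simp only [hR y (le_trans (le_max_left _ _) hy), hS y (le_trans (le_max_right _ _) hy), add_zero]⟩

lemma TD.smul' {c : ℝ → ℝ} (hc : ContDiffOn ℝ ∞ c (Ici 0)) (h : TD P) : TD (fun y => c y • P y) := by
  obtain ⟨h1, R, hR⟩ := h
  exact ⟨hc.smul h1, R, fun y hy => by simp only [hR y hy, smul_zero]⟩

lemma TD.clm {F : Type*} [NormedAddCommGroup F] [NormedSpace ℝ F] (h : TD P) (A : E →L[ℝ] F) :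
    TD (fun y => A (P y)) := by
  obtain ⟨h1, R, hR⟩ := h
  exact ⟨A.contDiff.comp_contDiffOn h1, R, fun y hy => by simp only [hR y hy, map_zero]⟩

lemma TD.sum {ι : Type*} (s : Finset ι) {P : ι → ℝ → E} (h : ∀ i ∈ s, TD (P i)) :
    TD (fun y => ∑ i ∈ s, P i y) := by
  classical
  induction s using Finset.induction_on with
  | empty => simpa using TD.zero
  | insert a s ha ih =>
    have := (h a (Finset.mem_insert_self _ _)).add (ih fun i hi => h i (Finset.mem_insert_of_mem hi))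
    simpa [Finset.sum_insert ha] using this

lemma TD.tdh (h : TD P) : TD (dh P) := by
  obtain ⟨h1, R, hR⟩ := h
  refine ⟨h1.derivWithin (uniqueDiffOn_Ici 0) (by simp), max R 0 + 1, fun y hy => ?_⟩
  have hy1 : R < y := lt_of_le_of_lt (le_max_left R 0) (by linarith)
  have e : P =ᶠ[𝓝[Ici 0] y] fun _ => (0 : E) := by
    refine mem_nhdsWithin_of_mem_nhds ?_
    filter_upwards [lt_mem_nhds hy1] with z hz using hR z hz.le
  have : derivWithin P (Ici 0) y = derivWithin (fun _ => (0 : E)) (Ici 0) y :=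
    e.derivWithin_eq (hR y hy1.le)
  show derivWithin P (Ici 0) y = 0
  rw [this]
  simp

lemma TD.hasDeriv (h : TD P) {y : ℝ} (hy : 0 ≤ y) :
    HasDerivWithinAt P (dh P y) (Ici 0) y :=
  (h.diff y hy).hasDerivWithinAt

lemma dh_eq {P' : E} {y : ℝ} (hy : 0 ≤ y) (h : HasDerivWithinAt P P' (Ici 0) y) : dh P y = P' :=
  h.derivWithin (uniqueDiffOn_Ici 0 y hy)

lemma dh_congr (h : ∀ y, 0 ≤ y → P y = Q y) {y : ℝ} (hy : 0 ≤ y) : dh P y = dh Q y :=
  derivWithin_congr (fun z hz => h z hz) (h y hy)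

lemma dh_add (h : TD P) (k : TD Q) {y : ℝ} (hy : 0 ≤ y) :
    dh (fun y => P y + Q y) y = dh P y + dh Q y :=
  dh_eq hy ((h.hasDeriv hy).add (k.hasDeriv hy))

lemma dh_sum {ι : Type*} (s : Finset ι) {P : ι → ℝ → E} (h : ∀ i ∈ s, TD (P i)) {y : ℝ}
    (hy : 0 ≤ y) : dh (fun y => ∑ i ∈ s, P i y) y = ∑ i ∈ s, dh (P i) y :=
  dh_eq hy (HasDerivWithinAt.fun_sum fun i hi => (h i hi).hasDeriv hy)

lemma dh_clm {F : Type*} [NormedAddCommGroup F] [NormedSpace ℝ F] (h : TD P) (A : E →L[ℝ] F)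
    {y : ℝ} (hy : 0 ≤ y) : dh (fun y => A (P y)) y = A (dh P y) :=
  dh_eq hy (A.hasFDerivAt.comp_hasDerivWithinAt y (h.hasDeriv hy))

lemma deriv_eq_dh (h : TD P) {y : ℝ} (hy : 0 < y) : deriv P y = dh P y :=
  ((h.hasDeriv hy.le).hasDerivAt (Ici_mem_nhds hy)).deriv

end TD

section TS
variable {E : Type*} [NormedAddCommGroup E] [NormedSpace ℝ E]
variable {P Q : ℝ → ℝ → E}

lemma uniqueDiffOn_half : UniqueDiffOn ℝ ((univ : Set ℝ) ×ˢ Ici (0 : ℝ)) :=
  uniqueDiffOn_univ.prod (uniqueDiffOn_Ici 0)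

lemma TS.cont (h : TS P) :
    ContinuousOn (fun p : ℝ × ℝ => P p.1 p.2) (univ ×ˢ Ici 0) := h.1.continuousOn

lemma TS.zero : TS (fun _ _ => (0 : E)) := ⟨contDiffOn_const, 0, fun _ _ _ _ => rfl⟩

lemma TS.add (h : TS P) (k : TS Q) : TS (fun s y => P s y + Q s y) := by
  obtain ⟨h1, R, hR⟩ := h
  obtain ⟨k1, S, hS⟩ := k
  refine ⟨h1.add k1, max R S, fun s y h0 hy => ?_⟩
  simp only [hR s y h0 (hy.imp (le_trans (le_max_left _ _)) (le_trans (le_max_left _ _))),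
    hS s y h0 (hy.imp (le_trans (le_max_right _ _)) (le_trans (le_max_right _ _))), add_zero]

lemma TS.clm {F : Type*} [NormedAddCommGroup F] [NormedSpace ℝ F] (h : TS P) (A : E →L[ℝ] F) :
    TS (fun s y => A (P s y)) := by
  obtain ⟨h1, R, hR⟩ := h
  exact ⟨A.contDiff.comp_contDiffOn h1, R, fun s y h0 hy => by simp only [hR s y h0 hy, map_zero]⟩

lemma TS.smul' {c : ℝ → ℝ → ℝ} (hc : ContDiffOn ℝ ∞ (fun p : ℝ × ℝ => c p.1 p.2) (univ ×ˢ Ici 0))
    (h : TS P) : TS (fun s y => c s y • P s y) := by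
  obtain ⟨h1, R, hR⟩ := h
  exact ⟨hc.smul h1, R, fun s y h0 hy => by simp only [hR s y h0 hy, smul_zero]⟩

lemma TS.sum {ι : Type*} (t : Finset ι) {P : ι → ℝ → ℝ → E} (h : ∀ i ∈ t, TS (P i)) :
    TS (fun s y => ∑ i ∈ t, P i s y) := by
  classical
  induction t using Finset.induction_on with
  | empty => simpa using TS.zero
  | insert a t ha ih =>
    have := (h a (Finset.mem_insert_self _ _)).add (ih fun i hi => h i (Finset.mem_insert_of_mem hi))
    simpa [Finset.sum_insert ha] using this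

lemma TS.slice (h : TS P) (s : ℝ) : TD (P s) := by
  obtain ⟨h1, R, hR⟩ := h
  refine ⟨?_, max R 0, fun y hy => hR s y (le_trans (le_max_right _ _) hy)
    (Or.inr (le_trans (le_max_left _ _) hy))⟩
  exact h1.comp (f := fun y : ℝ => (s, y)) (by fun_prop) (fun y hy => ⟨trivial, hy⟩)

lemma TS.sliceS (h : TS P) {y : ℝ} (hy : 0 ≤ y) : ContDiff ℝ ∞ (fun s => P s y) := by
  rw [← contDiffOn_univ]
  exact h.1.comp (f := fun s : ℝ => (s, y)) (by fun_prop) (fun s _ => ⟨trivial, hy⟩)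

lemma TS.compS (h : TS P) {y : ℝ} (hy : 0 ≤ y) : HasCompactSupport (fun s => P s y) := by
  obtain ⟨h1, R, hR⟩ := h
  refine HasCompactSupport.intro (isCompact_Icc (a := -R) (b := R)) fun s hs => ?_
  refine hR s y hy (Or.inl ?_)
  by_contra hlt
  push Not at hlt
  exact hs (abs_le.1 hlt.le)

/-- Frechet derivative within the half plane -/
def fd (P : ℝ → ℝ → E) : ℝ × ℝ → ℝ × ℝ →L[ℝ] E :=
  fderivWithin ℝ (fun p : ℝ × ℝ => P p.1 p.2) (univ ×ˢ Ici 0)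

lemma TS.hasFD (h : TS P) {s y : ℝ} (hy : 0 ≤ y) :
    HasFDerivWithinAt (fun p : ℝ × ℝ => P p.1 p.2) (fd P (s, y)) (univ ×ˢ Ici 0) (s, y) :=
  (h.1.differentiableOn (by simp) (s, y) ⟨trivial, hy⟩).hasFDerivWithinAt

lemma TS.hasDerivS (h : TS P) (s : ℝ) {y : ℝ} (hy : 0 ≤ y) :
    HasDerivAt (fun r => P r y) (ds P s y) s :=
  ((h.sliceS hy).differentiable (by simp) s).hasDerivAt

lemma TS.hasDerivY (h : TS P) (s : ℝ) {y : ℝ} (hy : 0 ≤ y) :
    HasDerivWithinAt (P s) (dy P s y) (Ici 0) y := (h.slice s).hasDeriv hy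

lemma TS.ds_eq (h : TS P) (s : ℝ) {y : ℝ} (hy : 0 ≤ y) : ds P s y = fd P (s, y) (1, 0) := by
  have h1 : HasDerivWithinAt (fun r : ℝ => ((r, y) : ℝ × ℝ)) (1, 0) univ s :=
    ((hasDerivAt_id s).prodMk (hasDerivAt_const s y)).hasDerivWithinAt
  have := (h.hasFD hy (s := s)).comp_hasDerivWithinAt s h1
    (fun r _ => (⟨trivial, hy⟩ : ((r, y) : ℝ × ℝ) ∈ (univ : Set ℝ) ×ˢ Ici (0 : ℝ)))
  exact (hasDerivWithinAt_univ.1 this).deriv

lemma TS.dy_eq (h : TS P) (s : ℝ) {y : ℝ} (hy : 0 ≤ y) : dy P s y = fd P (s, y) (0, 1) := by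
  have h1 : HasDerivWithinAt (fun z : ℝ => ((s, z) : ℝ × ℝ)) (0, 1) (Ici 0) y :=
    ((hasDerivAt_const y s).prodMk (hasDerivAt_id y)).hasDerivWithinAt
  have := (h.hasFD hy (s := s)).comp_hasDerivWithinAt y h1
    (fun r hr => (⟨trivial, hr⟩ : ((s, r) : ℝ × ℝ) ∈ (univ : Set ℝ) ×ˢ Ici (0 : ℝ)))
  exact dh_eq hy this

lemma TS.fd_smooth (h : TS P) (v : ℝ × ℝ) :
    ContDiffOn ℝ ∞ (fun p : ℝ × ℝ => fd P p v) (univ ×ˢ Ici 0) :=
  (h.1.fderivWithin uniqueDiffOn_half (by simp)).clm_apply contDiffOn_const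

lemma TS.fd_zero (h : TS P) : ∃ R : ℝ, ∀ s y, 0 ≤ y → (R ≤ |s| ∨ R ≤ y) → fd P (s, y) = 0 := by
  obtain ⟨h1, R, hR⟩ := h
  refine ⟨|R| + 1, fun s y hy hsy => ?_⟩
  have hR' : R < |R| + 1 := lt_of_le_of_lt (le_abs_self R) (by linarith)
  have e : (fun p : ℝ × ℝ => P p.1 p.2) =ᶠ[𝓝[univ ×ˢ Ici 0] (s, y)] fun _ => (0 : E) := by
    rcases hsy with hs | hy'
    · have : ∀ᶠ p : ℝ × ℝ in 𝓝 (s, y), R < |p.1| :=
        (show ContinuousAt (fun p : ℝ × ℝ => |p.1|) (s, y) by fun_prop).eventually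
          (lt_mem_nhds (lt_of_lt_of_le hR' hs))
      filter_upwards [mem_nhdsWithin_of_mem_nhds this, self_mem_nhdsWithin] with p hp hp0
        using hR _ _ hp0.2 (Or.inl (le_of_lt hp))
    · have : ∀ᶠ p : ℝ × ℝ in 𝓝 (s, y), R < p.2 :=
        (show ContinuousAt (fun p : ℝ × ℝ => p.2) (s, y) by fun_prop).eventually
          (lt_mem_nhds (lt_of_lt_of_le hR' hy'))
      filter_upwards [mem_nhdsWithin_of_mem_nhds this, self_mem_nhdsWithin] with p hp hp0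
        using hR _ _ hp0.2 (Or.inr (le_of_lt hp))
  have h0 : P s y = 0 := hR s y hy (hsy.imp (le_trans hR'.le) (le_trans hR'.le))
  unfold fd
  rw [e.fderivWithin_eq h0]
  simp

lemma TS.tds (h : TS P) : TS (ds P) := by
  obtain ⟨R, hR⟩ := h.fd_zero
  refine ⟨(h.fd_smooth (1, 0)).congr fun p hp => h.ds_eq p.1 hp.2, R, fun s y hy hsy => ?_⟩
  rw [h.ds_eq s hy, hR s y hy hsy]; simp

lemma TS.tdy (h : TS P) : TS (dy P) := by
  obtain ⟨R, hR⟩ := h.fd_zero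
  refine ⟨(h.fd_smooth (0, 1)).congr fun p hp => h.dy_eq p.1 hp.2, R, fun s y hy hsy => ?_⟩
  rw [h.dy_eq s hy, hR s y hy hsy]; simp

end TS

end Crest.Agent.R213.A
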