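import Crest.Agent.R213.A.ADefs
import Crest.Agent.R213.A.FourInt

/-!
# Row 213, part A, block A-FOUR (helper944): the static Hilbert space
-/

set_option autoImplicit false

open Set MeasureTheory Filter Topology
open scoped ContDiff FourierTransform InnerProductSpace

noncomputable section

namespace Crest.Agent.R213.A

lemma w60_pos944 (y : ℝ) : 0 < w60 y := by unfold w60; positivity

lemma w60_cont944 : Continuous w60 := by unfold w60; fun_prop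

lemma TD.toDD {V : ℝ → ℂ} (h : TD V) : DD V := by
  exact h

lemma DD.toTD {V : ℝ → ℂ} (h : DD V) : TD V := by
  exact h

lemma deriv2_eq {E : Type*} [NormedAddCommGroup E] [NormedSpace ℝ E] {P : ℝ → E} (h : TD P)
    {y : ℝ} (hy : 0 < y) : deriv (deriv P) y = dh (dh P) y := by
  have e : deriv P =ᶠ[𝓝 y] dh P := by
    filter_upwards [lt_mem_nhds hy] with z hz using deriv_eq_dh h hz
  rw [e.deriv_eq, deriv_eq_dh h.tdh hy]

/-- `√(y⁹/ν)` -/
def rX (y : ℝ) : ℝ := √(y ^ 9 / w60 y)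
/-- `√(y⁹ν)` -/
def rY (y : ℝ) : ℝ := √(y ^ 9 * w60 y)

lemma rX_cont : Continuous rX :=
  Real.continuous_sqrt.comp ((continuous_id.pow 9).div w60_cont944 fun y => (w60_pos944 y).ne')

lemma rY_cont : Continuous rY :=
  Real.continuous_sqrt.comp ((continuous_id.pow 9).mul w60_cont944)

lemma rX_sq {y : ℝ} (hy : 0 < y) : rX y ^ 2 = y ^ 9 / w60 y :=
  Real.sq_sqrt (by have := w60_pos944 y; positivity)

lemma rXY {y : ℝ} (hy : 0 < y) : rX y * rY y = y ^ 9 := by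
  have := w60_pos944 y
  unfold rX rY
  rw [← Real.sqrt_mul (by positivity)]
  have e : y ^ 9 / w60 y * (y ^ 9 * w60 y) = (y ^ 9) ^ 2 := by field_simp
  rw [e, Real.sqrt_sq (by positivity)]

/-- two component values -/
abbrev C2 : Type := EuclideanSpace ℂ (Fin 2)

/-- the measure on the half line -/
abbrev mu : Measure ℝ := (volume : Measure ℝ).restrict (Ioi 0)

/-- the static Hilbert space -/
abbrev HH : Type := Lp C2 2 mu

variable {g : ℝ → ℝ}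

def vecX (g : ℝ → ℝ) (V : ℝ → ℂ) (y : ℝ) : C2 :=
  !₂[((rX y * (y * g y) : ℝ) : ℂ) * dh (dh V) y, ((rX y : ℝ) : ℂ) * V y]

def vecY (g : ℝ → ℝ) (Z1 Z2 : ℝ → ℂ) (y : ℝ) : C2 :=
  !₂[((rY y * (y * g y) : ℝ) : ℂ) * Z1 y, ((rY y : ℝ) : ℂ) * Z2 y]

lemma inner_C2 (a b c d : ℂ) : (inner ℂ (!₂[a, b] : C2) (!₂[c, d] : C2) : ℂ) =
    starRingEnd ℂ a * c + starRingEnd ℂ b * d := by
  rw [PiLp.inner_apply, Fin.sum_univ_two]
  simp [mul_comm]

lemma norm_C2 (a b : ℂ) : ‖(!₂[a, b] : C2)‖ ^ 2 = ‖a‖ ^ 2 + ‖b‖ ^ 2 := by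
  rw [EuclideanSpace.norm_sq_eq, Fin.sum_univ_two]
  simp

lemma C2_cont {f h : ℝ → ℂ} {s : Set ℝ} (hf : ContinuousOn f s) (hh : ContinuousOn h s) :
    ContinuousOn (fun y => (!₂[f y, h y] : C2)) s := by
  refine (PiLp.continuous_toLp 2 _).comp_continuousOn ?_
  refine continuousOn_pi.2 fun i => ?_
  fin_cases i
  · exact hf
  · exact hh

lemma CD.memLp {E : Type*} [NormedAddCommGroup E] {F : ℝ → E} (h : CD F) : MemLp F 2 mu := by
  have h1 : AEStronglyMeasurable F mu := h.integrableOn.1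
  rw [memLp_two_iff_integrable_sq_norm h1]
  exact (h.map (a := fun _ z => ‖z‖ ^ 2) (by fun_prop) (by simp)).integrableOn

lemma vecX_CD (hg : Continuous g) {V : ℝ → ℂ} (h : TD V) : CD (vecX g V) := by
  obtain ⟨R, hR⟩ := h.2
  obtain ⟨R', hR'⟩ := h.tdh.tdh.2
  refine ⟨?_, max R R', fun y _ hy => ?_⟩
  · refine C2_cont ?_ ?_
    · refine ContinuousOn.mul (Continuous.continuousOn ?_) h.tdh.tdh.cont
      exact Complex.continuous_ofReal.comp (rX_cont.mul (continuous_id.mul hg))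
    · exact ContinuousOn.mul (Complex.continuous_ofReal.comp rX_cont).continuousOn h.cont
  · unfold vecX
    rw [hR y (le_trans (le_max_left _ _) hy), hR' y (le_trans (le_max_right _ _) hy)]
    ext i
    fin_cases i <;> simp

lemma vecY_CD (hg : Continuous g) {Z1 Z2 : ℝ → ℂ} (h1 : CD Z1) (h2 : CD Z2) :
    CD (vecY g Z1 Z2) := by
  obtain ⟨R, hR⟩ := h1.2
  obtain ⟨R', hR'⟩ := h2.2
  refine ⟨?_, max R R', fun y h0 hy => ?_⟩
  · refine C2_cont ?_ ?_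
    · refine ContinuousOn.mul (Continuous.continuousOn ?_) h1.1
      exact Complex.continuous_ofReal.comp (rY_cont.mul (continuous_id.mul hg))
    · exact ContinuousOn.mul (Complex.continuous_ofReal.comp rY_cont).continuousOn h2.1
  · unfold vecY
    rw [hR y h0 (le_trans (le_max_left _ _) hy), hR' y h0 (le_trans (le_max_right _ _) hy)]
    ext i
    fin_cases i <;> simp

/-- the integrand of the form -/
def fX (g : ℝ → ℝ) (V Z1 Z2 : ℝ → ℂ) (y : ℝ) : ℂ :=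
  (y : ℂ) ^ 9 * (starRingEnd ℂ (V y) * Z2 y +
    (((y * g y) ^ 2 : ℝ) : ℂ) * starRingEnd ℂ (dh (dh V) y) * Z1 y)

lemma inner_vec {V Z1 Z2 : ℝ → ℂ} {y : ℝ} (hy : 0 < y) :
    (inner ℂ (vecX g V y) (vecY g Z1 Z2 y) : ℂ) = fX g V Z1 Z2 y := by
  unfold vecX vecY fX
  rw [inner_C2]
  simp only [map_mul, Complex.conj_ofReal]
  have e : (y : ℂ) ^ 9 = ((rX y : ℝ) : ℂ) * ((rY y : ℝ) : ℂ) := by
    rw [← Complex.ofReal_mul, rXY hy]; push_cast; ring
  rw [e]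
  push_cast
  ring

lemma inner_HH {V Z1 Z2 : ℝ → ℂ} {x h : HH} (hx : (x : ℝ → C2) =ᵐ[mu] vecX g V)
    (hh : (h : ℝ → C2) =ᵐ[mu] vecY g Z1 Z2) :
    (inner ℂ x h : ℂ) = ∫ y in Ioi (0 : ℝ), fX g V Z1 Z2 y := by
  rw [L2.inner_def]
  refine integral_congr_ae ?_
  filter_upwards [hx, hh, ae_restrict_mem measurableSet_Ioi] with y h1 h2 h3
  rw [h1, h2, inner_vec h3]

lemma norm_vec {V : ℝ → ℂ} {y : ℝ} (hy : 0 < y) :
    ‖vecX g V y‖ ^ 2 = y ^ 9 / w60 y * ((y * g y) ^ 2 * ‖dh (dh V) y‖ ^ 2 + ‖V y‖ ^ 2) := by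
  unfold vecX
  rw [norm_C2, norm_mul, norm_mul, Complex.norm_real, Complex.norm_real, mul_pow, mul_pow,
    Real.norm_eq_abs, Real.norm_eq_abs, sq_abs, sq_abs, mul_pow, rX_sq hy]
  ring

lemma nXS_eq {V : ℝ → ℂ} (h : TD V) : stX g V = ∫ y in Ioi (0 : ℝ),
    y ^ 9 / w60 y * ((y * g y) ^ 2 * ‖dh (dh V) y‖ ^ 2 + ‖V y‖ ^ 2) := by
  unfold stX
  refine setIntegral_congr_fun measurableSet_Ioi fun y hy => ?_
  simp only [deriv2_eq h hy, div_eq_mul_inv]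

lemma nYS_eq {V : ℝ → ℂ} (h : TD V) : stY g V = ∫ y in Ioi (0 : ℝ),
    y ^ 9 * w60 y * ((y * g y) ^ 2 * ‖dh (dh V) y‖ ^ 2 + ‖V y‖ ^ 2) := by
  unfold stY
  refine setIntegral_congr_fun measurableSet_Ioi fun y hy => ?_
  simp only [deriv2_eq h hy]

lemma norm_HH {V : ℝ → ℂ} (h : TD V) {x : HH} (hx : (x : ℝ → C2) =ᵐ[mu] vecX g V) :
    ‖x‖ ^ 2 = stX g V := by
  have e : (‖x‖ ^ 2 : ℝ) = RCLike.re (inner ℂ x x : ℂ) := by
    rw [inner_self_eq_norm_sq (𝕜 := ℂ)]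
  rw [e, L2.inner_def, ← integral_re (L2.integrable_inner x x), nXS_eq h]
  refine integral_congr_ae ?_
  filter_upwards [hx, ae_restrict_mem measurableSet_Ioi] with y h1 h3
  rw [inner_self_eq_norm_sq (𝕜 := ℂ), h1, norm_vec h3]

lemma TD.cmul {V : ℝ → ℂ} (h : TD V) (c : ℂ) : TD (fun y => c * V y) := by
  have := h.clm (c • (ContinuousLinearMap.id ℝ ℂ) : ℂ →L[ℝ] ℂ)
  simpa using this

lemma dh_cmul {V : ℝ → ℂ} (h : TD V) (c : ℂ) {y : ℝ} (hy : 0 ≤ y) :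
    dh (fun y => c * V y) y = c * dh V y := by
  have := dh_clm h (c • (ContinuousLinearMap.id ℝ ℂ) : ℂ →L[ℝ] ℂ) hy
  simpa using this

lemma dh2_cmul {V : ℝ → ℂ} (h : TD V) (c : ℂ) {y : ℝ} (hy : 0 ≤ y) :
    dh (dh (fun y => c * V y)) y = c * dh (dh V) y := by
  rw [← dh_cmul h.tdh c hy]
  exact dh_congr (fun z hz => dh_cmul h c hz) hy

lemma dh2_add {V W : ℝ → ℂ} (h : TD V) (k : TD W) {y : ℝ} (hy : 0 ≤ y) :
    dh (dh (fun y => V y + W y)) y = dh (dh V) y + dh (dh W) y := by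
  rw [← dh_add h.tdh k.tdh hy]
  exact dh_congr (fun z hz => dh_add h k hz) hy

lemma dh2_sum {ι : Type*} (s : Finset ι) {P : ι → ℝ → ℂ} (h : ∀ i ∈ s, TD (P i)) {y : ℝ}
    (hy : 0 ≤ y) : dh (dh (fun y => ∑ i ∈ s, P i y)) y = ∑ i ∈ s, dh (dh (P i)) y := by
  rw [← dh_sum s (fun i hi => (h i hi).tdh) hy]
  exact dh_congr (fun z hz => dh_sum s h hz) hy

/-- the subspace of (classes of) `vecX V`, `V` a static test function -/
def subE (g : ℝ → ℝ) : Submodule ℂ HH where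
  carrier := {x | ∃ V : ℝ → ℂ, TD V ∧ (x : ℝ → C2) =ᵐ[mu] vecX g V}
  add_mem' := by
    rintro x x' ⟨V, hV, hx⟩ ⟨W, hW, hx'⟩
    refine ⟨fun y => V y + W y, hV.add hW, ?_⟩
    filter_upwards [Lp.coeFn_add x x', hx, hx', ae_restrict_mem measurableSet_Ioi] with y h1 h2 h3 h4
    rw [h1, Pi.add_apply, h2, h3]
    unfold vecX
    rw [dh2_add hV hW (le_of_lt h4)]
    ext i
    fin_cases i <;> simp [mul_add]
  zero_mem' := by
    refine ⟨fun _ => 0, TD.zero, ?_⟩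
    filter_upwards [Lp.coeFn_zero C2 2 mu, ae_restrict_mem measurableSet_Ioi] with y h1 h4
    rw [h1]
    have e : dh (dh (fun _ : ℝ => (0 : ℂ))) y = 0 := by
      have := dh2_cmul (V := fun _ => (0 : ℂ)) TD.zero 0 (le_of_lt h4)
      simpa using this
    unfold vecX
    rw [e]
    ext i
    fin_cases i <;> simp
  smul_mem' := by
    rintro c x ⟨V, hV, hx⟩
    refine ⟨fun y => c * V y, hV.cmul c, ?_⟩
    filter_upwards [Lp.coeFn_smul c x, hx, ae_restrict_mem measurableSet_Ioi] with y h1 h2 h4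
    rw [h1, Pi.smul_apply, h2]
    unfold vecX
    rw [dh2_cmul hV c (le_of_lt h4)]
    ext i
    fin_cases i
    · simp; ring
    · simp; ring

lemma exists_vec (hg : Continuous g) {V : ℝ → ℂ} (h : TD V) :
    ∃ x : HH, (x : ℝ → C2) =ᵐ[mu] vecX g V :=
  ⟨(vecX_CD hg h).memLp.toLp _, MemLp.coeFn_toLp _⟩

lemma exists_vecY (hg : Continuous g) {Z1 Z2 : ℝ → ℂ} (h1 : CD Z1) (h2 : CD Z2) :
    ∃ x : HH, (x : ℝ → C2) =ᵐ[mu] vecY g Z1 Z2 :=
  ⟨(vecY_CD hg h1 h2).memLp.toLp _, MemLp.coeFn_toLp _⟩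

end Crest.Agent.R213.A
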