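import Crest.Agent.R213.A.Calc

/-!
# Row 213, part A: weighted interpolation (A1)

`∫ x⁹ ω (φ v')²/(x²+τ) ≤ η ∫ x⁹ ω (φ v'')² + C ∫ x⁹ ω v²/(x²+τ)` for weights with
`|ω'| ≤ K x ω/(x²+τ)`.
-/

set_option autoImplicit false

open Set MeasureTheory Filter Topology

noncomputable section

namespace Crest.Agent.R213.A

/-- elementary `ab ≤ η a²/2 + b²/(2η)` -/
theorem young {η a b : ℝ} (hη : 0 < η) : a * b ≤ η / 2 * a ^ 2 + 1 / (2 * η) * b ^ 2 := by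
  have h : 0 ≤ (η * a - b) ^ 2 / (2 * η) := by positivity
  have e : (η * a - b) ^ 2 / (2 * η) = η / 2 * a ^ 2 + 1 / (2 * η) * b ^ 2 - a * b := by
    field_simp; ring
  linarith

/-- pointwise form of the interpolation inequality. `w` weight, `wx` its derivative,
`φ`, `f = φ'`, `v, p = v', q = v''`. -/
theorem interp_pt {x r w wx φ f v p q C0 K η : ℝ} (hx : 0 ≤ x) (hr : 0 < r) (hxr : x ^ 2 ≤ r)
    (hw : 0 ≤ w) (hC0 : 0 ≤ C0) (hK : 0 ≤ K) (hη : 0 < η) (hφ : |φ| ≤ C0 * x) (hf : |f| ≤ C0)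
    (hwx : |wx| ≤ K * (x * w / r)) :
    x ^ 9 * w * (φ * p) ^ 2 / r ≤
      4 / 3 * ((9 * x ^ 8 * (w * φ ^ 2 / r) + x ^ 9 * ((wx * φ ^ 2 + w * (2 * φ * f)) / r
        - w * φ ^ 2 * (2 * x) / r ^ 2)) * (v * p) + x ^ 9 * (w * φ ^ 2 / r) * (p * p + v * q))
      + 2 / 3 * η * (x ^ 9 * w * (φ * q) ^ 2)
      + 4 / 3 * (C0 ^ 2 * (13 + K) ^ 2 + C0 ^ 2 / (2 * η)) * (x ^ 9 * w * v ^ 2 / r) := by
  -- the three pieces
  set T : ℝ := x ^ 9 * w / r with hT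
  have hT0 : 0 ≤ T := by positivity
  have hφ0 : 0 ≤ |φ| := abs_nonneg _
  -- the first-order coefficient
  set P1 : ℝ := 9 * x ^ 8 * (w * φ ^ 2 / r) + x ^ 9 * ((wx * φ ^ 2 + w * (2 * φ * f)) / r
        - w * φ ^ 2 * (2 * x) / r ^ 2) with hP1
  have hφ2 : φ ^ 2 = |φ| * |φ| := by rw [← sq, sq_abs]
  have b1 : |9 * x ^ 8 * (w * φ ^ 2 / r)| ≤ T * |φ| * (9 * C0) := by
    rw [abs_of_nonneg (by positivity), hφ2]
    have : 9 * x ^ 8 * (w * (|φ| * |φ|) / r) = (9 * x ^ 8 * w / r * |φ|) * |φ| := by ring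
    rw [this]
    have h2 : (9 * x ^ 8 * w / r * |φ|) * |φ| ≤ (9 * x ^ 8 * w / r * |φ|) * (C0 * x) :=
      mul_le_mul_of_nonneg_left hφ (by positivity)
    refine h2.trans (le_of_eq ?_)
    rw [hT]; ring
  have hx2r : x * (C0 * x) / r ≤ C0 := by
    rw [div_le_iff₀ hr]; nlinarith
  have b2 : |x ^ 9 * (wx * φ ^ 2 / r)| ≤ T * |φ| * (K * C0) := by
    rw [abs_mul, abs_div, abs_mul, abs_of_nonneg (pow_nonneg hx 9), abs_of_pos hr,
      abs_of_nonneg (sq_nonneg φ), hφ2]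
    calc x ^ 9 * (|wx| * (|φ| * |φ|) / r) ≤ x ^ 9 * ((K * (x * w / r)) * (|φ| * (C0 * x)) / r) := by
          gcongr
      _ = T * |φ| * (K * (x * (C0 * x) / r)) := by rw [hT]; ring
      _ ≤ T * |φ| * (K * C0) := by gcongr
  have b3 : |x ^ 9 * (w * (2 * φ * f) / r)| ≤ T * |φ| * (2 * C0) := by
    rw [abs_mul, abs_div, abs_mul, abs_mul, abs_mul, abs_of_nonneg (pow_nonneg hx 9),
      abs_of_pos hr, abs_of_nonneg hw, abs_of_pos (by norm_num : (0:ℝ) < 2)]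
    calc x ^ 9 * (w * (2 * |φ| * |f|) / r) ≤ x ^ 9 * (w * (2 * |φ| * C0) / r) := by gcongr
      _ = T * |φ| * (2 * C0) := by rw [hT]; ring
  have b4 : |x ^ 9 * (w * φ ^ 2 * (2 * x) / r ^ 2)| ≤ T * |φ| * (2 * C0) := by
    rw [abs_of_nonneg (by positivity), hφ2]
    calc x ^ 9 * (w * (|φ| * |φ|) * (2 * x) / r ^ 2)
        ≤ x ^ 9 * (w * (|φ| * (C0 * x)) * (2 * x) / r ^ 2) := by gcongr
      _ = T * |φ| * (2 * (x * (C0 * x) / r)) := by rw [hT]; field_simp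
      _ ≤ T * |φ| * (2 * C0) := by gcongr
  have bP : |P1| ≤ T * |φ| * (C0 * (13 + K)) := by
    have e : P1 = 9 * x ^ 8 * (w * φ ^ 2 / r) + (x ^ 9 * (wx * φ ^ 2 / r)
        + x ^ 9 * (w * (2 * φ * f) / r) - x ^ 9 * (w * φ ^ 2 * (2 * x) / r ^ 2)) := by
      rw [hP1]; ring
    rw [e]
    calc _ ≤ |9 * x ^ 8 * (w * φ ^ 2 / r)| + (|x ^ 9 * (wx * φ ^ 2 / r)|
        + |x ^ 9 * (w * (2 * φ * f) / r)| + |x ^ 9 * (w * φ ^ 2 * (2 * x) / r ^ 2)|) := by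
          refine (abs_add_le _ _).trans ?_
          gcongr
          refine (abs_sub _ _).trans ?_
          gcongr
          exact abs_add_le _ _
      _ ≤ _ := by nlinarith [b1, b2, b3, b4]
  -- Young
  have y1 : |P1 * (v * p)| ≤ T * (1 / 4 * (φ * p) ^ 2 + (C0 * (13 + K)) ^ 2 * v ^ 2) := by
    rw [abs_mul]
    have h1 : |P1| * |v * p| ≤ T * |φ| * (C0 * (13 + K)) * |v * p| :=
      mul_le_mul_of_nonneg_right bP (abs_nonneg _)
    have h2 : T * |φ| * (C0 * (13 + K)) * |v * p| = T * (|φ * p| * (C0 * (13 + K) * |v|)) := by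
      rw [abs_mul, abs_mul]; ring
    have h3 : |φ * p| * (C0 * (13 + K) * |v|) ≤ 1 / 4 * (φ * p) ^ 2
        + (C0 * (13 + K)) ^ 2 * v ^ 2 := by
      have := young (a := |φ * p|) (b := C0 * (13 + K) * |v|) (by norm_num : (0:ℝ) < 1 / 2)
      rw [mul_pow, sq_abs, sq_abs] at this
      linarith
    calc |P1| * |v * p| ≤ T * (|φ * p| * (C0 * (13 + K) * |v|)) := by rw [← h2]; exact h1
      _ ≤ _ := mul_le_mul_of_nonneg_left h3 hT0
  have y2 : |x ^ 9 * (w * φ ^ 2 / r) * (v * q)| ≤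
      η / 2 * (x ^ 9 * w * (φ * q) ^ 2) + C0 ^ 2 / (2 * η) * (x ^ 9 * w * v ^ 2 / r) := by
    have e1 : |x ^ 9 * (w * φ ^ 2 / r) * (v * q)|
        = x ^ 9 * w * (|φ * q| * (|φ| * |v| / r)) := by
      rw [abs_mul, abs_of_nonneg (by positivity : 0 ≤ x ^ 9 * (w * φ ^ 2 / r)), hφ2, abs_mul,
        abs_mul]
      ring
    rw [e1]
    have h3 := young (a := |φ * q|) (b := |φ| * |v| / r) hη
    rw [sq_abs, div_pow, mul_pow |φ| |v|, sq_abs, sq_abs] at h3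
    have h4 : φ ^ 2 * v ^ 2 / r ^ 2 ≤ C0 ^ 2 * (v ^ 2 / r) := by
      have h5 : φ ^ 2 ≤ C0 ^ 2 * x ^ 2 := by
        rw [← mul_pow, ← sq_abs φ]
        exact pow_le_pow_left₀ (abs_nonneg _) hφ 2
      have h6 : φ ^ 2 ≤ C0 ^ 2 * r := h5.trans (by gcongr)
      calc φ ^ 2 * v ^ 2 / r ^ 2 ≤ (C0 ^ 2 * r) * v ^ 2 / r ^ 2 := by gcongr
        _ = C0 ^ 2 * (v ^ 2 / r) := by field_simp
    have h7 : |φ * q| * (|φ| * |v| / r) ≤ η / 2 * (φ * q) ^ 2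
        + 1 / (2 * η) * (C0 ^ 2 * (v ^ 2 / r)) :=
      h3.trans (by gcongr)
    calc x ^ 9 * w * (|φ * q| * (|φ| * |v| / r))
        ≤ x ^ 9 * w * (η / 2 * (φ * q) ^ 2 + 1 / (2 * η) * (C0 ^ 2 * (v ^ 2 / r))) :=
          mul_le_mul_of_nonneg_left h7 (by positivity)
      _ = _ := by ring
  have hA : x ^ 9 * w * (φ * p) ^ 2 / r = T * (φ * p) ^ 2 := by rw [hT]; ring
  have hB : x ^ 9 * w * v ^ 2 / r = T * v ^ 2 := by rw [hT]; ring
  have hC : x ^ 9 * (w * φ ^ 2 / r) * (p * p + v * q)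
      = T * (φ * p) ^ 2 + x ^ 9 * (w * φ ^ 2 / r) * (v * q) := by rw [hT]; ring
  rw [hC, hA, hB]
  rw [hB] at y2
  have z1 := neg_abs_le (P1 * (v * p))
  have z2 := neg_abs_le (x ^ 9 * (w * φ ^ 2 / r) * (v * q))
  have e2 : T * (1 / 4 * (φ * p) ^ 2 + (C0 * (13 + K)) ^ 2 * v ^ 2)
     = 1 / 4 * (T * (φ * p) ^ 2) + C0 ^ 2 * (13 + K) ^ 2 * (T * v ^ 2) := by ring
  rw [e2] at y1
  have e3 : 4 / 3 * (C0 ^ 2 * (13 + K) ^ 2 + C0 ^ 2 / (2 * η)) * (T * v ^ 2)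
    = 4 / 3 * (C0 ^ 2 * (13 + K) ^ 2 * (T * v ^ 2)) + 4 / 3 * (C0 ^ 2 / (2 * η) * (T * v ^ 2)) := by
    ring
  rw [e3]
  linarith

/-! ### `II` on test integrands -/

variable {L : ℝ} {u v F : ℝ → ℝ → ℝ}

theorem tst_integrable (h : Tst L F) :
    IntegrableOn (fun p : ℝ × ℝ => F p.1 p.2) (I01 ×ˢ Ioo (0 : ℝ) L) :=
  integrable_of_sm h.1 h.2

theorem tst_mul_left (hu : Sm I01 L u) (hv : Tst L v) : Tst L (fun t x => u t x * v t x) :=
  ⟨sm_mul hu hv.1, TSupp.mul_left hv.2 u⟩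

theorem tst_mul_right (hu : Tst L u) (hv : Sm I01 L v) : Tst L (fun t x => u t x * v t x) :=
  ⟨sm_mul hu.1 hv, TSupp.mul_right hu.2 v⟩

theorem tst_add (hu : Tst L u) (hv : Tst L v) : Tst L (fun t x => u t x + v t x) :=
  ⟨sm_add hu.1 hv.1, TSupp.add hu.2 hv.2⟩

theorem tst_sub (hu : Tst L u) (hv : Tst L v) : Tst L (fun t x => u t x - v t x) :=
  ⟨sm_sub hu.1 hv.1, TSupp.sub hu.2 hv.2⟩

theorem tst_pow (hu : Tst L u) {n : ℕ} (hn : n ≠ 0) : Tst L (fun t x => u t x ^ n) :=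
  ⟨sm_pow hu.1 n, TSupp.pow hu.2 hn⟩

theorem tst_const_mul (c : ℝ) (hu : Tst L u) : Tst L (fun t x => c * u t x) :=
  tst_mul_left (sm_const c) hu

theorem tst_dx (hL : 0 < L) (hu : Tst L u) : Tst L (dx L u) := ⟨sm_dx hL hu.1, TSupp.dx hu.2 L⟩

theorem tst_dt (hL : 0 < L) (hu : Tst L u) : Tst L (dt u) := ⟨sm_dt hL hu.1, TSupp.dt hu.2⟩

theorem tst_congr (hu : Tst L u) (h : ∀ t x, v t x = u t x) : Tst L v := by
  have : v = u := funext fun t => funext fun x => h t x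
  rw [this]; exact hu

theorem II_add (hu : Tst L u) (hv : Tst L v) :
    II L (fun t x => u t x + v t x) = II L u + II L v :=
  integral_add (tst_integrable hu) (tst_integrable hv)

theorem II_sub (hu : Tst L u) (hv : Tst L v) :
    II L (fun t x => u t x - v t x) = II L u - II L v :=
  integral_sub (tst_integrable hu) (tst_integrable hv)

theorem II_const_mul (c : ℝ) : II L (fun t x => c * u t x) = c * II L u :=
  integral_const_mul c _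

theorem meas_dom : MeasurableSet (I01 ×ˢ Ioo (0 : ℝ) L) := measurableSet_Ioo.prod measurableSet_Ioo

theorem II_congr (h : ∀ t ∈ I01, ∀ x ∈ Ioo 0 L, u t x = v t x) : II L u = II L v :=
  setIntegral_congr_fun meas_dom (fun p hp => h p.1 hp.1 p.2 hp.2)

theorem II_mono (hu : Tst L u) (hv : Tst L v)
    (h : ∀ t ∈ I01, ∀ x ∈ Ioo 0 L, u t x ≤ v t x) : II L u ≤ II L v :=
  setIntegral_mono_on (tst_integrable hu) (tst_integrable hv) meas_dom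
    (fun p hp => h p.1 hp.1 p.2 hp.2)

theorem II_nonneg (h : ∀ t ∈ I01, ∀ x ∈ Ioo 0 L, 0 ≤ u t x) : 0 ≤ II L u :=
  setIntegral_nonneg meas_dom (fun p hp => h p.1 hp.1 p.2 hp.2)

theorem tst_zero_of {a : ℝ → ℝ → ℝ} (h : Tst L a) (b : ℝ → ℝ → ℝ) :
    TSupp (fun t x => a t x * b t x) := TSupp.mul_right h.2 b

/-- bounds on the background used by part A -/
structure PhiB (C0 L : ℝ) (φ : ℝ → ℝ → ℝ) : Prop where
  C0_nonneg : 0 ≤ C0
  L_pos : 0 < L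
  sm : Sm I01 L φ
  bd : ∀ τ ∈ I01, ∀ x ∈ Icc 0 L, |φ τ x| ≤ C0 * x
  atL : ∀ τ ∈ I01, φ τ L = 0
  dbd : ∀ τ ∈ I01, ∀ x ∈ Icc 0 L, |dx L φ τ x| ≤ C0

theorem PhiB.of_Bg {c0 C0 : ℝ} {g : ℝ → ℝ} {φ m : ℝ → ℝ → ℝ} (h : Bg c0 C0 g L φ m)
    (hc0 : 0 ≤ c0) : PhiB C0 L φ := by
  have hL : 0 < L := by linarith [h.L_ge]
  have hhalf : (1 / 2 : ℝ) ∈ Ioo (0 : ℝ) 1 := by constructor <;> norm_num
  have h0 : (0 : ℝ) ∈ Icc 0 L := ⟨le_rfl, hL.le⟩
  have hC0 : 0 ≤ C0 := (abs_nonneg _).trans (h.dphi _ hhalf 0 h0)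
  refine ⟨hC0, hL, ?_, ?_, ?_, h.dphi⟩
  · have : Sm I01 L (fun τ x => x * (1 - x / L) * m τ x) :=
      sm_mul (sm_of_x (f := fun x => x * (1 - x / L)) (by fun_prop)) h.sm
    exact sm_congr this (fun t ht x hx => h.phi_eq t ht x hx)
  · intro τ hτ x hx
    rw [h.phi_eq τ hτ x hx]
    have h1 : 0 ≤ 1 - x / L := by
      rw [sub_nonneg, div_le_one hL]; exact hx.2
    have h2 : 1 - x / L ≤ 1 := by
      have := div_nonneg hx.1 hL.le; linarith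
    have h3 : 0 ≤ m τ x := hc0.trans (h.lower τ hτ x hx)
    have h4 := h.upper τ hτ x hx
    rw [abs_of_nonneg (mul_nonneg (mul_nonneg hx.1 h1) h3)]
    calc x * (1 - x / L) * m τ x ≤ x * 1 * C0 := by
          gcongr
          exact mul_nonneg hx.1 (by norm_num)
          exact hx.1
      _ = C0 * x := by ring
  · intro τ hτ
    rw [h.phi_eq τ hτ L ⟨hL.le, le_rfl⟩, div_self hL.ne']; ring

theorem r_pos {t x : ℝ} (ht : t ∈ I01) : 0 < x ^ 2 + t := by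
  have := ht.1; positivity

theorem sm_r : Sm I01 L (fun t x => x ^ 2 + t) := sm_add (sm_pow sm_snd 2) sm_fst

/-- the derivative of the null Lagrangian -/
theorem dN_eq {C0 : ℝ} {φ ω v : ℝ → ℝ → ℝ} (hφ : PhiB C0 L φ) (hω : Sm I01 L ω) (hv : Sm I01 L v)
    {t x : ℝ} (ht : t ∈ I01) (hx : x ∈ Icc 0 L) :
    dx L (fun t x => x ^ 9 * (ω t x * φ t x ^ 2 / (x ^ 2 + t)) * (v t x * dx L v t x)) t x =
    (9 * x ^ 8 * (ω t x * φ t x ^ 2 / (x ^ 2 + t)) + x ^ 9 * ((dx L ω t x * φ t x ^ 2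
      + ω t x * (2 * φ t x * dx L φ t x)) / (x ^ 2 + t)
        - ω t x * φ t x ^ 2 * (2 * x) / (x ^ 2 + t) ^ 2)) * (v t x * dx L v t x)
      + x ^ 9 * (ω t x * φ t x ^ 2 / (x ^ 2 + t)) *
        (dx L v t x * dx L v t x + v t x * dx L (dx L v) t x) := by
  have hL := hφ.L_pos
  have hr : x ^ 2 + t ≠ 0 := (r_pos ht).ne'
  apply dx_val hL hx
  have e1 := sm_hasDx hL hω ht hx
  have e2 := sm_hasDx hL hφ.sm ht hx
  have e3 := sm_hasDx hL hv ht hx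
  have e4 := sm_hasDx hL (sm_dx hL hv) ht hx
  have e5 : HasDerivWithinAt (fun y : ℝ => y ^ 2 + t) (2 * x) (Icc 0 L) x := by
    simpa using ((hasDerivAt_pow 2 x).add_const t).hasDerivWithinAt
  have e6 : HasDerivWithinAt (fun y : ℝ => y ^ 9) (9 * x ^ 8) (Icc 0 L) x := by
    simpa using (hasDerivAt_pow 9 x).hasDerivWithinAt
  have := (e6.mul ((e1.mul (e2.pow 2)).div e5 hr)).mul (e3.mul e4)
  refine this.congr_deriv ?_
  simp only [Pi.mul_apply, Pi.pow_apply, Pi.div_apply]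
  field_simp
  ring

/-- **weighted interpolation (A1)** -/
theorem interp_w {C0 K η : ℝ} {φ ω v : ℝ → ℝ → ℝ} (hφ : PhiB C0 L φ) (hK : 0 ≤ K) (hη : 0 < η)
    (hω : Sm I01 L ω) (hω0 : ∀ t ∈ I01, ∀ x ∈ Icc 0 L, 0 ≤ ω t x)
    (hωx : ∀ t ∈ I01, ∀ x ∈ Icc 0 L, |dx L ω t x| ≤ K * (x * ω t x / (x ^ 2 + t)))
    (hv : Sm I01 L v) (hT : TSupp ω ∨ TSupp v) :
    II L (fun t x => x ^ 9 * ω t x * (φ t x * dx L v t x) ^ 2 / (x ^ 2 + t)) ≤
      2 / 3 * η * II L (fun t x => x ^ 9 * ω t x * (φ t x * dx L (dx L v) t x) ^ 2)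
      + 4 / 3 * (C0 ^ 2 * (13 + K) ^ 2 + C0 ^ 2 / (2 * η)) *
        II L (fun t x => x ^ 9 * ω t x * v t x ^ 2 / (x ^ 2 + t)) := by
  have hL := hφ.L_pos
  have hrr : ∀ t ∈ I01, ∀ x ∈ Icc 0 L, x ^ 2 + t ≠ 0 := fun t ht x _ => (r_pos ht).ne'
  have h9 : Sm I01 L (fun _ x => x ^ 9) := sm_pow sm_snd 9
  have hv1 := sm_dx hL hv
  have hv2 := sm_dx hL hv1
  -- test property of all the integrands
  have key : ∀ {b : ℝ → ℝ → ℝ}, Sm I01 L b → (TSupp v → TSupp b) →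
      Tst L (fun t x => ω t x * b t x) := by
    intro b hb hab
    refine ⟨sm_mul hω hb, ?_⟩
    rcases hT with h | h
    · exact TSupp.mul_right h b
    · exact TSupp.mul_left (hab h) ω
  have t1 : Tst L (fun t x => x ^ 9 * ω t x * (φ t x * dx L v t x) ^ 2 / (x ^ 2 + t)) := by
    refine tst_congr (key (b := fun t x => (φ t x * dx L v t x) ^ 2 * (x ^ 9 / (x ^ 2 + t)))
      (sm_mul (sm_pow (sm_mul hφ.sm hv1) 2) (sm_div h9 sm_r hrr)) ?_) (fun t x => by ring)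
    intro h
    exact TSupp.mul_right (TSupp.pow (TSupp.mul_left (TSupp.dx h L) φ) two_ne_zero) _
  have t2 : Tst L (fun t x => x ^ 9 * ω t x * (φ t x * dx L (dx L v) t x) ^ 2) := by
    refine tst_congr (key (b := fun t x => (φ t x * dx L (dx L v) t x) ^ 2 * x ^ 9)
      (sm_mul (sm_pow (sm_mul hφ.sm hv2) 2) h9) ?_) (fun t x => by ring)
    intro h
    exact TSupp.mul_right (TSupp.pow (TSupp.mul_left (TSupp.dx (TSupp.dx h L) L) φ) two_ne_zero) _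
  have t3 : Tst L (fun t x => x ^ 9 * ω t x * v t x ^ 2 / (x ^ 2 + t)) := by
    refine tst_congr (key (b := fun t x => (v t x) ^ 2 * (x ^ 9 / (x ^ 2 + t)))
      (sm_mul (sm_pow hv 2) (sm_div h9 sm_r hrr)) ?_) (fun t x => by ring)
    intro h
    exact TSupp.mul_right (TSupp.pow h two_ne_zero) _
  have tN : Tst L (fun t x => x ^ 9 * (ω t x * φ t x ^ 2 / (x ^ 2 + t)) * (v t x * dx L v t x)) := by
    refine tst_congr (key (b := fun t x => (v t x * dx L v t x) * (φ t x ^ 2 * (x ^ 9 / (x ^ 2 + t))))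
      (sm_mul (sm_mul hv hv1) (sm_mul (sm_pow hφ.sm 2) (sm_div h9 sm_r hrr))) ?_)
      (fun t x => by ring)
    intro h
    exact TSupp.mul_right (TSupp.mul_right h _) _
  have hN0 : II L (dx L (fun t x => x ^ 9 * (ω t x * φ t x ^ 2 / (x ^ 2 + t))
      * (v t x * dx L v t x))) = 0 := by
    apply II_dx_zero hL tN.1 tN.2
    · intro τ _; simp
    · intro τ hτ; simp [hφ.atL τ hτ]
  have hle := II_mono t1 (tst_add (tst_add (tst_const_mul (4 / 3) (tst_dx hL tN))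
      (tst_const_mul (2 / 3 * η) t2))
      (tst_const_mul (4 / 3 * (C0 ^ 2 * (13 + K) ^ 2 + C0 ^ 2 / (2 * η))) t3))
    (fun t ht x hx => by
      have hx' : x ∈ Icc 0 L := Ioo_subset_Icc_self hx
      rw [dN_eq hφ hω hv ht hx']
      exact interp_pt hx'.1 (r_pos ht) (by have := ht.1; linarith) (hω0 t ht x hx') hφ.C0_nonneg hK hη
        (hφ.bd t ht x hx') (hφ.dbd t ht x hx') (hωx t ht x hx'))
  rw [II_add (tst_add (tst_const_mul (4 / 3) (tst_dx hL tN)) (tst_const_mul (2 / 3 * η) t2))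
      (tst_const_mul _ t3), II_add (tst_const_mul (4 / 3) (tst_dx hL tN)) (tst_const_mul _ t2),
      II_const_mul, II_const_mul, II_const_mul, hN0] at hle
  linarith

end Crest.Agent.R213.A
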