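import Crest.Agent.R213.A.ADefs
import Crest.Agent.R213.A.Interp

/-!
# Row 213, part A: Gårding inequality on the full domain (`garding_full`)
-/

set_option autoImplicit false

open Set MeasureTheory Filter Topology

noncomputable section

namespace Crest.Agent.R213.A

variable {L κ : ℝ} {ψ φ : ℝ → ℝ → ℝ}

/-- `μ = 1/W` -/
def Mw (κ : ℝ) : ℝ → ℝ → ℝ := fun τ x => (x ^ 2 + τ) ^ 60 / τ ^ (2 * κ)

theorem Mw_pos {t x : ℝ} (ht : t ∈ I01) : 0 < Mw κ t x := by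
  unfold Mw
  have := r_pos (x := x) ht
  have h2 := Real.rpow_pos_of_pos ht.1 (2 * κ)
  positivity

theorem Wt_eq {t x : ℝ} : Wt κ t x = (Mw κ t x)⁻¹ := by
  unfold Wt Mw; rw [inv_div]

theorem sm_Mw : Sm I01 L (Mw κ) :=
  sm_div (sm_pow sm_r 60) (sm_rpow sm_fst (2 * κ) (fun t ht _ _ => ht.1.ne'))
    (fun t ht _ _ => (Real.rpow_pos_of_pos ht.1 (2 * κ)).ne')

theorem hasDeriv_Mw_x {t x : ℝ} (ht : t ∈ I01) :
    HasDerivAt (fun y => Mw κ t y) (120 * x / (x ^ 2 + t) * Mw κ t x) x := by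
  have h1 : HasDerivAt (fun y : ℝ => (y ^ 2 + t) ^ 60 / t ^ (2 * κ))
      ((60 * (x ^ 2 + t) ^ 59 * (2 * x)) / t ^ (2 * κ)) x := by
    have h2 : HasDerivAt (fun y : ℝ => y ^ 2 + t) (2 * x) x := by
      simpa using (hasDerivAt_pow 2 x).add_const t
    simpa using (h2.pow 60).div_const (t ^ (2 * κ))
  refine h1.congr_deriv ?_
  have hr := (r_pos (x := x) ht).ne'
  have h3 := (Real.rpow_pos_of_pos ht.1 (2 * κ)).ne'
  unfold Mw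
  field_simp
  ring

theorem hasDeriv_Mw_t {t x : ℝ} (ht : t ∈ I01) :
    HasDerivAt (fun r => Mw κ r x) ((60 / (x ^ 2 + t) - 2 * κ / t) * Mw κ t x) t := by
  have h2 : HasDerivAt (fun r : ℝ => x ^ 2 + r) 1 t := by
    simpa using (hasDerivAt_id t).const_add (x ^ 2)
  have h3 : HasDerivAt (fun r : ℝ => r ^ (2 * κ)) (2 * κ * t ^ (2 * κ - 1)) t := by
    simpa using (Real.hasDerivAt_rpow_const (p := 2 * κ) (Or.inl ht.1.ne'))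
  have h4 := (h2.pow 60).div h3 (Real.rpow_pos_of_pos ht.1 (2 * κ)).ne'
  refine h4.congr_deriv ?_
  have hr := (r_pos (x := x) ht).ne'
  have h5 := (Real.rpow_pos_of_pos ht.1 (2 * κ)).ne'
  have ht0 := ht.1.ne'
  rw [Real.rpow_sub_one ht0]
  simp only [Pi.pow_apply]
  unfold Mw
  field_simp
  ring

theorem dx_Mw (hL : 0 < L) {t x : ℝ} (ht : t ∈ I01) (hx : x ∈ Icc 0 L) :
    dx L (Mw κ) t x = 120 * x / (x ^ 2 + t) * Mw κ t x :=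
  dx_val hL hx (hasDeriv_Mw_x ht).hasDerivWithinAt

/-- `ψ/W = μ ψ` as functions -/
theorem div_Wt_eq (hψ : Tst L ψ) :
    (fun τ x => ψ τ x / Wt κ τ x) = fun τ x => Mw κ τ x * ψ τ x := by
  funext τ x
  rw [Wt_eq, div_inv_eq_mul, mul_comm]

theorem tst_mu (hψ : Tst L ψ) : Tst L (fun τ x => Mw κ τ x * ψ τ x) :=
  tst_mul_left sm_Mw hψ

theorem dx_mu (hL : 0 < L) (hψ : Tst L ψ) {t x : ℝ} (ht : t ∈ I01) (hx : x ∈ Icc 0 L) :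
    dx L (fun τ x => Mw κ τ x * ψ τ x) t x =
      Mw κ t x * (120 * x / (x ^ 2 + t) * ψ t x + dx L ψ t x) := by
  apply dx_val hL hx
  have := (hasDeriv_Mw_x (κ := κ) (x := x) ht).hasDerivWithinAt.mul (sm_hasDx hL hψ.1 ht hx)
  refine this.congr_deriv ?_
  ring

theorem dxx_mu (hL : 0 < L) (hψ : Tst L ψ) {t x : ℝ} (ht : t ∈ I01) (hx : x ∈ Icc 0 L) :
    dx L (dx L (fun τ x => Mw κ τ x * ψ τ x)) t x =
      Mw κ t x * (dx L (dx L ψ) t x + 240 * x / (x ^ 2 + t) * dx L ψ t x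
        + (120 / (x ^ 2 + t) + 14160 * x ^ 2 / (x ^ 2 + t) ^ 2) * ψ t x) := by
  apply dx_val hL hx
  have hr := (r_pos (x := x) ht).ne'
  have e2 : HasDerivAt (fun y : ℝ => y ^ 2 + t) (2 * x) x := by
    simpa using (hasDerivAt_pow 2 x).add_const t
  have e3 : HasDerivAt (fun y : ℝ => 120 * y) 120 x := by
    simpa using (hasDerivAt_id x).const_mul 120
  have e1 := ((e3.div e2 hr).hasDerivWithinAt (s := Icc 0 L)).mul (sm_hasDx hL hψ.1 ht hx)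
  have := (hasDeriv_Mw_x (κ := κ) (x := x) ht).hasDerivWithinAt.mul
    (e1.add (sm_hasDx hL (sm_dx hL hψ.1) ht hx))
  have h7 := (this.congr (fun y hy => dx_mu (κ := κ) hL hψ ht hy) (dx_mu (κ := κ) hL hψ ht hx))
  refine h7.congr_deriv ?_
  simp only [Pi.mul_apply, Pi.add_apply, Pi.div_apply]
  field_simp
  ring

/-! ### pointwise inequalities -/

theorem m2_bd {x r : ℝ} (hr : 0 < r) (hxr : x ^ 2 ≤ r) :
    0 ≤ 120 / r + 14160 * x ^ 2 / r ^ 2 ∧ 120 / r + 14160 * x ^ 2 / r ^ 2 ≤ 14280 / r := by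
  constructor
  · positivity
  · have h : 14160 * x ^ 2 / r ^ 2 ≤ 14160 / r := by
      rw [div_le_div_iff₀ (by positivity) hr]
      nlinarith
    calc 120 / r + 14160 * x ^ 2 / r ^ 2 ≤ 120 / r + 14160 / r := by linarith
      _ = 14280 / r := by ring

theorem m2phi_bd {x r φ s C0 : ℝ} (hr : 0 < r) (hxr : x ^ 2 ≤ r)
    (hφ : φ ^ 2 ≤ C0 ^ 2 * x ^ 2) :
    ((120 / r + 14160 * x ^ 2 / r ^ 2) * (φ * s)) ^ 2 ≤ 14280 ^ 2 * C0 ^ 2 * (s ^ 2 / r) := by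
  obtain ⟨h1, h2⟩ := m2_bd hr hxr
  have h3 : (120 / r + 14160 * x ^ 2 / r ^ 2) ^ 2 ≤ (14280 / r) ^ 2 := pow_le_pow_left₀ h1 h2 2
  have h4 : φ ^ 2 ≤ C0 ^ 2 * r := hφ.trans (by gcongr)
  calc ((120 / r + 14160 * x ^ 2 / r ^ 2) * (φ * s)) ^ 2
      = (120 / r + 14160 * x ^ 2 / r ^ 2) ^ 2 * (φ ^ 2 * s ^ 2) := by ring
    _ ≤ (14280 / r) ^ 2 * ((C0 ^ 2 * r) * s ^ 2) := by gcongr
    _ = 14280 ^ 2 * C0 ^ 2 * (s ^ 2 / r) := by field_simp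

theorem xr_bd {x r b : ℝ} (hr : 0 < r) (hxr : x ^ 2 ≤ r) :
    (240 * x / r * b) ^ 2 ≤ 57600 * (b ^ 2 / r) := by
  have h : (240 * x / r * b) ^ 2 = 57600 * (x ^ 2 * b ^ 2 / r ^ 2) := by field_simp; ring
  rw [h]
  have : x ^ 2 * b ^ 2 / r ^ 2 ≤ b ^ 2 / r := by
    rw [div_le_div_iff₀ (by positivity) hr]
    have : x ^ 2 * b ^ 2 ≤ r * b ^ 2 := by gcongr
    nlinarith
  linarith

theorem nX_pt {x r M φ q p s τ C0 : ℝ} (hx : 0 ≤ x) (hr : 0 < r) (hxr : x ^ 2 ≤ r) (hM : 0 < M)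
    (hτ : 0 < τ) (hφ : φ ^ 2 ≤ C0 ^ 2 * x ^ 2) :
    x ^ 9 * (M⁻¹ * (φ * (M * (q + 240 * x / r * p + (120 / r + 14160 * x ^ 2 / r ^ 2) * s))) ^ 2
      + M⁻¹ / τ * (M * s) ^ 2) ≤
    3 * (x ^ 9 * M * (φ * q) ^ 2) + 172800 * (x ^ 9 * M * (φ * p) ^ 2 / r)
      + 3 * 14280 ^ 2 * C0 ^ 2 * (x ^ 9 * M * s ^ 2 / r) + x ^ 9 * M * s ^ 2 / τ := by
  have e1 : x ^ 9 * (M⁻¹ * (φ * (M * (q + 240 * x / r * p
      + (120 / r + 14160 * x ^ 2 / r ^ 2) * s))) ^ 2 + M⁻¹ / τ * (M * s) ^ 2)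
      = x ^ 9 * M * (φ * q + 240 * x / r * (φ * p) +
        (120 / r + 14160 * x ^ 2 / r ^ 2) * (φ * s)) ^ 2 + x ^ 9 * M * s ^ 2 / τ := by
    field_simp
  rw [e1]
  have h1 := m2phi_bd (s := s) hr hxr hφ
  have h2 := xr_bd (b := φ * p) hr hxr
  set A := φ * q
  set B := 240 * x / r * (φ * p)
  set D := (120 / r + 14160 * x ^ 2 / r ^ 2) * (φ * s)
  have h3 : (A + B + D) ^ 2 ≤ 3 * A ^ 2 + 3 * B ^ 2 + 3 * D ^ 2 := by
    nlinarith [sq_nonneg (A - B), sq_nonneg (A - D), sq_nonneg (B - D)]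
  have h4 : (A + B + D) ^ 2 ≤ 3 * A ^ 2 + 172800 * ((φ * p) ^ 2 / r)
      + 3 * 14280 ^ 2 * C0 ^ 2 * (s ^ 2 / r) := by linarith
  have h5 := mul_le_mul_of_nonneg_left h4 (by positivity : 0 ≤ x ^ 9 * M)
  have e2 : x ^ 9 * M * (3 * A ^ 2 + 172800 * ((φ * p) ^ 2 / r)
      + 3 * 14280 ^ 2 * C0 ^ 2 * (s ^ 2 / r)) = 3 * (x ^ 9 * M * A ^ 2)
      + 172800 * (x ^ 9 * M * (φ * p) ^ 2 / r)
      + 3 * 14280 ^ 2 * C0 ^ 2 * (x ^ 9 * M * s ^ 2 / r) := by ring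
  linarith

theorem BB_pt {x r M φ q p s st τ κ C0 : ℝ} (hx : 0 ≤ x) (hr : 0 < r) (hxr : x ^ 2 ≤ r)
    (hM : 0 < M) (hφ : φ ^ 2 ≤ C0 ^ 2 * x ^ 2) :
    3 / 4 * (x ^ 9 * M * (φ * q) ^ 2) - 115200 * (x ^ 9 * M * (φ * p) ^ 2 / r)
      + κ * (x ^ 9 * M * s ^ 2 / τ)
      - (30 + 2 * 14280 ^ 2 * C0 ^ 2) * (x ^ 9 * M * s ^ 2 / r)
      + 1 / 2 * (x ^ 9 * (((60 / r - 2 * κ / τ) * M) * s ^ 2 + M * (2 * s * st))) ≤
    x ^ 9 * (st * (M * s) + φ ^ 2 * q * (M * (q + 240 * x / r * p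
      + (120 / r + 14160 * x ^ 2 / r ^ 2) * s))) := by
  have h1 := m2phi_bd (s := s) hr hxr hφ
  have h2 := xr_bd (b := φ * p) hr hxr
  have e1 : x ^ 9 * (st * (M * s) + φ ^ 2 * q * (M * (q + 240 * x / r * p
      + (120 / r + 14160 * x ^ 2 / r ^ 2) * s))) = x ^ 9 * M * (st * s) + x ^ 9 * M *
      ((φ * q) ^ 2 + (φ * q) * (240 * x / r * (φ * p))
        + (φ * q) * ((120 / r + 14160 * x ^ 2 / r ^ 2) * (φ * s))) := by ring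
  rw [e1]
  set A := φ * q
  set B := 240 * x / r * (φ * p)
  set D := (120 / r + 14160 * x ^ 2 / r ^ 2) * (φ * s)
  have h3 : 3 / 4 * A ^ 2 - 2 * B ^ 2 - 2 * D ^ 2 ≤ A ^ 2 + A * B + A * D := by
    nlinarith [sq_nonneg (A / 2 + 2 * B), sq_nonneg (A / 2 + 2 * D)]
  have h4 : 3 / 4 * A ^ 2 - 115200 * ((φ * p) ^ 2 / r) - 2 * 14280 ^ 2 * C0 ^ 2 * (s ^ 2 / r) ≤
      A ^ 2 + A * B + A * D := by linarith
  have h5 := mul_le_mul_of_nonneg_left h4 (by positivity : 0 ≤ x ^ 9 * M)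
  have e2 : 3 / 4 * (x ^ 9 * M * A ^ 2) - 115200 * (x ^ 9 * M * (φ * p) ^ 2 / r)
      + κ * (x ^ 9 * M * s ^ 2 / τ)
      - (30 + 2 * 14280 ^ 2 * C0 ^ 2) * (x ^ 9 * M * s ^ 2 / r)
      + 1 / 2 * (x ^ 9 * (((60 / r - 2 * κ / τ) * M) * s ^ 2 + M * (2 * s * st)))
      = x ^ 9 * M * (st * s) + x ^ 9 * M *
      (3 / 4 * A ^ 2 - 115200 * ((φ * p) ^ 2 / r) - 2 * 14280 ^ 2 * C0 ^ 2 * (s ^ 2 / r)) := by
    ring
  rw [e2]
  linarith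

/-! ### integrated inequalities -/

section integrated

variable {C0 : ℝ}

/-- the four integrals -/
def J2 (κ L : ℝ) (φ ψ : ℝ → ℝ → ℝ) : ℝ :=
  II L (fun t x => x ^ 9 * Mw κ t x * (φ t x * dx L (dx L ψ) t x) ^ 2)
def J1 (κ L : ℝ) (φ ψ : ℝ → ℝ → ℝ) : ℝ :=
  II L (fun t x => x ^ 9 * Mw κ t x * (φ t x * dx L ψ t x) ^ 2 / (x ^ 2 + t))
def J0 (κ L : ℝ) (ψ : ℝ → ℝ → ℝ) : ℝ :=
  II L (fun t x => x ^ 9 * Mw κ t x * ψ t x ^ 2 / (x ^ 2 + t))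
def Jt (κ L : ℝ) (ψ : ℝ → ℝ → ℝ) : ℝ :=
  II L (fun t x => x ^ 9 * Mw κ t x * ψ t x ^ 2 / t)

theorem tj2 (hφ : PhiB C0 L φ) (hψ : Tst L ψ) :
    Tst L (fun t x => x ^ 9 * Mw κ t x * (φ t x * dx L (dx L ψ) t x) ^ 2) :=
  tst_mul_left (sm_mul (sm_pow sm_snd 9) sm_Mw)
    (tst_pow (tst_mul_left hφ.sm (tst_dx hφ.L_pos (tst_dx hφ.L_pos hψ))) two_ne_zero)

theorem tj1 (hφ : PhiB C0 L φ) (hψ : Tst L ψ) :
    Tst L (fun t x => x ^ 9 * Mw κ t x * (φ t x * dx L ψ t x) ^ 2 / (x ^ 2 + t)) := by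
  have h := tst_mul_left (sm_div (sm_mul (sm_pow sm_snd 9) (sm_Mw (κ := κ))) sm_r
    (fun t ht x _ => (r_pos ht).ne'))
    (tst_pow (tst_mul_left hφ.sm (tst_dx hφ.L_pos hψ)) two_ne_zero)
  exact tst_congr h (fun t x => by ring)

theorem tj0 (hψ : Tst L ψ) :
    Tst L (fun t x => x ^ 9 * Mw κ t x * ψ t x ^ 2 / (x ^ 2 + t)) := by
  have h := tst_mul_left (sm_div (sm_mul (sm_pow sm_snd 9) (sm_Mw (κ := κ))) sm_r
    (fun t ht x _ => (r_pos ht).ne')) (tst_pow hψ two_ne_zero)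
  exact tst_congr h (fun t x => by ring)

theorem tjt (hψ : Tst L ψ) :
    Tst L (fun t x => x ^ 9 * Mw κ t x * ψ t x ^ 2 / t) := by
  have h := tst_mul_left (sm_div (sm_mul (sm_pow sm_snd 9) (sm_Mw (κ := κ))) sm_fst
    (fun t ht x _ => ht.1.ne')) (tst_pow hψ two_ne_zero)
  exact tst_congr h (fun t x => by ring)

theorem x_nonneg {x : ℝ} (hx : x ∈ Ioo 0 L) : 0 ≤ x := hx.1.le

theorem J2_nonneg : 0 ≤ J2 κ L φ ψ := II_nonneg fun t ht x hx => by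
  have := Mw_pos (κ := κ) (x := x) ht; have := hx.1; positivity

theorem J1_nonneg : 0 ≤ J1 κ L φ ψ := II_nonneg fun t ht x hx => by
  have := Mw_pos (κ := κ) (x := x) ht; have := hx.1; have := r_pos (x := x) ht; positivity

theorem J0_nonneg : 0 ≤ J0 κ L ψ := II_nonneg fun t ht x hx => by
  have := Mw_pos (κ := κ) (x := x) ht; have := hx.1; have := r_pos (x := x) ht; positivity

theorem Jt_nonneg : 0 ≤ Jt κ L ψ := II_nonneg fun t ht x hx => by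
  have := Mw_pos (κ := κ) (x := x) ht; have := hx.1; have := ht.1; positivity

theorem J0_le_Jt (hψ : Tst L ψ) : J0 κ L ψ ≤ Jt κ L ψ := by
  refine II_mono (tj0 hψ) (tjt hψ) fun t ht x hx => ?_
  have h1 := Mw_pos (κ := κ) (x := x) ht
  have h2 := hx.1
  have h3 := ht.1
  have h4 : t ≤ x ^ 2 + t := by nlinarith
  gcongr

theorem nYJ_eq (hφ : PhiB C0 L φ) (hψ : Tst L ψ) : nY κ L φ ψ = J2 κ L φ ψ + Jt κ L ψ := by
  unfold nY J2 Jt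
  rw [← II_add (tj2 hφ hψ) (tjt hψ)]
  refine II_congr fun t ht x hx => ?_
  have h1 := (Mw_pos (κ := κ) (x := x) ht).ne'
  have h3 := ht.1.ne'
  rw [Wt_eq]
  field_simp

theorem J1_le (hφ : PhiB C0 L φ) (hψ : Tst L ψ) {η : ℝ} (hη : 0 < η) :
    J1 κ L φ ψ ≤ 2 / 3 * η * J2 κ L φ ψ
      + 4 / 3 * (C0 ^ 2 * (13 + 120) ^ 2 + C0 ^ 2 / (2 * η)) * J0 κ L ψ := by
  refine interp_w (K := 120) hφ (by norm_num) hη sm_Mw (fun t ht x _ => (Mw_pos ht).le) ?_ hψ.1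
    (Or.inr hψ.2)
  intro t ht x hx
  rw [dx_Mw hφ.L_pos ht hx, abs_of_nonneg]
  · have := (r_pos (x := x) ht).ne'
    apply le_of_eq; field_simp
  · have := Mw_pos (κ := κ) (x := x) ht
    have := hx.1
    have := r_pos (x := x) ht
    positivity

theorem phi_sq (hφ : PhiB C0 L φ) {t x : ℝ} (ht : t ∈ I01) (hx : x ∈ Icc 0 L) :
    φ t x ^ 2 ≤ C0 ^ 2 * x ^ 2 := by
  rw [← mul_pow, ← sq_abs (φ t x)]
  exact pow_le_pow_left₀ (abs_nonneg _) (hφ.bd t ht x hx) 2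

theorem nX_mu_le (hφ : PhiB C0 L φ) (hψ : Tst L ψ) :
    nX κ L φ (fun τ x => Mw κ τ x * ψ τ x) ≤ 3 * J2 κ L φ ψ + 172800 * J1 κ L φ ψ
      + 3 * 14280 ^ 2 * C0 ^ 2 * J0 κ L ψ + Jt κ L ψ := by
  have hL := hφ.L_pos
  have hT : Tst L (fun t x => 3 * (x ^ 9 * Mw κ t x * (φ t x * dx L (dx L ψ) t x) ^ 2)
      + 172800 * (x ^ 9 * Mw κ t x * (φ t x * dx L ψ t x) ^ 2 / (x ^ 2 + t))
      + 3 * 14280 ^ 2 * C0 ^ 2 * (x ^ 9 * Mw κ t x * ψ t x ^ 2 / (x ^ 2 + t))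
      + x ^ 9 * Mw κ t x * ψ t x ^ 2 / t) :=
    tst_add (tst_add (tst_add (tst_const_mul _ (tj2 hφ hψ)) (tst_const_mul _ (tj1 hφ hψ)))
      (tst_const_mul _ (tj0 hψ))) (tjt hψ)
  have hR : 3 * J2 κ L φ ψ + 172800 * J1 κ L φ ψ
      + 3 * 14280 ^ 2 * C0 ^ 2 * J0 κ L ψ + Jt κ L ψ =
      II L (fun t x => 3 * (x ^ 9 * Mw κ t x * (φ t x * dx L (dx L ψ) t x) ^ 2)
      + 172800 * (x ^ 9 * Mw κ t x * (φ t x * dx L ψ t x) ^ 2 / (x ^ 2 + t))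
      + 3 * 14280 ^ 2 * C0 ^ 2 * (x ^ 9 * Mw κ t x * ψ t x ^ 2 / (x ^ 2 + t))
      + x ^ 9 * Mw κ t x * ψ t x ^ 2 / t) := by
    rw [II_add (tst_add (tst_add (tst_const_mul _ (tj2 hφ hψ)) (tst_const_mul _ (tj1 hφ hψ)))
      (tst_const_mul _ (tj0 hψ))) (tjt hψ), II_add (tst_add (tst_const_mul _ (tj2 hφ hψ))
      (tst_const_mul _ (tj1 hφ hψ))) (tst_const_mul _ (tj0 hψ)),
      II_add (tst_const_mul _ (tj2 hφ hψ)) (tst_const_mul _ (tj1 hφ hψ)), II_const_mul,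
      II_const_mul, II_const_mul]
    rfl
  rw [hR]
  have hU := tst_mu (κ := κ) hψ
  have hXT : Tst L (fun τ x => x ^ 9 * (Mw κ τ x)⁻¹ * (φ τ x * dx L (dx L
      (fun τ x => Mw κ τ x * ψ τ x)) τ x) ^ 2 + x ^ 9 * (Mw κ τ x)⁻¹ / τ *
        (Mw κ τ x * ψ τ x) ^ 2) := by
    have hMi : Sm I01 L (fun τ x => (Mw κ τ x)⁻¹) :=
      ContDiffOn.inv sm_Mw (fun p hp => (Mw_pos hp.1).ne')
    refine tst_add ?_ ?_
    · exact tst_mul_left (sm_mul (sm_pow sm_snd 9) hMi)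
        (tst_pow (tst_mul_left hφ.sm (tst_dx hL (tst_dx hL hU))) two_ne_zero)
    · exact tst_mul_left (sm_div (sm_mul (sm_pow sm_snd 9) hMi) sm_fst
        (fun t ht _ _ => ht.1.ne')) (tst_pow hU two_ne_zero)
  have e : nX κ L φ (fun τ x => Mw κ τ x * ψ τ x) =
      II L (fun τ x => x ^ 9 * (Mw κ τ x)⁻¹ * (φ τ x * dx L (dx L
      (fun τ x => Mw κ τ x * ψ τ x)) τ x) ^ 2 + x ^ 9 * (Mw κ τ x)⁻¹ / τ *
        (Mw κ τ x * ψ τ x) ^ 2) := by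
    unfold nX
    refine II_congr fun t ht x hx => ?_
    rw [Wt_eq]; ring
  rw [e]
  refine II_mono hXT hT fun t ht x hx => ?_
  have hx' : x ∈ Icc 0 L := Ioo_subset_Icc_self hx
  have h := nX_pt (q := dx L (dx L ψ) t x) (p := dx L ψ t x) (s := ψ t x) (M := Mw κ t x)
    (C0 := C0) hx'.1 (r_pos (x := x) ht) (by have := ht.1; linarith) (Mw_pos ht) ht.1
    (phi_sq hφ ht hx')
  rw [dxx_mu hL hψ ht hx']
  refine le_trans (le_of_eq ?_) h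
  ring

theorem BB_mu_ge (hφ : PhiB C0 L φ) (hψ : Tst L ψ) :
    3 / 4 * J2 κ L φ ψ - 115200 * J1 κ L φ ψ + κ * Jt κ L ψ
      - (30 + 2 * 14280 ^ 2 * C0 ^ 2) * J0 κ L ψ ≤ BB L φ (fun τ x => Mw κ τ x * ψ τ x) ψ := by
  have hL := hφ.L_pos
  have hU := tst_mu (κ := κ) hψ
  have hG : Tst L (fun t x => x ^ 9 * (Mw κ t x * ψ t x ^ 2)) :=
    tst_mul_left (sm_pow sm_snd 9) (tst_mul_left sm_Mw (tst_pow hψ two_ne_zero))
  have hG0 : II L (dt (fun t x => x ^ 9 * (Mw κ t x * ψ t x ^ 2))) = 0 :=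
    II_dt_zero hL hG.1 hG.2
  have hGd : ∀ t ∈ I01, ∀ x ∈ Icc 0 L, dt (fun t x => x ^ 9 * (Mw κ t x * ψ t x ^ 2)) t x =
      x ^ 9 * (((60 / (x ^ 2 + t) - 2 * κ / t) * Mw κ t x) * ψ t x ^ 2
        + Mw κ t x * (2 * ψ t x * dt ψ t x)) := by
    intro t ht x hx
    apply dt_val
    have e1 := hasDeriv_Mw_t (κ := κ) (x := x) ht
    have e2 := sm_hasDt hψ.1 ht hx
    have := (e1.mul (e2.pow 2)).const_mul (x ^ 9)
    refine this.congr_deriv ?_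
    simp only [Pi.pow_apply]
    ring
  have hT : Tst L (fun t x => 3 / 4 * (x ^ 9 * Mw κ t x * (φ t x * dx L (dx L ψ) t x) ^ 2)
      - 115200 * (x ^ 9 * Mw κ t x * (φ t x * dx L ψ t x) ^ 2 / (x ^ 2 + t))
      + κ * (x ^ 9 * Mw κ t x * ψ t x ^ 2 / t)
      - (30 + 2 * 14280 ^ 2 * C0 ^ 2) * (x ^ 9 * Mw κ t x * ψ t x ^ 2 / (x ^ 2 + t))
      + 1 / 2 * dt (fun t x => x ^ 9 * (Mw κ t x * ψ t x ^ 2)) t x) :=
    tst_add (tst_sub (tst_add (tst_sub (tst_const_mul _ (tj2 hφ hψ)) (tst_const_mul _ (tj1 hφ hψ)))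
      (tst_const_mul _ (tjt hψ))) (tst_const_mul _ (tj0 hψ))) (tst_const_mul _ (tst_dt hL hG))
  have hR : 3 / 4 * J2 κ L φ ψ - 115200 * J1 κ L φ ψ + κ * Jt κ L ψ
      - (30 + 2 * 14280 ^ 2 * C0 ^ 2) * J0 κ L ψ =
      II L (fun t x => 3 / 4 * (x ^ 9 * Mw κ t x * (φ t x * dx L (dx L ψ) t x) ^ 2)
      - 115200 * (x ^ 9 * Mw κ t x * (φ t x * dx L ψ t x) ^ 2 / (x ^ 2 + t))
      + κ * (x ^ 9 * Mw κ t x * ψ t x ^ 2 / t)
      - (30 + 2 * 14280 ^ 2 * C0 ^ 2) * (x ^ 9 * Mw κ t x * ψ t x ^ 2 / (x ^ 2 + t))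
      + 1 / 2 * dt (fun t x => x ^ 9 * (Mw κ t x * ψ t x ^ 2)) t x) := by
    rw [II_add (tst_sub (tst_add (tst_sub (tst_const_mul _ (tj2 hφ hψ))
      (tst_const_mul _ (tj1 hφ hψ)))
      (tst_const_mul _ (tjt hψ))) (tst_const_mul _ (tj0 hψ))) (tst_const_mul _ (tst_dt hL hG)),
      II_sub (tst_add (tst_sub (tst_const_mul _ (tj2 hφ hψ)) (tst_const_mul _ (tj1 hφ hψ)))
      (tst_const_mul _ (tjt hψ))) (tst_const_mul _ (tj0 hψ)),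
      II_add (tst_sub (tst_const_mul _ (tj2 hφ hψ)) (tst_const_mul _ (tj1 hφ hψ)))
      (tst_const_mul _ (tjt hψ)), II_sub (tst_const_mul _ (tj2 hφ hψ)) (tst_const_mul _ (tj1 hφ hψ)),
      II_const_mul, II_const_mul, II_const_mul, II_const_mul, II_const_mul, hG0]
    unfold J2 J1 J0 Jt
    ring
  rw [hR]
  have hBT : Tst L (fun τ x => x ^ 9 * (dt ψ τ x * (Mw κ τ x * ψ τ x) +
    φ τ x ^ 2 * dx L (dx L ψ) τ x * dx L (dx L (fun τ x => Mw κ τ x * ψ τ x)) τ x)) :=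
    tst_mul_left (sm_pow sm_snd 9) (tst_add (tst_mul_right (tst_dt hL hψ) hU.1)
      (tst_mul_right (tst_mul_left (sm_pow hφ.sm 2) (tst_dx hL (tst_dx hL hψ)))
        (sm_dx hL (sm_dx hL hU.1))))
  unfold BB
  refine II_mono hT hBT fun t ht x hx => ?_
  have hx' : x ∈ Icc 0 L := Ioo_subset_Icc_self hx
  rw [dxx_mu hL hψ ht hx', hGd t ht x hx']
  exact BB_pt hx'.1 (r_pos (x := x) ht) (by have := ht.1; linarith) (Mw_pos ht)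
    (phi_sq hφ ht hx')

theorem J0_le_in (hψ : Tst L ψ) {K : ℝ} (hK : 0 < K) :
    J0 κ L ψ ≤ II L (fun τ x => if x ^ 2 ≤ K * τ then x ^ 9 * ψ τ x ^ 2 / (τ * Wt κ τ x) else 0)
      + 1 / (K + 1) * Jt κ L ψ := by
  have hSm : MeasurableSet {p : ℝ × ℝ | p.2 ^ 2 ≤ K * p.1} :=
    measurableSet_le (by fun_prop) (by fun_prop)
  have hit := tst_integrable (tjt (κ := κ) hψ)
  have hi0 := tst_integrable (tj0 (κ := κ) hψ)
  have hF : IntegrableOn (fun p : ℝ × ℝ => if p.2 ^ 2 ≤ K * p.1 then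
      p.2 ^ 9 * ψ p.1 p.2 ^ 2 / (p.1 * Wt κ p.1 p.2) else 0) (I01 ×ˢ Ioo (0 : ℝ) L) := by
    have h := hit.indicator hSm
    refine h.congr (Filter.Eventually.of_forall fun p => ?_)
    simp only [indicator, mem_setOf_eq]
    split_ifs
    · rw [Wt_eq]
      simp only [div_eq_mul_inv, mul_inv, inv_inv]
      ring
    · rfl
  have h2 : IntegrableOn (fun p : ℝ × ℝ => (if p.2 ^ 2 ≤ K * p.1 then
      p.2 ^ 9 * ψ p.1 p.2 ^ 2 / (p.1 * Wt κ p.1 p.2) else 0)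
      + 1 / (K + 1) * (p.2 ^ 9 * Mw κ p.1 p.2 * ψ p.1 p.2 ^ 2 / p.1)) (I01 ×ˢ Ioo (0 : ℝ) L) :=
    hF.add (hit.const_mul _)
  have e : II L (fun τ x => if x ^ 2 ≤ K * τ then x ^ 9 * ψ τ x ^ 2 / (τ * Wt κ τ x) else 0)
      + 1 / (K + 1) * Jt κ L ψ = ∫ p in I01 ×ˢ Ioo (0 : ℝ) L, ((if p.2 ^ 2 ≤ K * p.1 then
      p.2 ^ 9 * ψ p.1 p.2 ^ 2 / (p.1 * Wt κ p.1 p.2) else 0)
      + 1 / (K + 1) * (p.2 ^ 9 * Mw κ p.1 p.2 * ψ p.1 p.2 ^ 2 / p.1)) := by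
    rw [integral_add hF (hit.const_mul _), integral_const_mul]
    rfl
  rw [e]
  refine setIntegral_mono_on hi0 h2 meas_dom ?_
  rintro ⟨t, x⟩ ⟨ht, hx⟩
  simp only
  have hM := Mw_pos (κ := κ) (x := x) ht
  have ht0 := ht.1
  have hr := r_pos (x := x) ht
  have hx0 := hx.1
  have hA : 0 ≤ x ^ 9 * Mw κ t x * ψ t x ^ 2 := by positivity
  split_ifs with h
  · have h3 : x ^ 9 * ψ t x ^ 2 / (t * Wt κ t x) = x ^ 9 * Mw κ t x * ψ t x ^ 2 / t := by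
      rw [Wt_eq]; simp only [div_eq_mul_inv, mul_inv, inv_inv]; ring
    rw [h3]
    have h4 : x ^ 9 * Mw κ t x * ψ t x ^ 2 / (x ^ 2 + t) ≤ x ^ 9 * Mw κ t x * ψ t x ^ 2 / t := by
      gcongr
      nlinarith
    have h5 : 0 ≤ 1 / (K + 1) * (x ^ 9 * Mw κ t x * ψ t x ^ 2 / t) := by positivity
    linarith
  · rw [not_le] at h
    rw [zero_add]
    have h6 : (K + 1) * t ≤ x ^ 2 + t := by linarith
    calc x ^ 9 * Mw κ t x * ψ t x ^ 2 / (x ^ 2 + t) ≤ x ^ 9 * Mw κ t x * ψ t x ^ 2 / ((K + 1) * t) := by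
          gcongr
      _ = 1 / (K + 1) * (x ^ 9 * Mw κ t x * ψ t x ^ 2 / t) := by field_simp

/-- **Gårding on the full domain** -/
theorem garding_full {c0 C0 : ℝ} {g : ℝ → ℝ} (hg : Prof c0 C0 g) :
    ∃ c K C : ℝ, 0 < c ∧ 0 < K ∧ 0 ≤ C ∧ ∀ κ ∈ Ioo (1 / 8 : ℝ) (1 / 4), ∀ L, 8 ≤ L →
      ∀ φ m, Bg c0 C0 g L φ m → ∀ ψ, Tst L ψ →
        Tst L (fun τ x => ψ τ x / Wt κ τ x) ∧
        nX κ L φ (fun τ x => ψ τ x / Wt κ τ x) ≤ C * nY κ L φ ψ ∧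
        c * nY κ L φ ψ ≤ BB L φ (fun τ x => ψ τ x / Wt κ τ x) ψ +
          C * II L (fun τ x => if x ^ 2 ≤ K * τ then x ^ 9 * ψ τ x ^ 2 / (τ * Wt κ τ x) else 0) := by
  -- constants
  set D1 : ℝ := 4 / 3 * (C0 ^ 2 * (13 + 120) ^ 2 + C0 ^ 2 / (2 * (1 / 307200))) with hD1
  set C1 : ℝ := 30 + 2 * 14280 ^ 2 * C0 ^ 2 + 115200 * D1 with hC1
  have hD1n : 0 ≤ D1 := by positivity
  have hC1p : 0 < C1 := by positivity
  set CX : ℝ := 4 + 172800 * (1 + D1) + 3 * 14280 ^ 2 * C0 ^ 2 with hCX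
  refine ⟨1 / 16, 16 * C1, max CX C1, by norm_num, by positivity, le_max_of_le_right hC1p.le, ?_⟩
  intro κ hκ L hL8 φ m hB ψ hψ
  have hφ := PhiB.of_Bg hB hg.c0_pos.le
  have hL := hφ.L_pos
  rw [div_Wt_eq hψ, nYJ_eq hφ hψ]
  have hJ2 : 0 ≤ J2 κ L φ ψ := J2_nonneg
  have hJ0 : 0 ≤ J0 κ L ψ := J0_nonneg
  have hJt : 0 ≤ Jt κ L ψ := Jt_nonneg
  have h0t : J0 κ L ψ ≤ Jt κ L ψ := J0_le_Jt hψ
  have h1 := J1_le (κ := κ) hφ hψ (by norm_num : (0:ℝ) < 1 / 307200)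
  rw [← hD1] at h1
  refine ⟨tst_mu hψ, ?_, ?_⟩
  · have h2 := nX_mu_le (κ := κ) hφ hψ
    have h3 : D1 * J0 κ L ψ ≤ D1 * Jt κ L ψ := mul_le_mul_of_nonneg_left h0t hD1n
    have h4 : 3 * 14280 ^ 2 * C0 ^ 2 * J0 κ L ψ ≤ 3 * 14280 ^ 2 * C0 ^ 2 * Jt κ L ψ :=
      mul_le_mul_of_nonneg_left h0t (by positivity)
    have h5 : nX κ L φ (fun τ x => Mw κ τ x * ψ τ x) ≤ CX * (J2 κ L φ ψ + Jt κ L ψ) := by
      have e : CX * (J2 κ L φ ψ + Jt κ L ψ) = 4 * J2 κ L φ ψ + 4 * Jt κ L ψ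
        + 172800 * J2 κ L φ ψ + 172800 * (D1 * J2 κ L φ ψ) + 172800 * Jt κ L ψ
        + 172800 * (D1 * Jt κ L ψ) + 3 * 14280 ^ 2 * C0 ^ 2 * J2 κ L φ ψ
        + 3 * 14280 ^ 2 * C0 ^ 2 * Jt κ L ψ := by rw [hCX]; ring
      rw [e]
      have h6 : 0 ≤ D1 * J2 κ L φ ψ := mul_nonneg hD1n hJ2
      have h7 : 0 ≤ 3 * 14280 ^ 2 * C0 ^ 2 * J2 κ L φ ψ := by positivity
      linarith
    exact h5.trans (mul_le_mul_of_nonneg_right (le_max_left _ _) (add_nonneg hJ2 hJt))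
  · have h2 := BB_mu_ge (κ := κ) hφ hψ
    have h3 := J0_le_in (κ := κ) hψ (by positivity : (0:ℝ) < 16 * C1)
    set Jin := II L (fun τ x => if x ^ 2 ≤ 16 * C1 * τ then
      x ^ 9 * ψ τ x ^ 2 / (τ * Wt κ τ x) else 0) with hJin
    have hJin0 : 0 ≤ Jin := II_nonneg fun t ht x hx => by
      have := Mw_pos (κ := κ) (x := x) ht
      have := hx.1
      have := ht.1
      simp only [Wt_eq]
      split_ifs <;> positivity
    have h4 : C1 * J0 κ L ψ ≤ C1 * Jin + 1 / 16 * Jt κ L ψ := by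
      have h5 := mul_le_mul_of_nonneg_left h3 hC1p.le
      have h6 : C1 * (1 / (16 * C1 + 1) * Jt κ L ψ) ≤ 1 / 16 * Jt κ L ψ := by
        rw [← mul_assoc]
        refine mul_le_mul_of_nonneg_right ?_ hJt
        rw [mul_one_div, div_le_div_iff₀ (by positivity) (by norm_num)]
        linarith
      linarith [mul_add C1 Jin (1 / (16 * C1 + 1) * Jt κ L ψ)]
    have h7 : C1 * Jin ≤ max CX C1 * Jin := mul_le_mul_of_nonneg_right (le_max_right _ _) hJin0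
    have h8 : (1 / 8 : ℝ) * Jt κ L ψ ≤ κ * Jt κ L ψ := mul_le_mul_of_nonneg_right hκ.1.le hJt
    have e1 : C1 * J0 κ L ψ = (30 + 2 * 14280 ^ 2 * C0 ^ 2) * J0 κ L ψ
      + 115200 * (D1 * J0 κ L ψ) := by rw [hC1]; ring
    linarith

end integrated

end Crest.Agent.R213.A
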