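import Mathlib

/-!
# Row 213, part A: the general 1D interpolation inequality `interp1`
-/

set_option autoImplicit false

open Set MeasureTheory Filter Topology

noncomputable section

namespace Crest.Agent.R213.A

theorem prod_le_half {X a b : ℝ} (ha : 0 ≤ a) (hb : 0 ≤ b) (h : X ^ 2 ≤ a * b) :
    X ≤ (a + b) / 2 := by
  have h1 : X ^ 2 ≤ ((a + b) / 2) ^ 2 := by nlinarith [sq_nonneg (a - b)]
  exact le_of_abs_le (abs_le_of_sq_le_sq h1 (by positivity))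

theorem interp1 {b : ℝ} (hb : 0 < b) {v v1 v2 : ℝ → ℂ} {p p1 q1 q2 : ℝ → ℝ}
    (hv : ContinuousOn v (Icc 0 b)) (hv1 : ContinuousOn v1 (Icc 0 b))
    (hv2 : ContinuousOn v2 (Icc 0 b))
    (hdv : ∀ x ∈ Ioo 0 b, HasDerivAt v (v1 x) x) (hdv1 : ∀ x ∈ Ioo 0 b, HasDerivAt v1 (v2 x) x)
    (hp : ContinuousOn p (Icc 0 b)) (hp1 : ContinuousOn p1 (Icc 0 b))
    (hdp : ∀ x ∈ Ioo 0 b, HasDerivAt p (p1 x) x) (h0 : p 0 = 0) (hbz : p b = 0 ∨ v b = 0)
    (hq1 : IntervalIntegrable q1 volume 0 b) (hq2 : IntervalIntegrable q2 volume 0 b)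
    (hpn : ∀ x ∈ Ioo 0 b, 0 ≤ p x) (hq1n : ∀ x ∈ Ioo 0 b, 0 ≤ q1 x)
    (hq2n : ∀ x ∈ Ioo 0 b, 0 ≤ q2 x) {K : ℝ} (hK : 0 ≤ K)
    (h12 : ∀ x ∈ Ioo 0 b, p x ^ 2 ≤ q1 x * q2 x)
    (h1 : ∀ x ∈ Ioo 0 b, p1 x ^ 2 ≤ K * p x * q1 x) {ε : ℝ} (hε : 0 < ε) :
    ∫ x in (0 : ℝ)..b, p x * ‖v1 x‖ ^ 2 ≤
      ε * (∫ x in (0 : ℝ)..b, q2 x * ‖v2 x‖ ^ 2) +
        (1 / ε + K) * ∫ x in (0 : ℝ)..b, q1 x * ‖v x‖ ^ 2 := by
  -- real inner products
  set R : ℂ → ℂ → ℝ := fun z w => z.re * w.re + z.im * w.im with hR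
  have hRle : ∀ z w, |R z w| ≤ ‖z‖ * ‖w‖ := by
    intro z w
    have : R z w = (star z * w).re := by simp [hR]
    rw [this]
    refine (Complex.abs_re_le_norm _).trans (le_of_eq ?_)
    rw [norm_mul, norm_star]
  have hRself : ∀ z, R z z = ‖z‖ ^ 2 := by
    intro z
    rw [← Complex.normSq_eq_norm_sq, Complex.normSq_apply]
  have hcR : ∀ {f g : ℝ → ℂ}, ContinuousOn f (Icc 0 b) → ContinuousOn g (Icc 0 b) →
      ContinuousOn (fun x => R (f x) (g x)) (Icc 0 b) := by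
    intro f g hf hg
    have e1 := Complex.continuous_re.comp_continuousOn hf
    have e2 := Complex.continuous_im.comp_continuousOn hf
    have e3 := Complex.continuous_re.comp_continuousOn hg
    have e4 := Complex.continuous_im.comp_continuousOn hg
    exact (e1.mul e3).add (e2.mul e4)
  have hre : ∀ {f : ℝ → ℂ} {f' : ℂ} {x : ℝ}, HasDerivAt f f' x →
      HasDerivAt (fun y => (f y).re) f'.re x := by
    intro f f' x h
    exact (Complex.reCLM.hasFDerivAt.comp_hasDerivAt x h)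
  have him : ∀ {f : ℝ → ℂ} {f' : ℂ} {x : ℝ}, HasDerivAt f f' x →
      HasDerivAt (fun y => (f y).im) f'.im x := by
    intro f f' x h
    exact (Complex.imCLM.hasFDerivAt.comp_hasDerivAt x h)
  set N : ℝ → ℝ := fun x => p x * R (v x) (v1 x) with hN
  set N' : ℝ → ℝ := fun x => p1 x * R (v x) (v1 x) + p x * (‖v1 x‖ ^ 2 + R (v x) (v2 x)) with hN'
  have hNd : ∀ x ∈ Ioo 0 b, HasDerivAt N (N' x) x := by
    intro x hx
    have e1 := hdp x hx
    have e2 := hre (hdv x hx)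
    have e3 := him (hdv x hx)
    have e4 := hre (hdv1 x hx)
    have e5 := him (hdv1 x hx)
    have := e1.mul ((e2.mul e4).add (e3.mul e5))
    refine this.congr_deriv ?_
    simp only [hN', hR, ← hRself, Pi.mul_apply, Pi.add_apply]
    ring
  have hNc : ContinuousOn N (Icc 0 b) := hp.mul (hcR hv hv1)
  have hN'c : ContinuousOn N' (Icc 0 b) :=
    (hp1.mul (hcR hv hv1)).add (hp.mul ((hv1.norm.pow 2).add (hcR hv hv2)))
  have hui : uIcc 0 b = Icc 0 b := uIcc_of_le hb.le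
  have hN'i : IntervalIntegrable N' volume 0 b :=
    ContinuousOn.intervalIntegrable (by rw [hui]; exact hN'c)
  have hFTC : ∫ x in (0 : ℝ)..b, N' x = 0 := by
    rw [intervalIntegral.integral_eq_sub_of_hasDerivAt_of_le hb.le hNc hNd hN'i]
    have z0 : N 0 = 0 := by simp [hN, h0]
    have zb : N b = 0 := by
      rcases hbz with h | h
      · simp [hN, h]
      · simp [hN, hR, h]
    rw [z0, zb, sub_zero]
  have hi1 : IntervalIntegrable (fun x => p x * ‖v1 x‖ ^ 2) volume 0 b :=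
    ContinuousOn.intervalIntegrable (by rw [hui]; exact hp.mul (hv1.norm.pow 2))
  have hi2 : IntervalIntegrable (fun x => q2 x * ‖v2 x‖ ^ 2) volume 0 b :=
    hq2.mul_continuousOn (by rw [hui]; exact hv2.norm.pow 2)
  have hi3 : IntervalIntegrable (fun x => q1 x * ‖v x‖ ^ 2) volume 0 b :=
    hq1.mul_continuousOn (by rw [hui]; exact hv.norm.pow 2)
  have hpt : ∀ x ∈ Ioo 0 b, p x * ‖v1 x‖ ^ 2 ≤
      2 * N' x + ε * (q2 x * ‖v2 x‖ ^ 2) + (1 / ε + K) * (q1 x * ‖v x‖ ^ 2) := by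
    intro x hx
    have a1 := hpn x hx
    have a2 := hq1n x hx
    have a3 := hq2n x hx
    have b1 : |p1 x * R (v x) (v1 x)| ≤ (p x * ‖v1 x‖ ^ 2 + K * (q1 x * ‖v x‖ ^ 2)) / 2 := by
      apply prod_le_half (by positivity) (by positivity)
      rw [sq_abs, mul_pow]
      have c1 : R (v x) (v1 x) ^ 2 ≤ (‖v x‖ * ‖v1 x‖) ^ 2 := by
        rw [← sq_abs]
        exact pow_le_pow_left₀ (abs_nonneg _) (hRle _ _) 2
      calc p1 x ^ 2 * R (v x) (v1 x) ^ 2 ≤ (K * p x * q1 x) * (‖v x‖ * ‖v1 x‖) ^ 2 :=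
            mul_le_mul (h1 x hx) c1 (sq_nonneg _) (by positivity)
        _ = p x * ‖v1 x‖ ^ 2 * (K * (q1 x * ‖v x‖ ^ 2)) := by ring
    have b2 : |p x * R (v x) (v2 x)| ≤ (ε * (q2 x * ‖v2 x‖ ^ 2)
        + 1 / ε * (q1 x * ‖v x‖ ^ 2)) / 2 := by
      apply prod_le_half (by positivity) (by positivity)
      rw [sq_abs, mul_pow]
      have c1 : R (v x) (v2 x) ^ 2 ≤ (‖v x‖ * ‖v2 x‖) ^ 2 := by
        rw [← sq_abs]
        exact pow_le_pow_left₀ (abs_nonneg _) (hRle _ _) 2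
      calc p x ^ 2 * R (v x) (v2 x) ^ 2 ≤ (q1 x * q2 x) * (‖v x‖ * ‖v2 x‖) ^ 2 :=
            mul_le_mul (h12 x hx) c1 (sq_nonneg _) (by positivity)
        _ = ε * (q2 x * ‖v2 x‖ ^ 2) * (1 / ε * (q1 x * ‖v x‖ ^ 2)) := by field_simp
    have d1 := neg_abs_le (p1 x * R (v x) (v1 x))
    have d2 := neg_abs_le (p x * R (v x) (v2 x))
    have e : N' x = p1 x * R (v x) (v1 x) + p x * ‖v1 x‖ ^ 2 + p x * R (v x) (v2 x) := by
      simp only [hN']; ring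
    rw [e]
    have e6 : (1 / ε + K) * (q1 x * ‖v x‖ ^ 2)
      = 1 / ε * (q1 x * ‖v x‖ ^ 2) + K * (q1 x * ‖v x‖ ^ 2) := by ring
    rw [e6]
    linarith
  have hmono := intervalIntegral.integral_mono_on_of_le_Ioo hb.le hi1
    (((hN'i.const_mul 2).add (hi2.const_mul ε)).add (hi3.const_mul (1 / ε + K))) hpt
  have e7 : ∫ x in (0 : ℝ)..b, (2 * N' x + ε * (q2 x * ‖v2 x‖ ^ 2)
      + (1 / ε + K) * (q1 x * ‖v x‖ ^ 2)) = 2 * (∫ x in (0 : ℝ)..b, N' x)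
      + ε * (∫ x in (0 : ℝ)..b, q2 x * ‖v2 x‖ ^ 2)
      + (1 / ε + K) * ∫ x in (0 : ℝ)..b, q1 x * ‖v x‖ ^ 2 := by
    rw [intervalIntegral.integral_add ((hN'i.const_mul 2).add (hi2.const_mul ε))
      (hi3.const_mul (1 / ε + K)), intervalIntegral.integral_add (hN'i.const_mul 2)
      (hi2.const_mul ε), intervalIntegral.integral_const_mul, intervalIntegral.integral_const_mul,
      intervalIntegral.integral_const_mul]
  rw [e7, hFTC] at hmono
  linarith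

end Crest.Agent.R213.A
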