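import Crest.Agent.R213.A.ADefs
import Crest.Agent.R213.A.Interp

/-!
# Row 213, part A: localisation `χ = χ0(x/L)`
-/

set_option autoImplicit false

open Set MeasureTheory Filter Topology

noncomputable section

namespace Crest.Agent.R213.A

namespace LocAux

variable {L : ℝ}

/-- smooth positive weight with `|V_x| ≤ K x V/(x²+τ)` -/
structure Wgt (K L : ℝ) (V : ℝ → ℝ → ℝ) : Prop where
  sm : Sm I01 L V
  pos : ∀ t ∈ I01, ∀ x ∈ Icc 0 L, 0 < V t x
  der : ∀ t ∈ I01, ∀ x ∈ Icc 0 L, |dx L V t x| ≤ K * (x * V t x / (x ^ 2 + t))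

theorem hasDeriv_r (t x : ℝ) : HasDerivAt (fun y : ℝ => y ^ 2 + t) (2 * x) x := by
  simpa using (hasDerivAt_pow 2 x).add_const t

theorem wgt_Wt (hL : 0 < L) (κ : ℝ) : Wgt 120 L (Wt κ) := by
  refine ⟨?_, ?_, ?_⟩
  · have h1 : Sm I01 L (fun t _ => t ^ (2 * κ)) :=
      sm_rpow sm_fst _ (fun t ht x _ => (ne_of_gt ht.1))
    exact sm_div h1 (sm_pow sm_r 60) (fun t ht x _ => pow_ne_zero _ (r_pos ht).ne')
  · intro t ht x _
    exact div_pos (Real.rpow_pos_of_pos ht.1 _) (pow_pos (r_pos ht) _)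
  · intro t ht x hx
    have hr : 0 < x ^ 2 + t := r_pos ht
    have hr' : (x ^ 2 + t) ≠ 0 := hr.ne'
    have ha : 0 < t ^ (2 * κ) := Real.rpow_pos_of_pos ht.1 _
    have e : dx L (Wt κ) t x = - (120 * (x * Wt κ t x / (x ^ 2 + t))) := by
      apply dx_val hL hx
      have h := ((hasDerivAt_const x (t ^ (2 * κ))).div ((hasDeriv_r t x).pow 60)
        (pow_ne_zero _ hr')).hasDerivWithinAt (s := Icc 0 L)
      refine h.congr_deriv ?_
      simp only [Wt, Pi.pow_apply]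
      generalize x ^ 2 + t = r at hr'
      generalize t ^ (2 * κ) = c
      field_simp
      norm_num
      ring
    rw [e, abs_neg, abs_of_nonneg]
    have : 0 < Wt κ t x := div_pos ha (pow_pos hr _)
    have := hx.1
    positivity

theorem wgt_inv (hL : 0 < L) (κ : ℝ) : Wgt 120 L (fun t x => 1 / Wt κ t x) := by
  have hW : ∀ t ∈ I01, ∀ x : ℝ, 0 < Wt κ t x := fun t ht x =>
    div_pos (Real.rpow_pos_of_pos ht.1 _) (pow_pos (r_pos ht) _)
  refine ⟨?_, ?_, ?_⟩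
  · exact sm_div (sm_const 1) (wgt_Wt hL κ).sm (fun t ht x _ => (hW t ht x).ne')
  · intro t ht x _
    exact one_div_pos.2 (hW t ht x)
  · intro t ht x hx
    have hr : 0 < x ^ 2 + t := r_pos ht
    have hr' : (x ^ 2 + t) ≠ 0 := hr.ne'
    have ha : 0 < t ^ (2 * κ) := Real.rpow_pos_of_pos ht.1 _
    have e : dx L (fun t x => 1 / Wt κ t x) t x
        = 120 * (x * (1 / Wt κ t x) / (x ^ 2 + t)) := by
      apply dx_val hL hx
      have h := ((((hasDeriv_r t x).pow 60).div_const (t ^ (2 * κ)))).hasDerivWithinAt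
        (s := Icc 0 L)
      have h' : HasDerivWithinAt (fun y => 1 / Wt κ t y)
          ((60 : ℕ) * (x ^ 2 + t) ^ (60 - 1) * (2 * x) / t ^ (2 * κ)) (Icc 0 L) x := by
        refine h.congr_of_eventuallyEq ?_ ?_
        · filter_upwards with y
          simp only [Wt, one_div_div, Pi.pow_apply]
        · simp only [Wt, one_div_div, Pi.pow_apply]
      refine h'.congr_deriv ?_
      simp only [Wt, one_div_div]
      have ha' : t ^ (2 * κ) ≠ 0 := ha.ne'
      generalize x ^ 2 + t = r at hr'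
      generalize t ^ (2 * κ) = c at ha'
      field_simp
      norm_num
      ring
    have := hW t ht x
    have := hx.1
    rw [e, abs_of_nonneg]
    positivity

theorem Wgt.om {K : ℝ} {V : ℝ → ℝ → ℝ} (hL : 0 < L) (hV : Wgt K L V) :
    Wgt (K + 2) L (fun t x => V t x * (x ^ 2 + t) / L ^ 2) := by
  have hL2 : 0 < L ^ 2 := by positivity
  refine ⟨?_, ?_, ?_⟩
  · exact sm_div (sm_mul hV.sm sm_r) (sm_const (L ^ 2)) (fun _ _ _ _ => hL2.ne')
  · intro t ht x hx
    exact div_pos (mul_pos (hV.pos t ht x hx) (r_pos ht)) hL2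
  · intro t ht x hx
    have hr : 0 < x ^ 2 + t := r_pos ht
    have hx0 := hx.1
    have hVp := hV.pos t ht x hx
    have e : dx L (fun t x => V t x * (x ^ 2 + t) / L ^ 2) t x
        = (dx L V t x * (x ^ 2 + t) + V t x * (2 * x)) / L ^ 2 := by
      apply dx_val hL hx
      exact ((sm_hasDx hL hV.sm ht hx).mul ((hasDeriv_r t x).hasDerivWithinAt)).div_const _
    rw [e, abs_div, abs_of_pos hL2]
    have h1 : |dx L V t x * (x ^ 2 + t) + V t x * (2 * x)| ≤ (K + 2) * (x * V t x) := by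
      have h2 := hV.der t ht x hx
      have h3 : |dx L V t x * (x ^ 2 + t)| ≤ K * (x * V t x) := by
        rw [abs_mul, abs_of_pos hr]
        calc |dx L V t x| * (x ^ 2 + t) ≤ K * (x * V t x / (x ^ 2 + t)) * (x ^ 2 + t) :=
              mul_le_mul_of_nonneg_right h2 hr.le
          _ = K * (x * V t x) := by field_simp
      have h4 : |V t x * (2 * x)| = 2 * (x * V t x) := by
        rw [abs_of_nonneg (by positivity)]; ring
      calc |dx L V t x * (x ^ 2 + t) + V t x * (2 * x)|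
          ≤ |dx L V t x * (x ^ 2 + t)| + |V t x * (2 * x)| := abs_add_le _ _
        _ ≤ K * (x * V t x) + 2 * (x * V t x) := by rw [h4]; linarith
        _ = _ := by ring
    calc |dx L V t x * (x ^ 2 + t) + V t x * (2 * x)| / L ^ 2
        ≤ (K + 2) * (x * V t x) / L ^ 2 := by gcongr
      _ = (K + 2) * (x * (V t x * (x ^ 2 + t) / L ^ 2) / (x ^ 2 + t)) := by
        field_simp

/-! ### Test properties -/

theorem tst_div {u v : ℝ → ℝ → ℝ} (hu : Tst L u) (hv : Sm I01 L v)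
    (h : ∀ t ∈ I01, ∀ x ∈ Icc 0 L, v t x ≠ 0) : Tst L (fun t x => u t x / v t x) := by
  refine ⟨sm_div hu.1 hv h, ?_⟩
  obtain ⟨a, b, h0, h1, h2, h3⟩ := hu.2
  exact ⟨a, b, h0, h1, h2, fun τ x h => by simp [h3 τ x h]⟩

theorem sm9 : Sm I01 L (fun _ x => x ^ 9) := sm_pow sm_snd 9

theorem tstA {V f : ℝ → ℝ → ℝ} (hV : Sm I01 L V) (hf : Tst L f) :
    Tst L (fun t x => x ^ 9 * V t x * f t x ^ 2) :=
  tst_mul_left (sm_mul sm9 hV) (tst_pow hf two_ne_zero)

theorem tstB {V f : ℝ → ℝ → ℝ} (hV : Sm I01 L V) (hf : Tst L f) :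
    Tst L (fun t x => x ^ 9 * V t x * f t x ^ 2 / t) :=
  tst_div (tstA hV hf) sm_fst (fun _ ht _ _ => ne_of_gt ht.1)

theorem tstC {V f : ℝ → ℝ → ℝ} (hV : Sm I01 L V) (hf : Tst L f) :
    Tst L (fun t x => x ^ 9 * V t x * f t x ^ 2 / (x ^ 2 + t)) :=
  tst_div (tstA hV hf) sm_r (fun _ ht _ _ => (r_pos ht).ne')

/-- Cauchy–Schwarz for `II` -/
theorem II_cs {A B D : ℝ → ℝ → ℝ} (hA : Tst L A) (hB : Tst L B) (hD : Tst L D)
    (hA0 : ∀ t ∈ I01, ∀ x ∈ Ioo 0 L, 0 ≤ A t x) (hD0 : ∀ t ∈ I01, ∀ x ∈ Ioo 0 L, 0 ≤ D t x)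
    (h : ∀ t ∈ I01, ∀ x ∈ Ioo 0 L, B t x ^ 2 ≤ A t x * D t x) :
    II L B ^ 2 ≤ II L A * II L D := by
  have key : ∀ s : ℝ, 0 ≤ II L D * (s * s) + (2 * II L B) * s + II L A := by
    intro s
    have e : II L (fun t x => A t x + ((2 * s) * B t x + s ^ 2 * D t x))
        = II L D * (s * s) + (2 * II L B) * s + II L A := by
      rw [II_add hA (tst_add (tst_const_mul (2 * s) hB) (tst_const_mul (s ^ 2) hD)),
        II_add (tst_const_mul (2 * s) hB) (tst_const_mul (s ^ 2) hD), II_const_mul, II_const_mul]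
      ring
    rw [← e]
    apply II_nonneg
    intro t ht x hx
    have hA' := hA0 t ht x hx
    have hD' := hD0 t ht x hx
    have hh := h t ht x hx
    show 0 ≤ A t x + (2 * s * B t x + s ^ 2 * D t x)
    by_cases hz : D t x = 0
    · have hB0 : B t x = 0 := by
        rw [hz, mul_zero] at hh
        exact pow_eq_zero_iff two_ne_zero |>.1 (le_antisymm hh (sq_nonneg _))
      rw [hz, hB0]; simpa using hA'
    · have hDp : 0 < D t x := lt_of_le_of_ne hD' (Ne.symm hz)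
      have h1 : 0 ≤ D t x * (A t x + (2 * s * B t x + s ^ 2 * D t x)) := by
        nlinarith [sq_nonneg (s * D t x + B t x)]
      exact nonneg_of_mul_nonneg_right h1 hDp
  have := discrim_le_zero key
  unfold discrim at this
  nlinarith

/-! ### Cut-off estimate -/

theorem cut_bd {C0 K1 K2 : ℝ} {φ V v : ℝ → ℝ → ℝ} {a b : ℝ → ℝ} (hφ : PhiB C0 L φ) (hL8 : 8 ≤ L)
    (hV : Wgt 120 L V) (ha : ContDiff ℝ (⊤ : ℕ∞) a) (hb : ContDiff ℝ (⊤ : ℕ∞) b)
    (ha' : ∀ x ∈ Icc 0 L, |a x| ≤ K1 / L) (hb' : ∀ x ∈ Icc 0 L, |b x| ≤ K2 / L ^ 2)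
    (hv : Tst L v) :
    II L (fun t x => x ^ 9 * V t x * (φ t x * (2 * a x * dx L v t x + b x * v t x)) ^ 2) ≤
      (8 * K1 ^ 2 * (4 / 3) * (1 + 18226 * C0 ^ 2) + 2 * C0 ^ 2 * K2 ^ 2) / L *
        (II L (fun t x => x ^ 9 * V t x * (φ t x * dx L (dx L v) t x) ^ 2) +
          II L (fun t x => x ^ 9 * V t x * v t x ^ 2 / t)) := by
  have hL : 0 < L := hφ.L_pos
  have hL2 : 0 < L ^ 2 := by positivity
  have hvx : Tst L (dx L v) := tst_dx hL hv
  have hvxx : Tst L (dx L (dx L v)) := tst_dx hL hvx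
  have hφvx : Tst L (fun t x => φ t x * dx L v t x) := tst_mul_left hφ.sm hvx
  have hφvxx : Tst L (fun t x => φ t x * dx L (dx L v) t x) := tst_mul_left hφ.sm hvxx
  have hω := hV.om hL
  set ω : ℝ → ℝ → ℝ := fun t x => V t x * (x ^ 2 + t) / L ^ 2 with hωdef
  have hint := interp_w (K := 120 + 2) (η := 1 / L) (v := v) hφ (by norm_num) (by positivity) hω.sm
    (fun t ht x hx => (hω.pos t ht x hx).le) hω.der hv.1 (Or.inr hv.2)
  set N1 := II L (fun t x => x ^ 9 * V t x * (φ t x * dx L (dx L v) t x) ^ 2) with hN1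
  set N0 := II L (fun t x => x ^ 9 * V t x * v t x ^ 2 / t) with hN0
  have hN1p : 0 ≤ N1 := II_nonneg (fun t ht x hx => by
    have := hV.pos t ht x (Ioo_subset_Icc_self hx)
    have := hx.1
    positivity)
  have hN0p : 0 ≤ N0 := II_nonneg (fun t ht x hx => by
    have := hV.pos t ht x (Ioo_subset_Icc_self hx)
    have := hx.1
    have := ht.1
    positivity)
  -- first term of the interpolation
  have i1 : II L (fun t x => x ^ 9 * ω t x * (φ t x * dx L (dx L v) t x) ^ 2) ≤ 2 * N1 := by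
    rw [hN1, ← II_const_mul]
    refine II_mono (tstA hω.sm hφvxx) (tst_const_mul 2 (tstA hV.sm hφvxx)) ?_
    intro t ht x hx
    have hV0 := hV.pos t ht x (Ioo_subset_Icc_self hx)
    have hx0 := hx.1
    have hxL := hx.2
    have ht1 := ht.2
    have h1 : (x ^ 2 + t) / L ^ 2 ≤ 2 := by
      rw [div_le_iff₀ hL2]; nlinarith
    have e : x ^ 9 * ω t x * (φ t x * dx L (dx L v) t x) ^ 2
        = (x ^ 2 + t) / L ^ 2 * (x ^ 9 * V t x * (φ t x * dx L (dx L v) t x) ^ 2) := by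
      rw [hωdef]; ring
    show x ^ 9 * ω t x * (φ t x * dx L (dx L v) t x) ^ 2
      ≤ 2 * (x ^ 9 * V t x * (φ t x * dx L (dx L v) t x) ^ 2)
    rw [e]
    exact mul_le_mul_of_nonneg_right h1 (by positivity)
  have i2 : II L (fun t x => x ^ 9 * ω t x * v t x ^ 2 / (x ^ 2 + t)) ≤ 1 / L ^ 2 * N0 := by
    rw [hN0, ← II_const_mul]
    refine II_mono (tstC hω.sm hv) (tst_const_mul _ (tstB hV.sm hv)) ?_
    intro t ht x hx
    have hV0 := hV.pos t ht x (Ioo_subset_Icc_self hx)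
    have hx0 := hx.1
    have ht0 := ht.1
    have ht1 := ht.2
    have hr := r_pos (x := x) ht
    have e : x ^ 9 * ω t x * v t x ^ 2 / (x ^ 2 + t) = 1 / L ^ 2 * (x ^ 9 * V t x * v t x ^ 2) := by
      rw [hωdef]; field_simp
    show x ^ 9 * ω t x * v t x ^ 2 / (x ^ 2 + t) ≤ 1 / L ^ 2 * (x ^ 9 * V t x * v t x ^ 2 / t)
    rw [e]
    apply mul_le_mul_of_nonneg_left _ (by positivity)
    rw [le_div_iff₀ ht0]
    have : 0 ≤ x ^ 9 * V t x * v t x ^ 2 := by positivity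
    nlinarith
  have hC0 := hφ.C0_nonneg
  have i3 : II L (fun t x => x ^ 9 * ω t x * (φ t x * dx L v t x) ^ 2 / (x ^ 2 + t)) ≤
      4 / 3 * (1 + 18226 * C0 ^ 2) / L * (N1 + N0) := by
    refine hint.trans ?_
    have h1 : 2 / 3 * (1 / L) * II L (fun t x => x ^ 9 * ω t x * (φ t x * dx L (dx L v) t x) ^ 2)
        ≤ 2 / 3 * (1 / L) * (2 * N1) := mul_le_mul_of_nonneg_left i1 (by positivity)
    have h2 : 4 / 3 * (C0 ^ 2 * (13 + (120 + 2)) ^ 2 + C0 ^ 2 / (2 * (1 / L))) *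
        II L (fun t x => x ^ 9 * ω t x * v t x ^ 2 / (x ^ 2 + t)) ≤
        4 / 3 * (C0 ^ 2 * (13 + (120 + 2)) ^ 2 + C0 ^ 2 / (2 * (1 / L))) * (1 / L ^ 2 * N0) :=
      mul_le_mul_of_nonneg_left i2 (by positivity)
    have h3 : 4 / 3 * (C0 ^ 2 * (13 + (120 + 2)) ^ 2 + C0 ^ 2 / (2 * (1 / L))) * (1 / L ^ 2 * N0)
        ≤ 4 / 3 * (18226 * C0 ^ 2) / L * N0 := by
      have e : 4 / 3 * (C0 ^ 2 * (13 + (120 + 2)) ^ 2 + C0 ^ 2 / (2 * (1 / L))) * (1 / L ^ 2 * N0)
          = (4 / 3 * C0 ^ 2 * (18225 / L + 1 / 2)) / L * N0 := by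
        field_simp
        ring
      rw [e]
      have h4 : 18225 / L + 1 / 2 ≤ 18226 := by
        have : 18225 / L ≤ 18225 / 8 := by gcongr
        linarith [show (18225 : ℝ) / 8 ≤ 18225 by norm_num]
      have h5 : 4 / 3 * C0 ^ 2 * (18225 / L + 1 / 2) ≤ 4 / 3 * (18226 * C0 ^ 2) := by
        nlinarith [sq_nonneg C0]
      gcongr
    have e4 : 4 / 3 * (1 + 18226 * C0 ^ 2) / L * (N1 + N0)
        = (2 / 3 * (1 / L) * (2 * N1) + 4 / 3 * (18226 * C0 ^ 2) / L * N0)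
          + (4 / 3 * (18226 * C0 ^ 2) / L * N1 + 4 / 3 / L * N0) := by ring
    have h6 : 0 ≤ 4 / 3 * (18226 * C0 ^ 2) / L * N1 + 4 / 3 / L * N0 := by positivity
    linarith
  -- pointwise bound
  have hfin : II L (fun t x => x ^ 9 * V t x * (φ t x * (2 * a x * dx L v t x + b x * v t x)) ^ 2)
      ≤ 8 * K1 ^ 2 * II L (fun t x => x ^ 9 * ω t x * (φ t x * dx L v t x) ^ 2 / (x ^ 2 + t))
        + 2 * C0 ^ 2 * K2 ^ 2 / L ^ 2 * N0 := by
    rw [hN0, ← II_const_mul, ← II_const_mul,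
      ← II_add (tst_const_mul _ (tstC hω.sm hφvx)) (tst_const_mul _ (tstB hV.sm hv))]
    have hbr : Tst L (fun t x => φ t x * (2 * a x * dx L v t x + b x * v t x)) := by
      refine tst_mul_left hφ.sm (tst_add (tst_mul_left (u := fun _ x => 2 * a x) ?_ hvx)
        (tst_mul_left (u := fun _ x => b x) (sm_of_x hb) hv))
      exact sm_of_x (contDiff_const.mul ha)
    refine II_mono (tstA hV.sm hbr)
      (tst_add (tst_const_mul _ (tstC hω.sm hφvx)) (tst_const_mul _ (tstB hV.sm hv))) ?_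
    intro t ht x hx
    have hx' := Ioo_subset_Icc_self hx
    have hV0 := hV.pos t ht x hx'
    have hx0 := hx.1
    have hxL := hx.2
    have ht0 := ht.1
    have ht1 := ht.2
    have hr := r_pos (x := x) ht
    have h9 : 0 ≤ x ^ 9 * V t x := by positivity
    have e1 : x ^ 9 * ω t x * (φ t x * dx L v t x) ^ 2 / (x ^ 2 + t)
        = x ^ 9 * V t x * ((φ t x * dx L v t x) ^ 2 / L ^ 2) := by
      rw [hωdef]; field_simp
    show x ^ 9 * V t x * (φ t x * (2 * a x * dx L v t x + b x * v t x)) ^ 2 ≤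
      8 * K1 ^ 2 * (x ^ 9 * ω t x * (φ t x * dx L v t x) ^ 2 / (x ^ 2 + t)) +
        2 * C0 ^ 2 * K2 ^ 2 / L ^ 2 * (x ^ 9 * V t x * v t x ^ 2 / t)
    rw [e1]
    have ha2 : a x ^ 2 ≤ K1 ^ 2 / L ^ 2 := by
      rw [← div_pow, ← sq_abs (a x)]
      exact pow_le_pow_left₀ (abs_nonneg _) (ha' x hx') 2
    have hb2 : b x ^ 2 ≤ K2 ^ 2 / L ^ 4 := by
      have : K2 ^ 2 / L ^ 4 = (K2 / L ^ 2) ^ 2 := by field_simp
      rw [this, ← sq_abs (b x)]
      exact pow_le_pow_left₀ (abs_nonneg _) (hb' x hx') 2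
    have hφ2 : φ t x ^ 2 ≤ C0 ^ 2 * L ^ 2 := by
      rw [← sq_abs (φ t x), ← mul_pow]
      apply pow_le_pow_left₀ (abs_nonneg _)
      exact (hφ.bd t ht x hx').trans (mul_le_mul_of_nonneg_left hx'.2 hC0)
    have p1 : (φ t x * (2 * a x * dx L v t x + b x * v t x)) ^ 2 ≤
        8 * a x ^ 2 * (φ t x * dx L v t x) ^ 2 + 2 * b x ^ 2 * φ t x ^ 2 * v t x ^ 2 := by
      have : 8 * a x ^ 2 * (φ t x * dx L v t x) ^ 2 + 2 * b x ^ 2 * φ t x ^ 2 * v t x ^ 2
          - (φ t x * (2 * a x * dx L v t x + b x * v t x)) ^ 2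
          = (φ t x * (2 * a x * dx L v t x - b x * v t x)) ^ 2 := by ring
      nlinarith [sq_nonneg (φ t x * (2 * a x * dx L v t x - b x * v t x))]
    have p2 : 8 * a x ^ 2 * (φ t x * dx L v t x) ^ 2 ≤
        8 * K1 ^ 2 * ((φ t x * dx L v t x) ^ 2 / L ^ 2) := by
      have : 8 * K1 ^ 2 * ((φ t x * dx L v t x) ^ 2 / L ^ 2)
          = 8 * (K1 ^ 2 / L ^ 2) * (φ t x * dx L v t x) ^ 2 := by ring
      rw [this]
      gcongr
    have p3 : 2 * b x ^ 2 * φ t x ^ 2 * v t x ^ 2 ≤ 2 * C0 ^ 2 * K2 ^ 2 / L ^ 2 * (v t x ^ 2 / t) := by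
      have h1 : v t x ^ 2 ≤ v t x ^ 2 / t := by
        rw [le_div_iff₀ ht0]
        nlinarith [sq_nonneg (v t x)]
      have h2 : 2 * b x ^ 2 * φ t x ^ 2 ≤ 2 * (K2 ^ 2 / L ^ 4) * (C0 ^ 2 * L ^ 2) := by
        gcongr
      have h3 : 2 * (K2 ^ 2 / L ^ 4) * (C0 ^ 2 * L ^ 2) = 2 * C0 ^ 2 * K2 ^ 2 / L ^ 2 := by
        field_simp
      rw [h3] at h2
      calc 2 * b x ^ 2 * φ t x ^ 2 * v t x ^ 2 ≤ 2 * C0 ^ 2 * K2 ^ 2 / L ^ 2 * v t x ^ 2 := by
            gcongr
        _ ≤ _ := by gcongr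
    calc x ^ 9 * V t x * (φ t x * (2 * a x * dx L v t x + b x * v t x)) ^ 2
        ≤ x ^ 9 * V t x * (8 * K1 ^ 2 * ((φ t x * dx L v t x) ^ 2 / L ^ 2)
            + 2 * C0 ^ 2 * K2 ^ 2 / L ^ 2 * (v t x ^ 2 / t)) :=
          mul_le_mul_of_nonneg_left (p1.trans (add_le_add p2 p3)) h9
      _ = _ := by ring
  refine hfin.trans ?_
  have h1 : 8 * K1 ^ 2 * II L (fun t x => x ^ 9 * ω t x * (φ t x * dx L v t x) ^ 2 / (x ^ 2 + t))
      ≤ 8 * K1 ^ 2 * (4 / 3 * (1 + 18226 * C0 ^ 2) / L * (N1 + N0)) :=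
    mul_le_mul_of_nonneg_left i3 (by positivity)
  have h2 : 2 * C0 ^ 2 * K2 ^ 2 / L ^ 2 * N0 ≤ 2 * C0 ^ 2 * K2 ^ 2 / L * (N1 + N0) := by
    have h3 : 2 * C0 ^ 2 * K2 ^ 2 / L ^ 2 ≤ 2 * C0 ^ 2 * K2 ^ 2 / L := by
      apply div_le_div_of_nonneg_left (by positivity) hL
      nlinarith
    calc 2 * C0 ^ 2 * K2 ^ 2 / L ^ 2 * N0 ≤ 2 * C0 ^ 2 * K2 ^ 2 / L * N0 := by gcongr
      _ ≤ 2 * C0 ^ 2 * K2 ^ 2 / L * (N1 + N0) := by gcongr; linarith
  have e : (8 * K1 ^ 2 * (4 / 3) * (1 + 18226 * C0 ^ 2) + 2 * C0 ^ 2 * K2 ^ 2) / L * (N1 + N0)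
      = 8 * K1 ^ 2 * (4 / 3 * (1 + 18226 * C0 ^ 2) / L * (N1 + N0))
        + 2 * C0 ^ 2 * K2 ^ 2 / L * (N1 + N0) := by ring
  rw [e]
  linarith

end LocAux

open LocAux

/-- localisation with `χ = χ0(x/L)`, `χ0 = 1` on `(-∞,1/32]`, `0` on `[1/16,∞)` -/
theorem loc {c0 C0 : ℝ} {g : ℝ → ℝ} (hg : Prof c0 C0 g) {χ0 : ℝ → ℝ}
    (hχ : ContDiff ℝ (⊤ : ℕ∞) χ0) (_h1 : ∀ r, r ≤ 1 / 32 → χ0 r = 1)
    (_h2 : ∀ r, 1 / 16 ≤ r → χ0 r = 0) :
    ∃ C : ℝ, 0 ≤ C ∧ ∀ κ ∈ Ioo (1 / 8 : ℝ) (1 / 4), ∀ L, 8 ≤ L →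
      ∀ φ m, Bg c0 C0 g L φ m → ∀ u ψ, Tst L u → Tst L ψ →
        Tst L (fun τ x => χ0 (x / L) * u τ x) ∧
        nX κ L φ (fun τ x => χ0 (x / L) * u τ x) ≤ C * nX κ L φ u ∧
        (BB L φ u (fun τ x => χ0 (x / L) * ψ τ x) - BB L φ (fun τ x => χ0 (x / L) * u τ x) ψ) ^ 2
          ≤ C / L * nX κ L φ u * nY κ L φ ψ := by
  -- derivatives of χ0
  have hχ1 : ContDiff ℝ (⊤ : ℕ∞) (deriv χ0) := (contDiff_infty_iff_deriv.1 hχ).2
  have hχ2 : ContDiff ℝ (⊤ : ℕ∞) (deriv (deriv χ0)) := (contDiff_infty_iff_deriv.1 hχ1).2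
  obtain ⟨K0, hK0⟩ := isCompact_Icc.exists_bound_of_continuousOn (s := Icc (0 : ℝ) 1)
    hχ.continuous.continuousOn
  obtain ⟨K1, hK1⟩ := isCompact_Icc.exists_bound_of_continuousOn (s := Icc (0 : ℝ) 1)
    hχ1.continuous.continuousOn
  obtain ⟨K2, hK2⟩ := isCompact_Icc.exists_bound_of_continuousOn (s := Icc (0 : ℝ) 1)
    hχ2.continuous.continuousOn
  have h01 : (0 : ℝ) ∈ Icc (0 : ℝ) 1 := ⟨le_rfl, zero_le_one⟩
  have hK0p : 0 ≤ K0 := (norm_nonneg _).trans (hK0 0 h01)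
  have hK1p : 0 ≤ K1 := (norm_nonneg _).trans (hK1 0 h01)
  have hK2p : 0 ≤ K2 := (norm_nonneg _).trans (hK2 0 h01)
  set C : ℝ := 8 * K1 ^ 2 * (4 / 3) * (1 + 18226 * C0 ^ 2) + 2 * C0 ^ 2 * K2 ^ 2 with hC
  have hCp : 0 ≤ C := by positivity
  refine ⟨2 * K0 ^ 2 + 4 * C, by positivity, ?_⟩
  intro κ _hκ L hL8 φ m hB u ψ hu hψ
  have hφ : PhiB C0 L φ := PhiB.of_Bg hB hg.c0_pos.le
  have hL : 0 < L := hφ.L_pos
  have hmem : ∀ x ∈ Icc 0 L, x / L ∈ Icc (0 : ℝ) 1 := fun x hx =>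
    ⟨div_nonneg hx.1 hL.le, by rw [div_le_one hL]; exact hx.2⟩
  have hdiv : ContDiff ℝ (⊤ : ℕ∞) (fun x : ℝ => x / L) := contDiff_id.div_const L
  set χ : ℝ → ℝ := fun x => χ0 (x / L) with hχdef
  set a : ℝ → ℝ := fun x => deriv χ0 (x / L) / L with ha
  set b : ℝ → ℝ := fun x => deriv (deriv χ0) (x / L) / L ^ 2 with hb
  have hχs : ContDiff ℝ (⊤ : ℕ∞) χ := hχ.comp hdiv
  have has : ContDiff ℝ (⊤ : ℕ∞) a := (hχ1.comp hdiv).div_const L
  have hbs : ContDiff ℝ (⊤ : ℕ∞) b := (hχ2.comp hdiv).div_const (L ^ 2)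
  have hd : ∀ x : ℝ, HasDerivAt (fun y : ℝ => y / L) (1 / L) x := fun x =>
    (hasDerivAt_id x).div_const L
  have hχd : ∀ x, HasDerivAt χ (a x) x := by
    intro x
    have h := ((hχ.differentiable (by simp)) (x / L)).hasDerivAt.comp x (hd x)
    exact h.congr_deriv (by rw [ha]; ring)
  have had : ∀ x, HasDerivAt a (b x) x := by
    intro x
    have h := (((hχ1.differentiable (by simp)) (x / L)).hasDerivAt.comp x (hd x)).div_const L
    exact h.congr_deriv (by rw [hb]; ring)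
  have hχb : ∀ x ∈ Icc 0 L, |χ x| ≤ K0 := fun x hx => hK0 _ (hmem x hx)
  have hab : ∀ x ∈ Icc 0 L, |a x| ≤ K1 / L := by
    intro x hx
    rw [ha]
    simp only
    rw [abs_div, abs_of_pos hL]
    exact div_le_div_of_nonneg_right (hK1 _ (hmem x hx)) hL.le
  have hbb : ∀ x ∈ Icc 0 L, |b x| ≤ K2 / L ^ 2 := by
    intro x hx
    rw [hb]
    simp only
    rw [abs_div, abs_of_pos (by positivity : 0 < L ^ 2)]
    exact div_le_div_of_nonneg_right (hK2 _ (hmem x hx)) (by positivity)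
  -- second derivative of a product with χ
  have hprod : ∀ v : ℝ → ℝ → ℝ, Sm I01 L v → ∀ t ∈ I01, ∀ x ∈ Icc 0 L,
      dx L (dx L (fun τ x => χ x * v τ x)) t x
        = χ x * dx L (dx L v) t x + (2 * a x * dx L v t x + b x * v t x) := by
    intro v hv t ht x hx
    have hv1 := sm_dx hL hv
    have e1 : ∀ y ∈ Icc 0 L, dx L (fun τ x => χ x * v τ x) t y = a y * v t y + χ y * dx L v t y := by
      intro y hy
      exact dx_val hL hy (((hχd y).hasDerivWithinAt).mul (sm_hasDx hL hv ht hy))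
    apply dx_val hL hx
    have h := (((had x).hasDerivWithinAt (s := Icc 0 L)).mul (sm_hasDx hL hv ht hx)).add
      (((hχd x).hasDerivWithinAt (s := Icc 0 L)).mul (sm_hasDx hL hv1 ht hx))
    refine (h.congr (fun y hy => ?_) ?_).congr_deriv ?_
    · rw [e1 y hy]; simp [Pi.mul_apply]
    · rw [e1 x hx]; simp [Pi.mul_apply]
    · ring
  have hTχ : ∀ v : ℝ → ℝ → ℝ, Tst L v → Tst L (fun τ x => χ x * v τ x) := fun v hv =>
    tst_mul_left (u := fun _ x => χ x) (sm_of_x hχs) hv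
  have hux := tst_dx hL hu
  have huxx := tst_dx hL hux
  have hψx := tst_dx hL hψ
  have hψxx := tst_dx hL hψx
  have hWu := wgt_Wt hL κ
  have hWi := wgt_inv hL κ
  have hWp : ∀ t ∈ I01, ∀ x : ℝ, 0 < Wt κ t x := fun t ht x =>
    div_pos (Real.rpow_pos_of_pos ht.1 _) (pow_pos (r_pos ht) _)
  have hbrT : ∀ v : ℝ → ℝ → ℝ, Tst L v →
      Tst L (fun t x => φ t x * (2 * a x * dx L v t x + b x * v t x)) := by
    intro v hv
    refine tst_mul_left hφ.sm (tst_add (tst_mul_left (u := fun _ x => 2 * a x) ?_ (tst_dx hL hv))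
      (tst_mul_left (u := fun _ x => b x) (sm_of_x hbs) hv))
    exact sm_of_x (contDiff_const.mul has)
  have cu := cut_bd hφ hL8 hWu has hbs hab hbb hu
  have cψ := cut_bd hφ hL8 hWi has hbs hab hbb hψ
  rw [← hC] at cu cψ
  -- nX and nY as sums
  have hnX : nX κ L φ u = II L (fun t x => x ^ 9 * Wt κ t x * (φ t x * dx L (dx L u) t x) ^ 2) +
      II L (fun t x => x ^ 9 * Wt κ t x * u t x ^ 2 / t) := by
    rw [← II_add (tstA hWu.sm (tst_mul_left hφ.sm huxx)) (tstB hWu.sm hu)]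
    unfold nX
    apply II_congr
    intro t ht x hx
    ring
  have hnY : nY κ L φ ψ
      = II L (fun t x => x ^ 9 * (1 / Wt κ t x) * (φ t x * dx L (dx L ψ) t x) ^ 2) +
      II L (fun t x => x ^ 9 * (1 / Wt κ t x) * ψ t x ^ 2 / t) := by
    rw [← II_add (tstA hWi.sm (tst_mul_left hφ.sm hψxx)) (tstB hWi.sm hψ)]
    unfold nY
    apply II_congr
    intro t ht x hx
    have := (hWp t ht x).ne'
    have := (ne_of_gt ht.1 : t ≠ 0)
    field_simp
  rw [← hnX] at cu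
  rw [← hnY] at cψ
  have hN1u : 0 ≤ II L (fun t x => x ^ 9 * Wt κ t x * (φ t x * dx L (dx L u) t x) ^ 2) :=
    II_nonneg (fun t ht x hx => by
      have := hWp t ht x
      have := hx.1
      positivity)
  have hN0u : 0 ≤ II L (fun t x => x ^ 9 * Wt κ t x * u t x ^ 2 / t) :=
    II_nonneg (fun t ht x hx => by
      have := hWp t ht x
      have := hx.1
      have := ht.1
      positivity)
  have hN1ψ : 0 ≤ II L (fun t x => x ^ 9 * (1 / Wt κ t x) * (φ t x * dx L (dx L ψ) t x) ^ 2) :=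
    II_nonneg (fun t ht x hx => by
      have := hWp t ht x
      have := hx.1
      positivity)
  have hN0ψ : 0 ≤ II L (fun t x => x ^ 9 * (1 / Wt κ t x) * ψ t x ^ 2 / t) :=
    II_nonneg (fun t ht x hx => by
      have := hWp t ht x
      have := hx.1
      have := ht.1
      positivity)
  have hnXp : 0 ≤ nX κ L φ u := by rw [hnX]; linarith
  have hnYp : 0 ≤ nY κ L φ ψ := by rw [hnY]; linarith
  have hL1 : C / L ≤ C := by
    apply div_le_self hCp; linarith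
  refine ⟨hTχ u hu, ?_, ?_⟩
  · -- the X-norm
    have hle : nX κ L φ (fun τ x => χ x * u τ x) ≤
        2 * K0 ^ 2 * nX κ L φ u + 2 * II L (fun t x => x ^ 9 * Wt κ t x *
          (φ t x * (2 * a x * dx L u t x + b x * u t x)) ^ 2) := by
      have e1 : nX κ L φ (fun τ x => χ x * u τ x) =
          II L (fun t x => x ^ 9 * Wt κ t x * (φ t x * dx L (dx L (fun τ x => χ x * u τ x)) t x) ^ 2) +
          II L (fun t x => x ^ 9 * Wt κ t x * (χ x * u t x) ^ 2 / t) := by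
        have hT := hTχ u hu
        rw [← II_add (tstA hWu.sm (tst_mul_left hφ.sm (tst_dx hL (tst_dx hL hT))))
          (tstB hWu.sm hT)]
        unfold nX
        apply II_congr
        intro t ht x hx
        ring
      rw [e1]
      have hT := hTχ u hu
      have s1 : II L (fun t x => x ^ 9 * Wt κ t x *
          (φ t x * dx L (dx L (fun τ x => χ x * u τ x)) t x) ^ 2) ≤
          2 * K0 ^ 2 * II L (fun t x => x ^ 9 * Wt κ t x * (φ t x * dx L (dx L u) t x) ^ 2) +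
          2 * II L (fun t x => x ^ 9 * Wt κ t x *
          (φ t x * (2 * a x * dx L u t x + b x * u t x)) ^ 2) := by
        rw [← II_const_mul, ← II_const_mul, ← II_add
          (tst_const_mul _ (tstA hWu.sm (tst_mul_left hφ.sm huxx)))
          (tst_const_mul _ (tstA hWu.sm (hbrT u hu)))]
        refine II_mono (tstA hWu.sm (tst_mul_left hφ.sm (tst_dx hL (tst_dx hL hT))))
          (tst_add (tst_const_mul _ (tstA hWu.sm (tst_mul_left hφ.sm huxx)))
          (tst_const_mul _ (tstA hWu.sm (hbrT u hu)))) ?_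
        intro t ht x hx
        have hx' := Ioo_subset_Icc_self hx
        have hW0 := hWp t ht x
        have hx0 := hx.1
        have h9 : 0 ≤ x ^ 9 * Wt κ t x := by positivity
        have hχ2' : χ x ^ 2 ≤ K0 ^ 2 := by
          rw [← sq_abs (χ x)]
          exact pow_le_pow_left₀ (abs_nonneg _) (hχb x hx') 2
        show x ^ 9 * Wt κ t x * (φ t x * dx L (dx L (fun τ x => χ x * u τ x)) t x) ^ 2 ≤
          2 * K0 ^ 2 * (x ^ 9 * Wt κ t x * (φ t x * dx L (dx L u) t x) ^ 2) +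
          2 * (x ^ 9 * Wt κ t x * (φ t x * (2 * a x * dx L u t x + b x * u t x)) ^ 2)
        rw [hprod u hu.1 t ht x hx']
        set P := φ t x * dx L (dx L u) t x with hP
        set Q := φ t x * (2 * a x * dx L u t x + b x * u t x) with hQ
        have e2 : φ t x * (χ x * dx L (dx L u) t x + (2 * a x * dx L u t x + b x * u t x))
            = χ x * P + Q := by rw [hP, hQ]; ring
        rw [e2]
        have h3 : (χ x * P + Q) ^ 2 ≤ 2 * K0 ^ 2 * P ^ 2 + 2 * Q ^ 2 := by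
          have h4 : (χ x * P + Q) ^ 2 ≤ 2 * (χ x ^ 2 * P ^ 2) + 2 * Q ^ 2 := by
            nlinarith [sq_nonneg (χ x * P - Q)]
          have h5 : χ x ^ 2 * P ^ 2 ≤ K0 ^ 2 * P ^ 2 := by gcongr
          linarith
        calc x ^ 9 * Wt κ t x * (χ x * P + Q) ^ 2
            ≤ x ^ 9 * Wt κ t x * (2 * K0 ^ 2 * P ^ 2 + 2 * Q ^ 2) :=
              mul_le_mul_of_nonneg_left h3 h9
          _ = _ := by ring
      have s2 : II L (fun t x => x ^ 9 * Wt κ t x * (χ x * u t x) ^ 2 / t) ≤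
          2 * K0 ^ 2 * II L (fun t x => x ^ 9 * Wt κ t x * u t x ^ 2 / t) := by
        rw [← II_const_mul]
        refine II_mono (tstB hWu.sm hT) (tst_const_mul _ (tstB hWu.sm hu)) ?_
        intro t ht x hx
        have hx' := Ioo_subset_Icc_self hx
        have hW0 := hWp t ht x
        have hx0 := hx.1
        have ht0 := ht.1
        have hχ2' : χ x ^ 2 ≤ K0 ^ 2 := by
          rw [← sq_abs (χ x)]
          exact pow_le_pow_left₀ (abs_nonneg _) (hχb x hx') 2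
        show x ^ 9 * Wt κ t x * (χ x * u t x) ^ 2 / t ≤
          2 * K0 ^ 2 * (x ^ 9 * Wt κ t x * u t x ^ 2 / t)
        have e3 : x ^ 9 * Wt κ t x * (χ x * u t x) ^ 2 / t
            = χ x ^ 2 * (x ^ 9 * Wt κ t x * u t x ^ 2 / t) := by ring
        rw [e3]
        have h4 : 0 ≤ x ^ 9 * Wt κ t x * u t x ^ 2 / t := by positivity
        nlinarith [sq_nonneg K0]
      rw [hnX, mul_add]
      linarith
    refine hle.trans ?_
    have h1 : C / L * nX κ L φ u ≤ C * nX κ L φ u := mul_le_mul_of_nonneg_right hL1 hnXp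
    have h2 : (2 * K0 ^ 2 + 4 * C) * nX κ L φ u
        = 2 * K0 ^ 2 * nX κ L φ u + 2 * (C * nX κ L φ u) + 2 * (C * nX κ L φ u) := by ring
    have h3 : 0 ≤ C * nX κ L φ u := mul_nonneg hCp hnXp
    rw [h2]
    linarith
  · -- the commutator
    set B1 : ℝ → ℝ → ℝ := fun t x => x ^ 9 * (φ t x * dx L (dx L u) t x) *
      (φ t x * (2 * a x * dx L ψ t x + b x * ψ t x)) with hB1
    set B2 : ℝ → ℝ → ℝ := fun t x => x ^ 9 * (φ t x * dx L (dx L ψ) t x) *
      (φ t x * (2 * a x * dx L u t x + b x * u t x)) with hB2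
    have hφuxx : Tst L (fun t x => φ t x * dx L (dx L u) t x) := tst_mul_left hφ.sm huxx
    have hφψxx : Tst L (fun t x => φ t x * dx L (dx L ψ) t x) := tst_mul_left hφ.sm hψxx
    have tB1 : Tst L B1 := tst_mul_right (tst_mul_left sm9 hφuxx) (hbrT ψ hψ).1
    have tB2 : Tst L B2 := tst_mul_right (tst_mul_left sm9 hφψxx) (hbrT u hu).1
    have hdiff : BB L φ u (fun τ x => χ x * ψ τ x) - BB L φ (fun τ x => χ x * u τ x) ψ
        = II L B1 - II L B2 := by
      have hTψ := hTχ ψ hψ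
      have hTu := hTχ u hu
      have t1 : Tst L (fun τ x => x ^ 9 * (dt (fun τ x => χ x * ψ τ x) τ x * u τ x +
          φ τ x ^ 2 * dx L (dx L (fun τ x => χ x * ψ τ x)) τ x * dx L (dx L u) τ x)) := by
        refine tst_mul_left sm9 (tst_add (tst_mul_left (sm_dt hL hTψ.1) hu) ?_)
        exact tst_mul_left (sm_mul (sm_pow hφ.sm 2) (sm_dx hL (sm_dx hL hTψ.1))) huxx
      have t2 : Tst L (fun τ x => x ^ 9 * (dt ψ τ x * (χ x * u τ x) +
          φ τ x ^ 2 * dx L (dx L ψ) τ x * dx L (dx L (fun τ x => χ x * u τ x)) τ x)) := by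
        refine tst_mul_left sm9 (tst_add (tst_mul_left (sm_dt hL hψ.1) hTu) ?_)
        exact tst_mul_left (sm_mul (sm_pow hφ.sm 2) (sm_dx hL (sm_dx hL hψ.1)))
          (tst_dx hL (tst_dx hL hTu))
      unfold BB
      rw [← II_sub t1 t2, ← II_sub tB1 tB2]
      apply II_congr
      intro t ht x hx
      have hx' := Ioo_subset_Icc_self hx
      have e1 : dt (fun τ x => χ x * ψ τ x) t x = χ x * dt ψ t x :=
        dt_val ((sm_hasDt hψ.1 ht hx').const_mul (χ x))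
      show x ^ 9 * (dt (fun τ x => χ x * ψ τ x) t x * u t x +
          φ t x ^ 2 * dx L (dx L (fun τ x => χ x * ψ τ x)) t x * dx L (dx L u) t x) -
          x ^ 9 * (dt ψ t x * (χ x * u t x) +
          φ t x ^ 2 * dx L (dx L ψ) t x * dx L (dx L (fun τ x => χ x * u τ x)) t x)
          = B1 t x - B2 t x
      rw [e1, hprod ψ hψ.1 t ht x hx', hprod u hu.1 t ht x hx', hB1, hB2]
      ring
    have c1 : II L B1 ^ 2 ≤ nX κ L φ u * (C / L * nY κ L φ ψ) := by
      have h := II_cs (tstA hWu.sm hφuxx) tB1 (tstA hWi.sm (hbrT ψ hψ))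
        (fun t ht x hx => by
          have := hWp t ht x
          have := hx.1
          positivity)
        (fun t ht x hx => by
          have := hWp t ht x
          have := hx.1
          positivity)
        (fun t ht x hx => by
          have := (hWp t ht x).ne'
          rw [hB1]
          apply le_of_eq
          field_simp)
      refine h.trans ?_
      have hX : II L (fun t x => x ^ 9 * Wt κ t x * (φ t x * dx L (dx L u) t x) ^ 2)
          ≤ nX κ L φ u := by rw [hnX]; linarith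
      have hp : 0 ≤ II L (fun t x => x ^ 9 * (1 / Wt κ t x) *
          (φ t x * (2 * a x * dx L ψ t x + b x * ψ t x)) ^ 2) :=
        II_nonneg (fun t ht x hx => by
          have := hWp t ht x
          have := hx.1
          positivity)
      exact mul_le_mul hX cψ hp hnXp
    have c2 : II L B2 ^ 2 ≤ nY κ L φ ψ * (C / L * nX κ L φ u) := by
      have h := II_cs (tstA hWi.sm hφψxx) tB2 (tstA hWu.sm (hbrT u hu))
        (fun t ht x hx => by
          have := hWp t ht x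
          have := hx.1
          positivity)
        (fun t ht x hx => by
          have := hWp t ht x
          have := hx.1
          positivity)
        (fun t ht x hx => by
          have := (hWp t ht x).ne'
          rw [hB2]
          apply le_of_eq
          field_simp)
      refine h.trans ?_
      have hY : II L (fun t x => x ^ 9 * (1 / Wt κ t x) * (φ t x * dx L (dx L ψ) t x) ^ 2)
          ≤ nY κ L φ ψ := by rw [hnY]; linarith
      have hp : 0 ≤ II L (fun t x => x ^ 9 * Wt κ t x *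
          (φ t x * (2 * a x * dx L u t x + b x * u t x)) ^ 2) :=
        II_nonneg (fun t ht x hx => by
          have := hWp t ht x
          have := hx.1
          positivity)
      exact mul_le_mul hY cu hp hnYp
    rw [hdiff]
    have h3 : (II L B1 - II L B2) ^ 2 ≤ 2 * II L B1 ^ 2 + 2 * II L B2 ^ 2 := by
      nlinarith [sq_nonneg (II L B1 + II L B2)]
    have h4 : (2 * K0 ^ 2 + 4 * C) / L * nX κ L φ u * nY κ L φ ψ
        = 2 * (nX κ L φ u * (C / L * nY κ L φ ψ)) + 2 * (nY κ L φ ψ * (C / L * nX κ L φ u))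
          + 2 * K0 ^ 2 / L * nX κ L φ u * nY κ L φ ψ := by ring
    have h5 : 0 ≤ 2 * K0 ^ 2 / L * nX κ L φ u * nY κ L φ ψ := by positivity
    rw [h4]
    linarith

end Crest.Agent.R213.A
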