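import Crest.Agent.R213.A.Gard
import Crest.Agent.R213.A.Interp1
import Crest.Agent.R213.A.Loc

/-!
# Row 213, part A: gluing (`glue`): inner estimate + Gårding + localisation ⇒ a priori estimate
-/

set_option autoImplicit false

open Set MeasureTheory Filter Topology

noncomputable section

namespace Crest.Agent.R213.A

theorem glue {c0 C0 : ℝ} {g : ℝ → ℝ} (hg : Prof c0 C0 g) {κ C : ℝ}
    (hκ : κ ∈ Ioo (1 / 8 : ℝ) (1 / 4)) (hC : 0 ≤ C) (h : InnerOrig c0 C0 g κ C) :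
    ∃ L1 C' : ℝ, 0 ≤ C' ∧ 8 ≤ L1 ∧ ∀ L ≥ L1, ∀ φ m, Bg c0 C0 g L φ m → APE κ L C' φ := by
  obtain ⟨c, K, CG, hc, hK, hCG, hG⟩ := garding_full hg
  -- cut-off
  set χ0 : ℝ → ℝ := fun r => 1 - Real.smoothTransition (32 * r - 1) with hχ0
  have hχ : ContDiff ℝ (⊤ : ℕ∞) χ0 := by
    refine contDiff_const.sub (Real.smoothTransition.contDiff.comp ?_)
    fun_prop
  have hχ1 : ∀ r, r ≤ 1 / 32 → χ0 r = 1 := by
    intro r hr
    simp only [hχ0]
    rw [Real.smoothTransition.zero_of_nonpos (by linarith)]; ring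
  have hχ2 : ∀ r, 1 / 16 ≤ r → χ0 r = 0 := by
    intro r hr
    simp only [hχ0]
    rw [Real.smoothTransition.one_of_one_le (by linarith)]; ring
  obtain ⟨CL, hCL, hloc⟩ := loc hg hχ hχ1 hχ2
  refine ⟨max 8 (max (32 * (K + 1)) (8 * CG * C * CL / c)),
    2 / c * (CG / c + 2 * CG * C * CL), by positivity, le_max_left _ _, ?_⟩
  intro L hL φ m hB ψ hψ S hS hSu
  have hL8 : 8 ≤ L := (le_max_left _ _).trans hL
  have hL0 : 0 < L := by linarith
  have hLK : 32 * (K + 1) ≤ L := ((le_max_left _ _).trans (le_max_right _ _)).trans hL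
  have hLC : 8 * CG * C * CL / c ≤ L := ((le_max_right _ _).trans (le_max_right _ _)).trans hL
  have hφ := PhiB.of_Bg hB hg.c0_pos.le
  obtain ⟨hUT, hUX, hGB⟩ := hG κ hκ L hL8 φ m hB ψ hψ
  have hY0 : 0 ≤ nY κ L φ ψ := by
    rw [nYJ_eq hφ hψ]; exact add_nonneg J2_nonneg Jt_nonneg
  -- first term
  have hBU : BB L φ (fun τ x => ψ τ x / Wt κ τ x) ψ ≤
      ((c / 2 * nY κ L φ ψ) + (2 * CG * S / c)) / 2 := by
    apply prod_le_half (by positivity) (by positivity)
    calc BB L φ (fun τ x => ψ τ x / Wt κ τ x) ψ ^ 2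
        ≤ S * nX κ L φ (fun τ x => ψ τ x / Wt κ τ x) := hSu _ hUT
      _ ≤ S * (CG * nY κ L φ ψ) := mul_le_mul_of_nonneg_left hUX hS
      _ = c / 2 * nY κ L φ ψ * (2 * CG * S / c) := by field_simp
  -- localised function
  have hχψ : Tst L (fun τ x => χ0 (x / L) * ψ τ x) :=
    (hloc κ hκ L hL8 φ m hB ψ ψ hψ hψ).1
  have hX0 : ∀ u, 0 ≤ nX κ L φ u := by
    intro u
    refine II_nonneg fun t ht x hx => ?_
    have h1 := Mw_pos (κ := κ) (x := x) ht
    have h2 := hx.1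
    have h3 := ht.1
    rw [Wt_eq]
    positivity
  have hin : nY κ L φ (fun τ x => χ0 (x / L) * ψ τ x) ≤
      C * (2 * CL * S + 2 * (CL / L) * nY κ L φ ψ) := by
    refine h L hL8 φ m hB _ hχψ ?_ _ (by positivity) ?_
    · intro τ x hx
      have : 1 / 16 ≤ x / L := by
        rw [div_le_div_iff₀ (by norm_num) hL0]; linarith
      simp only [hχ2 _ this, zero_mul]
    · intro u hu
      obtain ⟨h1, h2, h3⟩ := hloc κ hκ L hL8 φ m hB u ψ hu hψ
      set a := BB L φ u (fun τ x => χ0 (x / L) * ψ τ x)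
      set b := BB L φ (fun τ x => χ0 (x / L) * u τ x) ψ
      have h4 : b ^ 2 ≤ S * (CL * nX κ L φ u) :=
        (hSu _ h1).trans (mul_le_mul_of_nonneg_left h2 hS)
      have h5 : a ^ 2 ≤ 2 * b ^ 2 + 2 * (a - b) ^ 2 := by nlinarith [sq_nonneg (a - 2 * b)]
      calc a ^ 2 ≤ 2 * b ^ 2 + 2 * (a - b) ^ 2 := h5
        _ ≤ 2 * (S * (CL * nX κ L φ u)) + 2 * (CL / L * nX κ L φ u * nY κ L φ ψ) := by linarith
        _ = (2 * CL * S + 2 * (CL / L) * nY κ L φ ψ) * nX κ L φ u := by ring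
  -- the inner region
  have hJ : II L (fun τ x => if x ^ 2 ≤ K * τ then x ^ 9 * ψ τ x ^ 2 / (τ * Wt κ τ x) else 0) ≤
      nY κ L φ (fun τ x => χ0 (x / L) * ψ τ x) := by
    rw [nYJ_eq hφ hχψ]
    have h1 : II L (fun τ x => if x ^ 2 ≤ K * τ then x ^ 9 * ψ τ x ^ 2 / (τ * Wt κ τ x) else 0) ≤
        Jt κ L (fun τ x => χ0 (x / L) * ψ τ x) := by
      have hSm : MeasurableSet {p : ℝ × ℝ | p.2 ^ 2 ≤ K * p.1} :=
        measurableSet_le (by fun_prop) (by fun_prop)
      have hF : IntegrableOn (fun p : ℝ × ℝ => if p.2 ^ 2 ≤ K * p.1 then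
          p.2 ^ 9 * ψ p.1 p.2 ^ 2 / (p.1 * Wt κ p.1 p.2) else 0) (I01 ×ˢ Ioo (0 : ℝ) L) := by
        have h := (tst_integrable (tjt (κ := κ) hψ)).indicator hSm
        refine h.congr (Filter.Eventually.of_forall fun p => ?_)
        simp only [indicator, mem_setOf_eq]
        split_ifs
        · rw [Wt_eq]
          simp only [div_eq_mul_inv, mul_inv, inv_inv]
          ring
        · rfl
      refine setIntegral_mono_on hF (tst_integrable (tjt hχψ)) meas_dom ?_
      rintro ⟨t, x⟩ ⟨ht, hx⟩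
      simp only
      have hM := Mw_pos (κ := κ) (x := x) ht
      have ht0 := ht.1
      have hx0 := hx.1
      split_ifs with h2
      · have hxK : x ≤ K + 1 := by
          by_contra hcon
          rw [not_le] at hcon
          have h5 : K * t ≤ K := by nlinarith [ht.2.le]
          nlinarith
        have h3 : x / L ≤ 1 / 32 := by
          rw [div_le_div_iff₀ hL0 (by norm_num)]; linarith
        rw [hχ1 _ h3, Wt_eq, one_mul]
        apply le_of_eq
        simp only [div_eq_mul_inv, mul_inv, inv_inv]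
        ring
      · positivity
    have h2 : 0 ≤ J2 κ L φ (fun τ x => χ0 (x / L) * ψ τ x) := J2_nonneg
    linarith
  have hfin : c * nY κ L φ ψ ≤ (c / 4 * nY κ L φ ψ + CG * S / c) +
      CG * (C * (2 * CL * S + 2 * (CL / L) * nY κ L φ ψ)) := by
    have h1 := mul_le_mul_of_nonneg_left (hJ.trans hin) hCG
    have h2 : ((c / 2 * nY κ L φ ψ) + (2 * CG * S / c)) / 2 = c / 4 * nY κ L φ ψ + CG * S / c := by
      ring
    linarith
  have hsmall : CG * (C * (2 * (CL / L) * nY κ L φ ψ)) ≤ c / 4 * nY κ L φ ψ := by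
    have h1 : CG * C * 2 * (CL / L) ≤ c / 4 := by
      rw [div_le_iff₀ hc] at hLC
      have : CG * C * 2 * (CL / L) = (2 * CG * C * CL) / L := by ring
      rw [this, div_le_div_iff₀ hL0 (by norm_num)]
      linarith
    calc CG * (C * (2 * (CL / L) * nY κ L φ ψ)) = (CG * C * 2 * (CL / L)) * nY κ L φ ψ := by ring
      _ ≤ c / 4 * nY κ L φ ψ := mul_le_mul_of_nonneg_right h1 hY0
  have h9 : c / 2 * nY κ L φ ψ ≤ (CG / c + 2 * CG * C * CL) * S := by
    have e : CG * (C * (2 * CL * S + 2 * (CL / L) * nY κ L φ ψ)) =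
      2 * CG * C * CL * S + CG * (C * (2 * (CL / L) * nY κ L φ ψ)) := by ring
    rw [e] at hfin
    have e2 : (CG / c + 2 * CG * C * CL) * S = CG * S / c + 2 * CG * C * CL * S := by ring
    rw [e2]
    linarith
  calc nY κ L φ ψ = 2 / c * (c / 2 * nY κ L φ ψ) := by field_simp
    _ ≤ 2 / c * ((CG / c + 2 * CG * C * CL) * S) := mul_le_mul_of_nonneg_left h9 (by positivity)
    _ = _ := by ring

end Crest.Agent.R213.A
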