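import Crest.Agent.R213.A.ADefs
import Crest.Agent.R213.J0

/-!
# Row 213, PART A: toolkit for `Tst`, `II`, `nX`, `nY` (helper795)
-/

set_option autoImplicit false

open Set MeasureTheory Filter Topology

noncomputable section

namespace Crest.Agent.R213.A.Kit

variable {L κ : ℝ} {u v φ ψ F F' : ℝ → ℝ → ℝ}

/-- admissible integrands: continuous on `(0,1)×[0,L]`, compact support in `τ` -/
def Cc (L : ℝ) (F : ℝ → ℝ → ℝ) : Prop :=
  ContinuousOn (fun p : ℝ × ℝ => F p.1 p.2) (Ioo 0 1 ×ˢ Icc 0 L) ∧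
    ∃ a b : ℝ, 0 < a ∧ a < b ∧ b < 1 ∧ ∀ τ x, τ ∉ Icc a b → F τ x = 0

/-! ### `Tst` -/

theorem tst_sm (hu : Tst L u) : Sm (Ioo 0 1) L u := hu.1

theorem tst_common (hu : Tst L u) (hv : Tst L v) :
    ∃ a b : ℝ, 0 < a ∧ a < b ∧ b < 1 ∧ (∀ τ x, τ ∉ Icc a b → u τ x = 0) ∧
      (∀ τ x, τ ∉ Icc a b → v τ x = 0) := by
  obtain ⟨_, a, b, ha, hab, hb, h⟩ := hu
  obtain ⟨_, a', b', ha', hab', hb', h'⟩ := hv
  refine ⟨min a a', max b b', lt_min ha ha', lt_of_le_of_lt (min_le_left _ _)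
    (lt_of_lt_of_le hab (le_max_left _ _)), max_lt hb hb', fun τ x hτ => h τ x ?_,
    fun τ x hτ => h' τ x ?_⟩
  · exact fun h1 => hτ ⟨(min_le_left _ _).trans h1.1, h1.2.trans (le_max_left _ _)⟩
  · exact fun h1 => hτ ⟨(min_le_right _ _).trans h1.1, h1.2.trans (le_max_right _ _)⟩

theorem tst_cc (hu : Tst L u) : Cc L u := ⟨hu.1.continuousOn, hu.2⟩

theorem tst_mul (hv : Sm (Ioo 0 1) L v) (hu : Tst L u) : Tst L (fun τ x => v τ x * u τ x) := by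
  obtain ⟨h1, a, b, ha, hab, hb, h⟩ := hu
  exact ⟨hv.mul h1, a, b, ha, hab, hb, fun τ x hτ => by simp [h τ x hτ]⟩

theorem tst_congr (hu : Tst L u) (h : ∀ τ ∈ Ioo (0 : ℝ) 1, ∀ x ∈ Icc 0 L, v τ x = u τ x)
    (h' : ∀ τ x, u τ x = 0 → v τ x = 0) : Tst L v := by
  obtain ⟨h1, a, b, ha, hab, hb, h2⟩ := hu
  exact ⟨h1.congr h, a, b, ha, hab, hb, fun τ x hτ => h' τ x (h2 τ x hτ)⟩

theorem tst_add (hu : Tst L u) (hv : Tst L v) : Tst L (fun τ x => u τ x + v τ x) := by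
  obtain ⟨a, b, ha, hab, hb, h, h'⟩ := tst_common hu hv
  exact ⟨hu.1.add hv.1, a, b, ha, hab, hb, fun τ x hτ => by simp [h τ x hτ, h' τ x hτ]⟩

theorem tst_sub (hu : Tst L u) (hv : Tst L v) : Tst L (fun τ x => u τ x - v τ x) := by
  obtain ⟨a, b, ha, hab, hb, h, h'⟩ := tst_common hu hv
  exact ⟨hu.1.sub hv.1, a, b, ha, hab, hb, fun τ x hτ => by simp [h τ x hτ, h' τ x hτ]⟩

theorem tst_const_mul (c : ℝ) (hu : Tst L u) : Tst L (fun τ x => c * u τ x) :=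
  tst_mul (Sm.const c) hu

theorem tst_zero : Tst L (fun _ _ => 0) :=
  ⟨Sm.const 0, 1 / 4, 1 / 2, by norm_num, by norm_num, by norm_num, fun _ _ _ => rfl⟩

theorem dx_zero_of {τ : ℝ} (h : ∀ x, u τ x = 0) (x : ℝ) : dx L u τ x = 0 := by
  unfold dx
  have : (fun y => u τ y) = fun _ => 0 := funext h
  rw [this]; simp

theorem dt_zero_of {a b τ : ℝ} (h : ∀ τ x, τ ∉ Icc a b → u τ x = 0) (hτ : τ ∉ Icc a b) (x : ℝ) :
    dt u τ x = 0 := by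
  unfold dt
  have h1 : (fun r => u r x) =ᶠ[𝓝 τ] fun _ => 0 := by
    filter_upwards [isClosed_Icc.isOpen_compl.mem_nhds hτ] with r hr
    exact h r x hr
  rw [h1.deriv_eq]; simp

theorem tst_dx (hL : 0 < L) (hu : Tst L u) : Tst L (dx L u) := by
  obtain ⟨h1, a, b, ha, hab, hb, h⟩ := hu
  exact ⟨Sm.dx isOpen_Ioo hL h1, a, b, ha, hab, hb,
    fun τ x hτ => dx_zero_of (fun y => h τ y hτ) x⟩

theorem tst_dt (hL : 0 < L) (hu : Tst L u) : Tst L (dt u) := by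
  obtain ⟨h1, a, b, ha, hab, hb, h⟩ := hu
  exact ⟨Sm.dt isOpen_Ioo hL h1, a, b, ha, hab, hb, fun τ x hτ => dt_zero_of h hτ x⟩

/-! ### `Cc` closure -/

theorem cc_mul (hv : ContinuousOn (fun p : ℝ × ℝ => v p.1 p.2) (Ioo 0 1 ×ˢ Icc 0 L))
    (hF : Cc L F) : Cc L (fun τ x => v τ x * F τ x) := by
  obtain ⟨h1, a, b, ha, hab, hb, h⟩ := hF
  exact ⟨hv.mul h1, a, b, ha, hab, hb, fun τ x hτ => by simp [h τ x hτ]⟩

theorem cc_mul_right (hv : ContinuousOn (fun p : ℝ × ℝ => v p.1 p.2) (Ioo 0 1 ×ˢ Icc 0 L))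
    (hF : Cc L F) : Cc L (fun τ x => F τ x * v τ x) := by
  obtain ⟨h1, a, b, ha, hab, hb, h⟩ := hF
  exact ⟨h1.mul hv, a, b, ha, hab, hb, fun τ x hτ => by simp [h τ x hτ]⟩

theorem cc_add (hF : Cc L F) (hF' : Cc L F') : Cc L (fun τ x => F τ x + F' τ x) := by
  obtain ⟨h1, a, b, ha, hab, hb, h⟩ := hF
  obtain ⟨h1', a', b', ha', hab', hb', h'⟩ := hF'
  refine ⟨h1.add h1', min a a', max b b', lt_min ha ha', lt_of_le_of_lt (min_le_left _ _)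
    (lt_of_lt_of_le hab (le_max_left _ _)), max_lt hb hb', fun τ x hτ => ?_⟩
  show F τ x + F' τ x = 0
  rw [h τ x (fun h1 => hτ ⟨(min_le_left _ _).trans h1.1, h1.2.trans (le_max_left _ _)⟩),
    h' τ x (fun h1 => hτ ⟨(min_le_right _ _).trans h1.1, h1.2.trans (le_max_right _ _)⟩), add_zero]

theorem cc_const_mul (c : ℝ) (hF : Cc L F) : Cc L (fun τ x => c * F τ x) :=
  cc_mul (v := fun _ _ => c) continuousOn_const hF

theorem cc_neg (hF : Cc L F) : Cc L (fun τ x => - F τ x) := by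
  have := cc_const_mul (-1) hF
  simpa using this

theorem cc_sub (hF : Cc L F) (hF' : Cc L F') : Cc L (fun τ x => F τ x - F' τ x) := by
  have := cc_add hF (cc_neg hF')
  simpa [sub_eq_add_neg] using this

theorem cc_mul_cc (hF : Cc L F) (hF' : Cc L F') : Cc L (fun τ x => F τ x * F' τ x) :=
  cc_mul hF.1 hF'

theorem cc_sq (hF : Cc L F) : Cc L (fun τ x => F τ x ^ 2) := by
  have := cc_mul_cc hF hF
  simpa [sq] using this

theorem cc_abs (hF : Cc L F) : Cc L (fun τ x => |F τ x|) := by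
  obtain ⟨h1, a, b, ha, hab, hb, h⟩ := hF
  exact ⟨h1.abs, a, b, ha, hab, hb, fun τ x hτ => by simp [h τ x hτ]⟩

theorem cont_snd : ContinuousOn (fun p : ℝ × ℝ => p.2) (Ioo 0 1 ×ˢ Icc 0 L) :=
  continuous_snd.continuousOn

theorem cc_x9 (hF : Cc L F) : Cc L (fun τ x => x ^ 9 * F τ x) :=
  cc_mul (v := fun _ x => x ^ 9) (continuous_snd.pow 9).continuousOn hF

theorem cc_congr (hF : Cc L F) (h : ∀ τ ∈ Ioo (0 : ℝ) 1, ∀ x ∈ Icc 0 L, F' τ x = F τ x)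
    (h' : ∀ τ x, F τ x = 0 → F' τ x = 0) : Cc L F' := by
  obtain ⟨h1, a, b, ha, hab, hb, h2⟩ := hF
  exact ⟨h1.congr (fun p hp => h p.1 hp.1 p.2 hp.2), a, b, ha, hab, hb,
    fun τ x hτ => h' τ x (h2 τ x hτ)⟩

/-! ### Integrability and Fubini -/

theorem cc_integrableOn (hF : Cc L F) :
    IntegrableOn (fun p : ℝ × ℝ => F p.1 p.2) (Ioo (0 : ℝ) 1 ×ˢ Icc (0 : ℝ) L) := by
  obtain ⟨h1, a, b, ha, hab, hb, h⟩ := hF
  have hsub : Icc a b ×ˢ Icc 0 L ⊆ Ioo (0 : ℝ) 1 ×ˢ Icc 0 L := by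
    rintro ⟨t, x⟩ ⟨h2, h3⟩
    exact ⟨⟨ha.trans_le h2.1, h2.2.trans_lt hb⟩, h3⟩
  have hc : IntegrableOn (fun p : ℝ × ℝ => F p.1 p.2) (Icc a b ×ˢ Icc 0 L) :=
    (h1.mono hsub).integrableOn_compact (isCompact_Icc.prod isCompact_Icc)
  refine hc.of_forall_sdiff_eq_zero (measurableSet_Ioo.prod measurableSet_Icc) ?_
  rintro ⟨t, x⟩ ⟨⟨h2, h3⟩, h4⟩
  exact h t x (fun h5 => h4 ⟨h5, h3⟩)

theorem cc_integrableOn' (hF : Cc L F) :
    IntegrableOn (fun p : ℝ × ℝ => F p.1 p.2) (Ioo (0 : ℝ) 1 ×ˢ Ioo (0 : ℝ) L) :=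
  (cc_integrableOn hF).mono_set (prod_mono Subset.rfl Ioo_subset_Icc_self)

theorem II_add (hF : Cc L F) (hF' : Cc L F') :
    II L (fun τ x => F τ x + F' τ x) = II L F + II L F' := by
  unfold II
  exact integral_add (cc_integrableOn' hF) (cc_integrableOn' hF')

theorem II_sub (hF : Cc L F) (hF' : Cc L F') :
    II L (fun τ x => F τ x - F' τ x) = II L F - II L F' := by
  unfold II
  exact integral_sub (cc_integrableOn' hF) (cc_integrableOn' hF')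

theorem II_const_mul (c : ℝ) (F : ℝ → ℝ → ℝ) : II L (fun τ x => c * F τ x) = c * II L F := by
  unfold II
  exact integral_const_mul c _

theorem II_neg (F : ℝ → ℝ → ℝ) : II L (fun τ x => - F τ x) = - II L F := by
  unfold II
  exact integral_neg _

theorem measurable_dom : MeasurableSet (Ioo (0 : ℝ) 1 ×ˢ Ioo (0 : ℝ) L) :=
  measurableSet_Ioo.prod measurableSet_Ioo

theorem II_congr (h : ∀ τ ∈ Ioo (0 : ℝ) 1, ∀ x ∈ Ioo 0 L, F τ x = F' τ x) : II L F = II L F' := by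
  unfold II
  exact setIntegral_congr_fun measurable_dom (fun p hp => h p.1 hp.1 p.2 hp.2)

theorem II_nonneg (h : ∀ τ ∈ Ioo (0 : ℝ) 1, ∀ x ∈ Ioo 0 L, 0 ≤ F τ x) : 0 ≤ II L F := by
  unfold II
  exact setIntegral_nonneg measurable_dom (fun p hp => h p.1 hp.1 p.2 hp.2)

theorem II_mono (hF : Cc L F) (hF' : Cc L F')
    (h : ∀ τ ∈ Ioo (0 : ℝ) 1, ∀ x ∈ Ioo 0 L, F τ x ≤ F' τ x) : II L F ≤ II L F' := by
  unfold II
  exact setIntegral_mono_on (cc_integrableOn' hF) (cc_integrableOn' hF') measurable_dom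
    (fun p hp => h p.1 hp.1 p.2 hp.2)

/-- Fubini, `τ` outside -/
theorem II_fubini (hL : 0 ≤ L) (hF : Cc L F) :
    II L F = ∫ τ in (0 : ℝ)..1, ∫ x in (0 : ℝ)..L, F τ x := by
  have h1 := cc_integrableOn' hF
  unfold II
  rw [Measure.volume_eq_prod] at h1 ⊢
  rw [setIntegral_prod _ h1, intervalIntegral.integral_of_le zero_le_one, integral_Ioc_eq_integral_Ioo]
  refine setIntegral_congr_fun measurableSet_Ioo (fun τ _ => ?_)
  show _ = ∫ x in (0 : ℝ)..L, F τ x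
  rw [intervalIntegral.integral_of_le hL, integral_Ioc_eq_integral_Ioo]

/-- Fubini, `x` outside -/
theorem II_fubini' (hL : 0 ≤ L) (hF : Cc L F) :
    II L F = ∫ x in (0 : ℝ)..L, ∫ τ in (0 : ℝ)..1, F τ x := by
  have h1 := cc_integrableOn' hF
  have h2 : IntegrableOn (fun p : ℝ × ℝ => F p.2 p.1) (Ioo (0 : ℝ) L ×ˢ Ioo (0 : ℝ) 1) := by
    rw [IntegrableOn, Measure.volume_eq_prod, ← Measure.prod_restrict] at h1 ⊢
    exact h1.swap
  unfold II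
  rw [Measure.volume_eq_prod] at h2 ⊢
  have h3 : ∫ p in Ioo (0 : ℝ) 1 ×ˢ Ioo (0 : ℝ) L, F p.1 p.2 ∂(volume.prod volume) =
      ∫ p in Ioo (0 : ℝ) L ×ˢ Ioo (0 : ℝ) 1, F p.2 p.1 ∂(volume.prod volume) := by
    rw [← Measure.prod_restrict, ← Measure.prod_restrict]
    exact (integral_prod_swap (fun p : ℝ × ℝ => F p.1 p.2)).symm
  rw [h3, setIntegral_prod _ h2, intervalIntegral.integral_of_le hL, integral_Ioc_eq_integral_Ioo]
  refine setIntegral_congr_fun measurableSet_Ioo (fun x _ => ?_)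
  show _ = ∫ τ in (0 : ℝ)..1, F τ x
  rw [intervalIntegral.integral_of_le zero_le_one, integral_Ioc_eq_integral_Ioo]

/-- comparison of `II` from comparison of the `x`-integrals at every time -/
theorem II_le_of_slice (hL : 0 ≤ L) (hF : Cc L F) (hF' : Cc L F')
    (h : ∀ τ ∈ Ioo (0 : ℝ) 1, ∫ x in (0 : ℝ)..L, F τ x ≤ ∫ x in (0 : ℝ)..L, F' τ x) :
    II L F ≤ II L F' := by
  have h1 := cc_integrableOn' hF
  have h2 := cc_integrableOn' hF'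
  unfold II
  rw [Measure.volume_eq_prod] at h1 h2 ⊢
  rw [setIntegral_prod _ h1, setIntegral_prod _ h2]
  rw [IntegrableOn, ← Measure.prod_restrict] at h1 h2
  refine setIntegral_mono_on h1.integral_prod_left h2.integral_prod_left measurableSet_Ioo
    (fun τ hτ => ?_)
  have h3 := h τ hτ
  rw [intervalIntegral.integral_of_le hL, intervalIntegral.integral_of_le hL,
    integral_Ioc_eq_integral_Ioo, integral_Ioc_eq_integral_Ioo] at h3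
  exact h3

/-- Cauchy–Schwarz -/
theorem II_cs (hF : Cc L F) (hF' : Cc L F') :
    II L (fun τ x => F τ x * F' τ x) ^ 2 ≤
      II L (fun τ x => F τ x ^ 2) * II L (fun τ x => F' τ x ^ 2) := by
  set A := II L (fun τ x => F τ x ^ 2) with hA
  set B := II L (fun τ x => F τ x * F' τ x) with hB
  set D := II L (fun τ x => F' τ x ^ 2) with hD
  have key : ∀ r : ℝ, 0 ≤ A * (r * r) + (2 * B) * r + D := by
    intro r
    have h1 : II L (fun τ x => (r * F τ x + F' τ x) ^ 2) = r ^ 2 * A + 2 * r * B + D := by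
      have e1 := cc_const_mul (r ^ 2) (cc_sq hF)
      have e2 := cc_const_mul (2 * r) (cc_mul_cc hF hF')
      have e3 := cc_sq hF'
      calc II L (fun τ x => (r * F τ x + F' τ x) ^ 2)
          = II L (fun τ x => (r ^ 2 * F τ x ^ 2 + 2 * r * (F τ x * F' τ x)) + F' τ x ^ 2) :=
            II_congr (fun τ _ x _ => by ring)
        _ = _ := by
            rw [II_add (cc_add e1 e2) e3, II_add e1 e2, II_const_mul, II_const_mul]
    have h2 : 0 ≤ II L (fun τ x => (r * F τ x + F' τ x) ^ 2) :=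
      II_nonneg (fun _ _ _ _ => sq_nonneg _)
    rw [h1] at h2
    nlinarith [h2]
  have := discrim_le_zero key
  unfold discrim at this
  nlinarith [this]

/-! ### the weight and the background -/

theorem Wt_pos {τ x : ℝ} (hτ : 0 < τ) : 0 < Wt κ τ x := by
  unfold Wt
  have : 0 < x ^ 2 + τ := by positivity
  positivity

theorem sm_Wt : Sm (Ioo 0 1) L (Wt κ) := by
  unfold Wt
  refine Sm.div (u := fun τ _ => τ ^ (2 * κ)) (v := fun τ x => (x ^ 2 + τ) ^ 60) ?_ ?_ ?_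
  · exact Sm.rpow (u := fun τ _ => τ) Sm.fst (2 * κ) (fun τ hτ x _ => hτ.1.ne')
  · exact Sm.pow (u := fun τ x => x ^ 2 + τ) (Sm.add (Sm.pow Sm.snd 2) Sm.fst) 60
  · intro τ hτ x _
    have := hτ.1
    positivity

theorem sm_rho : Sm (Ioo 0 1) L (fun τ x => x ^ 2 + τ) := Sm.add (Sm.pow Sm.snd 2) Sm.fst

theorem sm_Wt_inv : Sm (Ioo 0 1) L (fun τ x => (Wt κ τ x)⁻¹) :=
  Sm.inv sm_Wt (fun τ hτ x _ => (Wt_pos hτ.1).ne')

theorem cont_of_sm (hu : Sm (Ioo 0 1) L u) :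
    ContinuousOn (fun p : ℝ × ℝ => u p.1 p.2) (Ioo 0 1 ×ˢ Icc 0 L) := ContDiffOn.continuousOn hu

section bg

variable {c0 C0 : ℝ} {g : ℝ → ℝ} {m : ℝ → ℝ → ℝ}

theorem bg_sm (hB : Bg c0 C0 g L φ m) : Sm (Ioo 0 1) L φ := by
  have h : Sm (Ioo 0 1) L (fun τ x => x * (1 - x / L) * m τ x) := by
    refine Sm.mul (u := fun _ x => x * (1 - x / L)) ?_ hB.sm
    exact Sm.of_right (by fun_prop)
  exact h.congr (fun t ht x hx => hB.phi_eq t ht x hx)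

theorem bg_Lpos (hB : Bg c0 C0 g L φ m) : 0 < L := by linarith [hB.L_ge]

theorem bg_m_nonneg_of (hB : Bg c0 C0 g L φ m) (h0 : 0 ≤ c0) {τ x : ℝ} (hτ : τ ∈ Ioo (0 : ℝ) 1)
    (hx : x ∈ Icc 0 L) : 0 ≤ m τ x := h0.trans (hB.lower τ hτ x hx)

theorem bg_phi_nonneg (hB : Bg c0 C0 g L φ m) (h0 : 0 ≤ c0) {τ x : ℝ} (hτ : τ ∈ Ioo (0 : ℝ) 1)
    (hx : x ∈ Icc 0 L) : 0 ≤ φ τ x := by
  rw [hB.phi_eq τ hτ x hx]
  have h1 := bg_m_nonneg_of hB h0 hτ hx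
  have h2 : 0 ≤ 1 - x / L := by
    rw [sub_nonneg, div_le_one (bg_Lpos hB)]; exact hx.2
  have := hx.1
  positivity

theorem bg_phi_le (hB : Bg c0 C0 g L φ m) (h0 : 0 ≤ c0) {τ x : ℝ} (hτ : τ ∈ Ioo (0 : ℝ) 1)
    (hx : x ∈ Icc 0 L) : φ τ x ≤ C0 * x := by
  rw [hB.phi_eq τ hτ x hx]
  have h1 := bg_m_nonneg_of hB h0 hτ hx
  have h2 : 0 ≤ 1 - x / L := by
    rw [sub_nonneg, div_le_one (bg_Lpos hB)]; exact hx.2
  have h3 : 1 - x / L ≤ 1 := by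
    have := div_nonneg hx.1 (bg_Lpos hB).le
    linarith
  have h4 := hB.upper τ hτ x hx
  have h5 := hx.1
  calc x * (1 - x / L) * m τ x ≤ x * 1 * m τ x := by gcongr
    _ ≤ x * 1 * C0 := by gcongr
    _ = C0 * x := by ring

theorem bg_phi_zero (hB : Bg c0 C0 g L φ m) {τ : ℝ} (hτ : τ ∈ Ioo (0 : ℝ) 1) : φ τ 0 = 0 := by
  rw [hB.phi_eq τ hτ 0 ⟨le_rfl, (bg_Lpos hB).le⟩]; simp

theorem bg_phi_L (hB : Bg c0 C0 g L φ m) {τ : ℝ} (hτ : τ ∈ Ioo (0 : ℝ) 1) : φ τ L = 0 := by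
  rw [hB.phi_eq τ hτ L ⟨(bg_Lpos hB).le, le_rfl⟩, div_self (bg_Lpos hB).ne']; simp

end bg

/-! ### the integrands of `BB`, `nX`, `nY` -/

theorem cc_BB (hL : 0 < L) (hφ : Sm (Ioo 0 1) L φ) (hu : Tst L u) (hψ : Tst L ψ) :
    Cc L (fun τ x => x ^ 9 * (dt ψ τ x * u τ x +
      φ τ x ^ 2 * dx L (dx L ψ) τ x * dx L (dx L u) τ x)) := by
  refine cc_x9 (cc_add (cc_mul_cc (tst_cc (tst_dt hL hψ)) (tst_cc hu)) ?_)
  have h1 : Cc L (fun τ x => φ τ x ^ 2 * dx L (dx L ψ) τ x) :=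
    cc_mul (v := fun τ x => φ τ x ^ 2) (cont_of_sm (hφ.pow 2)) (tst_cc (tst_dx hL (tst_dx hL hψ)))
  exact cc_mul_cc h1 (tst_cc (tst_dx hL (tst_dx hL hu)))

theorem cc_nX1 (hL : 0 < L) (hφ : Sm (Ioo 0 1) L φ) (hu : Tst L u) :
    Cc L (fun τ x => x ^ 9 * (Wt κ τ x * (φ τ x * dx L (dx L u) τ x) ^ 2)) :=
  cc_x9 (cc_mul (cont_of_sm sm_Wt)
    (cc_sq (cc_mul (cont_of_sm hφ) (tst_cc (tst_dx hL (tst_dx hL hu))))))

theorem cc_nX2 (hu : Tst L u) : Cc L (fun τ x => x ^ 9 * (Wt κ τ x / τ * u τ x ^ 2)) := by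
  refine cc_x9 (cc_mul (v := fun τ x => Wt κ τ x / τ) ?_ (cc_sq (tst_cc hu)))
  exact cont_of_sm (Sm.div sm_Wt Sm.fst (fun τ hτ x _ => hτ.1.ne'))

theorem cc_nY1 (hL : 0 < L) (hφ : Sm (Ioo 0 1) L φ) (hψ : Tst L ψ) :
    Cc L (fun τ x => x ^ 9 * ((φ τ x * dx L (dx L ψ) τ x) ^ 2 / Wt κ τ x)) := by
  have h1 := cc_sq (cc_mul (cont_of_sm hφ) (tst_cc (tst_dx hL (tst_dx hL hψ))))
  have h2 := cc_mul_right (cont_of_sm (sm_Wt_inv (κ := κ))) h1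
  simpa [div_eq_mul_inv] using cc_x9 h2

theorem cc_nY2 (hψ : Tst L ψ) : Cc L (fun τ x => x ^ 9 * (ψ τ x ^ 2 / (τ * Wt κ τ x))) := by
  have h1 : ContinuousOn (fun p : ℝ × ℝ => (p.1 * Wt κ p.1 p.2)⁻¹) (Ioo 0 1 ×ˢ Icc 0 L) :=
    cont_of_sm (Sm.inv (Sm.mul Sm.fst sm_Wt)
      (fun τ hτ x _ => (mul_pos hτ.1 (Wt_pos hτ.1)).ne'))
  have h2 := cc_mul_right (v := fun τ x => (τ * Wt κ τ x)⁻¹) h1 (cc_sq (tst_cc hψ))
  simpa [div_eq_mul_inv] using cc_x9 h2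

theorem nX_split (hL : 0 < L) (hφ : Sm (Ioo 0 1) L φ) (hu : Tst L u) :
    nX κ L φ u = II L (fun τ x => x ^ 9 * (Wt κ τ x * (φ τ x * dx L (dx L u) τ x) ^ 2)) +
      II L (fun τ x => x ^ 9 * (Wt κ τ x / τ * u τ x ^ 2)) := by
  rw [← II_add (cc_nX1 hL hφ hu) (cc_nX2 hu)]
  unfold nX
  exact II_congr (fun τ _ x _ => by ring)

theorem nY_split (hL : 0 < L) (hφ : Sm (Ioo 0 1) L φ) (hψ : Tst L ψ) :
    nY κ L φ ψ = II L (fun τ x => x ^ 9 * ((φ τ x * dx L (dx L ψ) τ x) ^ 2 / Wt κ τ x)) +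
      II L (fun τ x => x ^ 9 * (ψ τ x ^ 2 / (τ * Wt κ τ x))) := by
  rw [← II_add (cc_nY1 hL hφ hψ) (cc_nY2 hψ)]
  unfold nY
  exact II_congr (fun τ _ x _ => by ring)

theorem cc_nX (hL : 0 < L) (hφ : Sm (Ioo 0 1) L φ) (hu : Tst L u) :
    Cc L (fun τ x => x ^ 9 * (Wt κ τ x * (φ τ x * dx L (dx L u) τ x) ^ 2 +
      Wt κ τ x / τ * u τ x ^ 2)) := by
  have := cc_add (cc_nX1 (κ := κ) hL hφ hu) (cc_nX2 (κ := κ) hu)
  refine cc_congr this (fun τ _ x _ => by ring) (fun τ x h => by rw [← h]; ring)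

theorem cc_nY (hL : 0 < L) (hφ : Sm (Ioo 0 1) L φ) (hψ : Tst L ψ) :
    Cc L (fun τ x => x ^ 9 * ((φ τ x * dx L (dx L ψ) τ x) ^ 2 / Wt κ τ x +
      ψ τ x ^ 2 / (τ * Wt κ τ x))) := by
  have := cc_add (cc_nY1 (κ := κ) hL hφ hψ) (cc_nY2 (κ := κ) hψ)
  refine cc_congr this (fun τ _ x _ => by ring) (fun τ x h => by rw [← h]; ring)

theorem nX_nonneg : 0 ≤ nX κ L φ u := by
  unfold nX
  refine II_nonneg (fun τ hτ x hx => ?_)
  have h1 := Wt_pos (κ := κ) (x := x) hτ.1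
  have h2 := hx.1
  have h3 := hτ.1
  positivity

theorem nY_nonneg : 0 ≤ nY κ L φ ψ := by
  unfold nY
  refine II_nonneg (fun τ hτ x hx => ?_)
  have h1 := Wt_pos (κ := κ) (x := x) hτ.1
  have h2 := hx.1
  have h3 := hτ.1
  positivity

/-- `N2` as a real integral -/
theorem N2_eq {V : ℝ → ℝ → ℝ} (hV : ∀ τ ∈ Ioo (0 : ℝ) 1, ∀ x ∈ Ioo 0 L, 0 ≤ V τ x)
    (hF : Cc L (fun τ x => V τ x * x ^ 9 * u τ x ^ 2)) :
    N2 L V u = ENNReal.ofReal (II L (fun τ x => V τ x * x ^ 9 * u τ x ^ 2)) := by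
  unfold N2 II
  rw [ofReal_integral_eq_lintegral_ofReal (cc_integrableOn' hF)]
  filter_upwards [ae_restrict_mem measurable_dom] with p hp
  have := hV p.1 hp.1 p.2 hp.2
  have := hp.2.1
  positivity

theorem N2_nX (hL : 0 < L) (hφ : Sm (Ioo 0 1) L φ) (hu : Tst L u) :
    N2 L (Wt κ) (fun τ x => φ τ x * dx L (dx L u) τ x) + N2 L (Wt' κ) u =
      ENNReal.ofReal (nX κ L φ u) := by
  have e1 : Cc L (fun τ x => Wt κ τ x * x ^ 9 * (φ τ x * dx L (dx L u) τ x) ^ 2) :=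
    cc_congr (cc_nX1 (κ := κ) hL hφ hu) (fun τ _ x _ => by ring)
      (fun τ x h => by rw [← h]; ring)
  have e2 : Cc L (fun τ x => Wt' κ τ x * x ^ 9 * u τ x ^ 2) :=
    cc_congr (cc_nX2 (κ := κ) hu) (fun τ _ x _ => by unfold Wt'; ring)
      (fun τ x h => by rw [← h]; unfold Wt'; ring)
  rw [N2_eq (fun τ hτ x _ => (Wt_pos hτ.1).le) e1,
    N2_eq (V := Wt' κ) (fun τ hτ x _ => (div_pos (Wt_pos hτ.1) hτ.1).le) e2, nX_split hL hφ hu,
    ENNReal.ofReal_add]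
  · congr 1
    · congr 1
      exact II_congr (fun τ _ x _ => by ring)
    · congr 1
      exact II_congr (fun τ _ x _ => by unfold Wt'; ring)
  · refine II_nonneg (fun τ hτ x hx => ?_)
    have h1 := Wt_pos (κ := κ) (x := x) hτ.1
    have h2 := hx.1
    positivity
  · refine II_nonneg (fun τ hτ x hx => ?_)
    have h1 := Wt_pos (κ := κ) (x := x) hτ.1
    have h2 := hx.1
    have h3 := hτ.1
    positivity

end Crest.Agent.R213.A.Kit
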