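import Mathlib

/-!
# Row 213, Part A, block A5 (A-SPEC)

Abstract theorem: Gårding inequality + Rellich-type compactness imply that only finitely many
spectral parameters are bad, and that on every good line the a-priori estimate is uniform.
-/

set_option autoImplicit false

open Filter Topology Set
open scoped InnerProductSpace

noncomputable section

namespace Crest.Agent.R213.A

/-- Data and hypotheses of the abstract spectral theorem. `ι P` is the test element in the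
(energy) Hilbert space, `b Q` the Riesz vector of `B₀(Q,·)`, `j Q` the Riesz vector of the mass
form `m(Q,·)` in `H`, `nX Q` the norm of the test element in the other space. -/
structure SpecData (E HY H : Type*)
    [NormedAddCommGroup HY] [InnerProductSpace ℂ HY]
    [NormedAddCommGroup H] [InnerProductSpace ℂ H] where
  ι : E → HY
  J : HY →L[ℂ] H
  b : E → HY
  j : E → H
  nX : E → ℝ
  k : HY → ℝ
  c : ℝ
  C : ℝ
  α₁ : ℝ
  c_pos : 0 < c
  C_nonneg : 0 ≤ C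
  dens : ∀ e : HY, (∀ Q, ⟪j Q, J e⟫_ℂ = 0) → e = 0
  garding : ∀ (e : HY) (f : H), (∀ Q, ⟪b Q, e⟫_ℂ = ⟪j Q, f⟫_ℂ) →
    c * ‖e‖ ^ 2 + α₁ * ‖J e‖ ^ 2 ≤ (⟪J e, f⟫_ℂ).re + C * (k e) ^ 2
  gardingD : ∀ (P : E) (α ω M : ℝ), α ≤ α₁ → 0 ≤ M →
    (∀ Q, ‖⟪b Q, ι P⟫_ℂ - ((α : ℂ) + ω * Complex.I) * ⟪j Q, J (ι P)⟫_ℂ‖ ≤ M * nX Q) →
    c * ‖ι P‖ ^ 2 ≤ C * M * ‖ι P‖ + C * (k (ι P)) ^ 2
  compact : ∀ ε > 0, ∃ (N : ℕ) (f : Fin N → H) (C' : ℝ), 0 ≤ C' ∧
    ∀ e, (k e) ^ 2 ≤ ε * ‖e‖ ^ 2 + C' * ∑ i, ‖⟪f i, J e⟫_ℂ‖ ^ 2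

variable {E HY H : Type*}
    [NormedAddCommGroup HY] [InnerProductSpace ℂ HY]
    [NormedAddCommGroup H] [InnerProductSpace ℂ H]

namespace SpecData

variable (D : SpecData E HY H)

/-- generalized eigenvector equation -/
def Eig (lam : ℂ) (e : HY) : Prop := ∀ Q, ⟪D.b Q, e⟫_ℂ = lam * ⟪D.j Q, D.J e⟫_ℂ

/-- the relation `A e = f` -/
def Rel (e : HY) (f : H) : Prop := ∀ Q, ⟪D.b Q, e⟫_ℂ = ⟪D.j Q, f⟫_ℂ

lemma J_inj {e : HY} (h : D.J e = 0) : e = 0 := D.dens e (by intro Q; simp [h])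

lemma Eig.rel {D : SpecData E HY H} {lam : ℂ} {e : HY} (h : D.Eig lam e) :
    D.Rel e (lam • D.J e) := by
  intro Q
  rw [h Q, inner_smul_right]

lemma Rel.add {D : SpecData E HY H} {e e' : HY} {f f' : H} (h : D.Rel e f) (h' : D.Rel e' f') :
    D.Rel (e + e') (f + f') := by
  intro Q; rw [inner_add_right, inner_add_right, h Q, h' Q]

lemma Rel.smul {D : SpecData E HY H} {e : HY} {f : H} (h : D.Rel e f) (a : ℂ) :
    D.Rel (a • e) (a • f) := by
  intro Q; rw [inner_smul_right, inner_smul_right, h Q]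

lemma rel_zero : D.Rel 0 0 := by intro Q; simp

/-- polynomial action on a relation between eigenvectors -/
lemma sum_poly_eq_zero {ιι : Type*} (s : Finset ιι) (lam : ιι → ℂ) (e : ιι → HY)
    (he : ∀ i, D.Eig (lam i) (e i)) (c : ιι → ℂ) (h0 : ∑ i ∈ s, c i • e i = 0)
    (p : Polynomial ℂ) : ∑ i ∈ s, (c i * p.eval (lam i)) • e i = 0 := by
  -- first: multiplication by X preserves the property
  have key : ∀ d : ιι → ℂ, ∑ i ∈ s, d i • e i = 0 → ∑ i ∈ s, (d i * lam i) • e i = 0 := by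
    intro d hd
    apply D.dens
    intro Q
    have h1 : ⟪D.b Q, ∑ i ∈ s, d i • e i⟫_ℂ = 0 := by rw [hd]; simp
    rw [inner_sum] at h1
    rw [map_sum, inner_sum, ← h1]
    refine Finset.sum_congr rfl fun i _ => ?_
    rw [map_smul, inner_smul_right, inner_smul_right, he i Q]; ring
  have hpow : ∀ n : ℕ, ∀ a : ℂ, ∑ i ∈ s, (c i * (a * lam i ^ n)) • e i = 0 := by
    intro n
    induction n with
    | zero =>
      intro a
      have : ∑ i ∈ s, (c i * (a * lam i ^ 0)) • e i = a • ∑ i ∈ s, c i • e i := by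
        rw [Finset.smul_sum]
        refine Finset.sum_congr rfl fun i _ => ?_
        rw [smul_smul]; congr 1; ring
      rw [this, h0, smul_zero]
    | succ n ih =>
      intro a
      have := key _ (ih a)
      rw [← this]
      refine Finset.sum_congr rfl fun i _ => ?_
      congr 1; ring
  induction p using Polynomial.induction_on' with
  | add p q hp hq =>
    have : ∑ i ∈ s, (c i * (p + q).eval (lam i)) • e i =
        ∑ i ∈ s, (c i * p.eval (lam i)) • e i + ∑ i ∈ s, (c i * q.eval (lam i)) • e i := by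
      rw [← Finset.sum_add_distrib]
      refine Finset.sum_congr rfl fun i _ => ?_
      rw [← add_smul, Polynomial.eval_add]; congr 1; ring
    rw [this, hp, hq, add_zero]
  | monomial n a =>
    simpa [Polynomial.eval_monomial] using hpow n a

lemma linearIndependent_J {ιι : Type*} (lam : ιι → ℂ) (hl : Function.Injective lam)
    (e : ιι → HY) (he : ∀ i, D.Eig (lam i) (e i)) (he0 : ∀ i, e i ≠ 0) :
    LinearIndependent ℂ (fun i => D.J (e i)) := by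
  classical
  rw [linearIndependent_iff']
  intro s c h i hi
  have h0 : ∑ i ∈ s, c i • e i = 0 := by
    apply D.J_inj
    rw [map_sum]
    simpa using h
  have h1 := D.sum_poly_eq_zero s lam e he c h0
    (∏ k ∈ s.erase i, (Polynomial.X - Polynomial.C (lam k)))
  rw [Finset.sum_eq_single i] at h1
  · rcases smul_eq_zero.1 h1 with h2 | h2
    · rcases mul_eq_zero.1 h2 with h3 | h3
      · exact h3
      · exfalso
        rw [Polynomial.eval_prod, Finset.prod_eq_zero_iff] at h3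
        obtain ⟨k, hk, hk0⟩ := h3
        simp only [Polynomial.eval_sub, Polynomial.eval_X, Polynomial.eval_C] at hk0
        have := hl (sub_eq_zero.1 hk0)
        exact (Finset.ne_of_mem_erase hk) this.symm
    · exact absurd h2 (he0 i)
  · intro k hk hki
    have : (∏ k ∈ s.erase i, (Polynomial.X - Polynomial.C (lam k))).eval (lam k) = 0 := by
      rw [Polynomial.eval_prod, Finset.prod_eq_zero_iff]
      exact ⟨k, Finset.mem_erase.2 ⟨hki, hk⟩, by simp⟩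
    rw [this, mul_zero, zero_smul]
  · intro hn; exact absurd hi hn

/-- In the span of eigenvectors one can solve the relation inside the same span. -/
lemma rel_of_mem_span {ιι : Type*} (lam : ιι → ℂ) (e : ιι → HY)
    (he : ∀ i, D.Eig (lam i) (e i)) (S : Set ιι) (g : H)
    (hg : g ∈ Submodule.span ℂ ((fun i => D.J (e i)) '' S)) :
    ∃ e' : HY, D.J e' = g ∧ ∃ f ∈ Submodule.span ℂ ((fun i => D.J (e i)) '' S), D.Rel e' f := by
  induction hg using Submodule.span_induction with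
  | mem x hx =>
    obtain ⟨i, hi, rfl⟩ := hx
    refine ⟨e i, rfl, lam i • D.J (e i), ?_, (he i).rel⟩
    exact Submodule.smul_mem _ _ (Submodule.subset_span ⟨i, hi, rfl⟩)
  | zero => exact ⟨0, by simp, 0, Submodule.zero_mem _, D.rel_zero⟩
  | add x y _ _ hx hy =>
    obtain ⟨e1, h1, f1, m1, r1⟩ := hx
    obtain ⟨e2, h2, f2, m2, r2⟩ := hy
    exact ⟨e1 + e2, by rw [map_add, h1, h2], f1 + f2, Submodule.add_mem _ m1 m2, r1.add r2⟩
  | smul a x _ hx =>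
    obtain ⟨e1, h1, f1, m1, r1⟩ := hx
    exact ⟨a • e1, by rw [map_smul, h1], a • f1, Submodule.smul_mem _ _ m1, r1.smul a⟩

/-- The triangularised eigenvectors: `w = J g` with `⟪w, f⟫ = lam ‖w‖²` for `A g = f`. -/
lemma exists_triangular (lam : ℕ → ℂ) (e : ℕ → HY)
    (he : ∀ i, D.Eig (lam i) (e i)) (n : ℕ) :
    ∃ g : HY, D.J g = InnerProductSpace.gramSchmidt ℂ (fun i => D.J (e i)) n ∧
      ∃ f : H, D.Rel g f ∧ ⟪D.J g, f⟫_ℂ = lam n * (‖D.J g‖ : ℂ) ^ 2 := by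
  classical
  set v : ℕ → H := fun i => D.J (e i) with hv
  set w := InnerProductSpace.gramSchmidt ℂ v with hw
  -- the correction term
  have hdef := InnerProductSpace.gramSchmidt_def'' ℂ v n
  set r : H := ∑ i ∈ Finset.Iio n, (⟪w i, v n⟫_ℂ / (‖w i‖ : ℂ) ^ 2) • w i with hr
  have hspan : Submodule.span ℂ (w '' Set.Iio n) = Submodule.span ℂ (v '' Set.Iio n) :=
    InnerProductSpace.span_gramSchmidt_Iio ℂ v n
  have hrm : -r ∈ Submodule.span ℂ (v '' Set.Iio n) := by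
    rw [← hspan]
    refine Submodule.neg_mem _ (Submodule.sum_mem _ fun i hi => Submodule.smul_mem _ _ ?_)
    exact Submodule.subset_span ⟨i, by simpa using hi, rfl⟩
  obtain ⟨e', h1, f', hf', hrel⟩ := D.rel_of_mem_span lam e he (Set.Iio n) (-r) hrm
  have hJ : D.J (e n + e') = w n := by
    rw [map_add, h1]
    have : v n = w n + r := hdef
    change v n + -r = w n
    rw [this]; abel
  refine ⟨e n + e', hJ, lam n • D.J (e n) + f', ((he n).rel).add hrel, ?_⟩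
  -- orthogonality of w n to the span
  have horth : ∀ x ∈ Submodule.span ℂ (v '' Set.Iio n), ⟪w n, x⟫_ℂ = 0 := by
    intro x hx
    rw [← hspan] at hx
    induction hx using Submodule.span_induction with
    | mem x hx =>
      obtain ⟨i, hi, rfl⟩ := hx
      exact InnerProductSpace.gramSchmidt_orthogonal ℂ v (ne_of_gt hi)
    | zero => simp
    | add x y _ _ hx hy => rw [inner_add_right, hx, hy, add_zero]
    | smul a x _ hx => rw [inner_smul_right, hx, mul_zero]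
  have hJn : D.J (e n) = w n + r := hdef
  have hrm' : r ∈ Submodule.span ℂ (v '' Set.Iio n) := by
    have := Submodule.neg_mem _ hrm; simpa using this
  rw [hJ, hJn, inner_add_right, inner_smul_right, inner_add_right, horth _ hf', horth _ hrm',
    inner_self_eq_norm_sq_to_K]
  simp

/-- (FINITE) only finitely many eigenvalues with real part `≤ α₁`. -/
theorem bad_finite :
    {lam : ℂ | lam.re ≤ D.α₁ ∧ ∃ e : HY, e ≠ 0 ∧ D.Eig lam e}.Finite := by
  classical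
  by_contra hinf
  have hinf' : {lam : ℂ | lam.re ≤ D.α₁ ∧ ∃ e : HY, e ≠ 0 ∧ D.Eig lam e}.Infinite := hinf
  -- an injective sequence
  have hemb := hinf'.natEmbedding
  set lam : ℕ → ℂ := fun n => (hemb n : ℂ) with hlam
  have hinj : Function.Injective lam := fun a b h => hemb.injective (Subtype.ext h)
  have hre : ∀ n, (lam n).re ≤ D.α₁ := fun n => (hemb n).2.1
  choose e he0 he using fun n => (hemb n).2.2
  have hli := D.linearIndependent_J lam hinj e he he0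
  set v : ℕ → H := fun i => D.J (e i) with hv
  set w := InnerProductSpace.gramSchmidt ℂ v with hw
  have hw0 : ∀ n, w n ≠ 0 := fun n => InnerProductSpace.gramSchmidt_ne_zero n hli
  -- constants
  obtain ⟨N, f, C', hC', hcomp⟩ := D.compact (D.c / (2 * (D.C + 1)))
    (by have := D.c_pos; have := D.C_nonneg; positivity)
  -- for every n: lower bound for the sum
  have hlow : ∀ n, D.c / 2 * ‖w n‖ ^ 2 ≤
      (‖D.J‖ ^ 2) * (D.C * C' * ∑ i, ‖⟪f i, w n⟫_ℂ‖ ^ 2) := by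
    intro n
    obtain ⟨g, hg, f', hrel, hin⟩ := D.exists_triangular lam e he n
    have h1 := D.garding g f' hrel
    have h2 : (⟪D.J g, f'⟫_ℂ).re ≤ D.α₁ * ‖D.J g‖ ^ 2 := by
      rw [hin]
      have : lam n * (‖D.J g‖ : ℂ) ^ 2 = lam n * ((‖D.J g‖ ^ 2 : ℝ) : ℂ) := by push_cast; ring
      rw [this, Complex.re_mul_ofReal]
      exact mul_le_mul_of_nonneg_right (hre n) (by positivity)
    have h3 : D.c * ‖g‖ ^ 2 ≤ D.C * (D.k g) ^ 2 := by linarith
    have h4 := hcomp g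
    have h5 : D.C * (D.k g) ^ 2 ≤ D.C * (D.c / (2 * (D.C + 1)) * ‖g‖ ^ 2
        + C' * ∑ i, ‖⟪f i, D.J g⟫_ℂ‖ ^ 2) := mul_le_mul_of_nonneg_left h4 D.C_nonneg
    have h6 : D.C * (D.c / (2 * (D.C + 1)) * ‖g‖ ^ 2) ≤ D.c / 2 * ‖g‖ ^ 2 := by
      have hC := D.C_nonneg
      have hc := D.c_pos
      have : D.C * (D.c / (2 * (D.C + 1))) ≤ D.c / 2 := by
        rw [mul_div_assoc', div_le_div_iff₀ (by positivity) (by positivity)]
        nlinarith [mul_nonneg hC hc.le]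
      calc D.C * (D.c / (2 * (D.C + 1)) * ‖g‖ ^ 2)
          = (D.C * (D.c / (2 * (D.C + 1)))) * ‖g‖ ^ 2 := by ring
        _ ≤ D.c / 2 * ‖g‖ ^ 2 := mul_le_mul_of_nonneg_right this (by positivity)
    have h7 : D.c / 2 * ‖g‖ ^ 2 ≤ D.C * C' * ∑ i, ‖⟪f i, D.J g⟫_ℂ‖ ^ 2 := by
      have : D.C * (C' * ∑ i, ‖⟪f i, D.J g⟫_ℂ‖ ^ 2) = D.C * C' * ∑ i, ‖⟪f i, D.J g⟫_ℂ‖ ^ 2 := by
        ring
      linarith
    have hJg : D.J g = w n := hg
    rw [hJg] at h7
    have h8 : ‖w n‖ ≤ ‖D.J‖ * ‖g‖ := by rw [← hJg]; exact D.J.le_opNorm g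
    have h9 : ‖w n‖ ^ 2 ≤ ‖D.J‖ ^ 2 * ‖g‖ ^ 2 := by
      rw [← mul_pow]; exact pow_le_pow_left₀ (norm_nonneg _) h8 2
    calc D.c / 2 * ‖w n‖ ^ 2 ≤ D.c / 2 * (‖D.J‖ ^ 2 * ‖g‖ ^ 2) :=
          mul_le_mul_of_nonneg_left h9 (by have := D.c_pos; positivity)
      _ = ‖D.J‖ ^ 2 * (D.c / 2 * ‖g‖ ^ 2) := by ring
      _ ≤ _ := mul_le_mul_of_nonneg_left h7 (by positivity)
  -- normalise
  have hon : Orthonormal ℂ (InnerProductSpace.gramSchmidtNormed ℂ v) :=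
    InnerProductSpace.gramSchmidtNormed_orthonormal hli
  set u := InnerProductSpace.gramSchmidtNormed ℂ v with hu
  have hlow' : ∀ n, D.c / 2 ≤ (‖D.J‖ ^ 2) * (D.C * C' * ∑ i, ‖⟪f i, u n⟫_ℂ‖ ^ 2) := by
    intro n
    have h1 := hlow n
    have hpos : 0 < ‖w n‖ ^ 2 := by have := norm_pos_iff.2 (hw0 n); positivity
    have hun : ∀ i, ‖⟪f i, u n⟫_ℂ‖ ^ 2 = ‖⟪f i, w n⟫_ℂ‖ ^ 2 / ‖w n‖ ^ 2 := by
      intro i
      have : u n = ((‖w n‖ : ℂ))⁻¹ • w n := rfl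
      rw [this, inner_smul_right, norm_mul, mul_pow, norm_inv, Complex.norm_real, norm_norm,
        inv_pow]
      field_simp
    simp_rw [hun]
    rw [← Finset.sum_div]
    have : ‖D.J‖ ^ 2 * (D.C * C' * ((∑ i, ‖⟪f i, w n⟫_ℂ‖ ^ 2) / ‖w n‖ ^ 2)) =
        (‖D.J‖ ^ 2 * (D.C * C' * ∑ i, ‖⟪f i, w n⟫_ℂ‖ ^ 2)) / ‖w n‖ ^ 2 := by ring
    rw [this, le_div_iff₀ hpos]
    exact h1
  -- sum over n < m and Bessel
  have hsum : ∀ m : ℕ, (m : ℝ) * (D.c / 2) ≤
      (‖D.J‖ ^ 2) * (D.C * C' * ∑ i, ‖f i‖ ^ 2) := by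
    intro m
    calc (m : ℝ) * (D.c / 2) = ∑ n ∈ Finset.range m, D.c / 2 := by simp
      _ ≤ ∑ n ∈ Finset.range m, (‖D.J‖ ^ 2) * (D.C * C' * ∑ i, ‖⟪f i, u n⟫_ℂ‖ ^ 2) :=
          Finset.sum_le_sum fun n _ => hlow' n
      _ = (‖D.J‖ ^ 2) * (D.C * C' * ∑ i, ∑ n ∈ Finset.range m, ‖⟪f i, u n⟫_ℂ‖ ^ 2) := by
          rw [Finset.sum_comm, Finset.mul_sum, Finset.mul_sum]
      _ ≤ _ := by
          have hC := D.C_nonneg
          refine mul_le_mul_of_nonneg_left (mul_le_mul_of_nonneg_left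
            (Finset.sum_le_sum fun i _ => ?_) (by positivity)) (by positivity)
          have := hon.sum_inner_products_le (f i) (s := Finset.range m)
          refine le_trans (le_of_eq ?_) this
          refine Finset.sum_congr rfl fun n _ => ?_
          rw [norm_inner_symm]
  obtain ⟨m, hm⟩ := exists_nat_gt (((‖D.J‖ ^ 2) * (D.C * C' * ∑ i, ‖f i‖ ^ 2)) / (D.c / 2))
  have := hsum m
  rw [div_lt_iff₀ (by have := D.c_pos; positivity)] at hm
  linarith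

/-- weak ultralimit of a bounded sequence in a Hilbert space -/
lemma exists_weak_lim [CompleteSpace HY] (U : Ultrafilter ℕ) (z : ℕ → HY)
    (hz : ∀ n, ‖z n‖ ≤ 1) :
    ∃ p : HY, ∀ x : HY, Tendsto (fun n => ⟪x, z n⟫_ℂ) U (𝓝 ⟪x, p⟫_ℂ) := by
  have hcpt := WeakDual.isCompact_closedBall (𝕜 := ℂ) (E := HY) 0 1
  set F : ℕ → WeakDual ℂ HY :=
    fun n => StrongDual.toWeakDual (InnerProductSpace.toDual ℂ HY (z n)) with hFdef
  have hF : ∀ n, F n ∈ (WeakDual.toStrongDual ⁻¹' Metric.closedBall (0 : StrongDual ℂ HY) 1) := by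
    intro n
    simp only [hFdef, mem_preimage, Metric.mem_closedBall, dist_zero_right]
    change ‖InnerProductSpace.toDual ℂ HY (z n)‖ ≤ 1
    simpa using hz n
  have hle : (U.map F : Filter (WeakDual ℂ HY)) ≤
      𝓟 (WeakDual.toStrongDual ⁻¹' Metric.closedBall (0 : StrongDual ℂ HY) 1) := by
    rw [Filter.le_principal_iff]
    exact Filter.mem_map.2 (Filter.univ_mem' hF)
  obtain ⟨q, -, hq⟩ := hcpt.ultrafilter_le_nhds (U.map F) hle
  refine ⟨(InnerProductSpace.toDual ℂ HY).symm (WeakDual.toStrongDual q), fun x => ?_⟩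
  have h1 : Tendsto F U (𝓝 q) := hq
  have h2 : Tendsto (fun n => F n x) U (𝓝 (q x)) :=
    ((WeakDual.eval_continuous x).tendsto q).comp h1
  have h3 : ∀ n, F n x = ⟪z n, x⟫_ℂ := fun n => by
    change InnerProductSpace.toDual ℂ HY (z n) x = _
    rw [InnerProductSpace.toDual_apply_apply]
  have h4 : q x = ⟪(InnerProductSpace.toDual ℂ HY).symm (WeakDual.toStrongDual q), x⟫_ℂ := by
    rw [InnerProductSpace.toDual_symm_apply]; rfl
  have h5 : Tendsto (fun n => ⟪z n, x⟫_ℂ) U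
      (𝓝 ⟪(InnerProductSpace.toDual ℂ HY).symm (WeakDual.toStrongDual q), x⟫_ℂ) := by
    rw [← h4]; exact h2.congr h3
  have h6 := (Complex.continuous_conj.tendsto _).comp h5
  rw [inner_conj_symm] at h6
  refine h6.congr fun n => ?_
  simp only [Function.comp_apply, inner_conj_symm]

/-- (ESTIMATE) on a good line the a-priori estimate is uniform in the frequency. -/
theorem good_line [CompleteSpace HY] (α : ℝ) (hα : α ≤ D.α₁)
    (hgood : ∀ ω : ℝ, ∀ e : HY, D.Eig ((α : ℂ) + ω * Complex.I) e → e = 0) :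
    ∃ C : ℝ, 0 ≤ C ∧ ∀ (ω : ℝ) (P : E) (M : ℝ), 0 ≤ M →
      (∀ Q, ‖⟪D.b Q, D.ι P⟫_ℂ - ((α : ℂ) + ω * Complex.I) * ⟪D.j Q, D.J (D.ι P)⟫_ℂ‖ ≤ M * D.nX Q) →
      ‖D.ι P‖ ≤ C * M := by
  classical
  by_contra hcon
  push Not at hcon
  have hc := D.c_pos
  have hC0 := D.C_nonneg
  -- a bad sequence
  have hseq : ∀ n : ℕ, ∃ (ω : ℝ) (P : E) (M : ℝ), 0 ≤ M ∧
      (∀ Q, ‖⟪D.b Q, D.ι P⟫_ℂ - ((α : ℂ) + ω * Complex.I) * ⟪D.j Q, D.J (D.ι P)⟫_ℂ‖ ≤ M * D.nX Q) ∧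
      (n + 1 : ℝ) * M < ‖D.ι P‖ := fun n => hcon (n + 1) (by positivity)
  choose ω P M hM hest hbig using hseq
  have hpos : ∀ n, 0 < ‖D.ι (P n)‖ := fun n =>
    lt_of_le_of_lt (mul_nonneg (by positivity) (hM n)) (hbig n)
  -- normalised vectors
  set z : ℕ → HY := fun n => ((‖D.ι (P n)‖⁻¹ : ℝ) : ℂ) • D.ι (P n) with hz
  have hz1 : ∀ n, ‖z n‖ = 1 := by
    intro n
    rw [hz]; simp only [norm_smul, Complex.norm_real, norm_inv, norm_norm]
    exact inv_mul_cancel₀ (hpos n).ne'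
  -- compactness data
  obtain ⟨N, f, C', hC', hcomp⟩ := D.compact (D.c / (4 * (D.C + 1))) (by positivity)
  -- functional estimates for z
  have hzQ : ∀ n Q, ‖⟪D.b Q, z n⟫_ℂ - ((α : ℂ) + ω n * Complex.I) * ⟪D.j Q, D.J (z n)⟫_ℂ‖ ≤
      (1 / (n + 1 : ℝ)) * |D.nX Q| := by
    intro n Q
    have h1 := hest n Q
    have h2 : ⟪D.b Q, z n⟫_ℂ - ((α : ℂ) + ω n * Complex.I) * ⟪D.j Q, D.J (z n)⟫_ℂ =
        ((‖D.ι (P n)‖⁻¹ : ℝ) : ℂ) * (⟪D.b Q, D.ι (P n)⟫_ℂ -
          ((α : ℂ) + ω n * Complex.I) * ⟪D.j Q, D.J (D.ι (P n))⟫_ℂ) := by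
      rw [hz]; simp only [map_smul, inner_smul_right]; ring
    rw [h2, norm_mul, Complex.norm_real, norm_inv, norm_norm]
    have h3 : M n * D.nX Q ≤ M n * |D.nX Q| := mul_le_mul_of_nonneg_left (le_abs_self _) (hM n)
    have h4 : ‖D.ι (P n)‖⁻¹ * M n ≤ 1 / (n + 1 : ℝ) := by
      rw [inv_mul_eq_div, div_le_div_iff₀ (hpos n) (by positivity)]
      have := (hbig n).le
      nlinarith
    calc ‖D.ι (P n)‖⁻¹ * _ ≤ ‖D.ι (P n)‖⁻¹ * (M n * |D.nX Q|) :=
          mul_le_mul_of_nonneg_left (h1.trans h3) (by have := hpos n; positivity)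
      _ = (‖D.ι (P n)‖⁻¹ * M n) * |D.nX Q| := by ring
      _ ≤ _ := mul_le_mul_of_nonneg_right h4 (abs_nonneg _)
  -- lower bound
  have hlow : ∀ n : ℕ, 3 * D.c / 4 ≤ D.C * (1 / (n + 1 : ℝ)) +
      D.C * C' * ∑ i, ‖⟪f i, D.J (z n)⟫_ℂ‖ ^ 2 := by
    intro n
    have h1 := D.gardingD (P n) α (ω n) (M n) hα (hM n) (hest n)
    have h2 := hcomp (D.ι (P n))
    have hp := hpos n
    have h3 : ∀ i, ‖⟪f i, D.J (z n)⟫_ℂ‖ ^ 2 =
        ‖⟪f i, D.J (D.ι (P n))⟫_ℂ‖ ^ 2 / ‖D.ι (P n)‖ ^ 2 := by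
      intro i
      rw [hz]; simp only [map_smul, inner_smul_right, norm_mul, Complex.norm_real, norm_inv,
        norm_norm, mul_pow, inv_pow]
      field_simp
    simp_rw [h3]
    rw [← Finset.sum_div]
    set S := ∑ i, ‖⟪f i, D.J (D.ι (P n))⟫_ℂ‖ ^ 2 with hS
    set x := ‖D.ι (P n)‖ with hx
    have hb := hbig n
    have h4 : D.c * x ^ 2 ≤ D.C * M n * x + D.C * (D.c / (4 * (D.C + 1)) * x ^ 2 + C' * S) := by
      have := mul_le_mul_of_nonneg_left h2 hC0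
      linarith
    have h5 : D.C * (D.c / (4 * (D.C + 1)) * x ^ 2) ≤ D.c / 4 * x ^ 2 := by
      have : D.C * (D.c / (4 * (D.C + 1))) ≤ D.c / 4 := by
        rw [mul_div_assoc', div_le_div_iff₀ (by positivity) (by positivity)]
        nlinarith [mul_nonneg hC0 hc.le]
      calc D.C * (D.c / (4 * (D.C + 1)) * x ^ 2)
          = (D.C * (D.c / (4 * (D.C + 1)))) * x ^ 2 := by ring
        _ ≤ D.c / 4 * x ^ 2 := mul_le_mul_of_nonneg_right this (by positivity)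
    have h6 : 3 * D.c / 4 * x ^ 2 ≤ D.C * M n * x + D.C * C' * S := by nlinarith
    have h7 : M n * x ≤ (1 / (n + 1 : ℝ)) * x ^ 2 := by
      have : M n ≤ (1 / (n + 1 : ℝ)) * x := by
        rw [one_div, inv_mul_eq_div, le_div_iff₀ (by positivity)]
        linarith
      calc M n * x ≤ ((1 / (n + 1 : ℝ)) * x) * x := mul_le_mul_of_nonneg_right this hp.le
        _ = _ := by ring
    have h8 : 3 * D.c / 4 * x ^ 2 ≤ (D.C * (1 / (n + 1 : ℝ)) + D.C * C' * (S / x ^ 2)) * x ^ 2 := by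
      have e1 : (D.C * (1 / (n + 1 : ℝ)) + D.C * C' * (S / x ^ 2)) * x ^ 2 =
          D.C * ((1 / (n + 1 : ℝ)) * x ^ 2) + D.C * C' * S := by
        field_simp
      rw [e1]
      have := mul_le_mul_of_nonneg_left h7 hC0
      nlinarith
    exact le_of_mul_le_mul_right h8 (by positivity)
  -- the ultralimit
  set U : Ultrafilter ℕ := Filter.hyperfilter ℕ with hU
  have hUtop : (U : Filter ℕ) ≤ atTop := by
    rw [← Nat.cofinite_eq_atTop]; exact Filter.hyperfilter_le_cofinite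
  obtain ⟨p, hp⟩ := exists_weak_lim U z (fun n => (hz1 n).le)
  -- J z n converges weakly
  have hJp : ∀ x : H, Tendsto (fun n => ⟪x, D.J (z n)⟫_ℂ) U (𝓝 ⟪x, D.J p⟫_ℂ) := by
    intro x
    -- represent y ↦ ⟪x, J y⟫ by Riesz on HY
    set q : HY := (InnerProductSpace.toDual ℂ HY).symm ((innerSL ℂ x).comp D.J) with hq
    have h1 : ∀ y, ⟪q, y⟫_ℂ = ⟪x, D.J y⟫_ℂ := by
      intro y
      rw [hq, InnerProductSpace.toDual_symm_apply]; simp
    have := hp q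
    simpa only [h1] using this
  have hinv : Tendsto (fun n : ℕ => (1 / (n + 1 : ℝ))) U (𝓝 0) :=
    tendsto_one_div_add_atTop_nhds_zero_nat.mono_left hUtop
  have hp0 : p ≠ 0 := by
    intro hp0
    have h1 : Tendsto (fun n : ℕ => D.C * (1 / (n + 1 : ℝ)) +
        D.C * C' * ∑ i, ‖⟪f i, D.J (z n)⟫_ℂ‖ ^ 2) U
        (𝓝 (D.C * 0 + D.C * C' * ∑ i, ‖⟪f i, D.J p⟫_ℂ‖ ^ 2)) := by
      refine (hinv.const_mul _).add (Tendsto.const_mul _ ?_)
      exact tendsto_finsetSum _ fun i _ => ((hJp (f i)).norm).pow 2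
    have h2 := ge_of_tendsto h1 (Filter.Eventually.of_forall hlow)
    rw [hp0] at h2
    simp at h2
    linarith
  -- the difference tends to zero
  have hdiff : ∀ Q, Tendsto (fun n => ⟪D.b Q, z n⟫_ℂ -
      ((α : ℂ) + ω n * Complex.I) * ⟪D.j Q, D.J (z n)⟫_ℂ) U (𝓝 0) := by
    intro Q
    apply squeeze_zero_norm (fun n => hzQ n Q)
    have := hinv.mul_const |D.nX Q|
    simpa using this
  by_cases hbd : ∃ R : ℝ, ∀ᶠ n in (U : Filter ℕ), |ω n| ≤ R
  · obtain ⟨R, hR⟩ := hbd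
    -- bounded frequencies converge
    obtain ⟨ω₀, hω₀⟩ : ∃ ω₀ : ℝ, Tendsto ω U (𝓝 ω₀) := by
      have hcpt : IsCompact (Set.Icc (-R) R) := isCompact_Icc
      obtain ⟨ω₀, -, h⟩ := hcpt.ultrafilter_le_nhds (U.map ω) (by
        rw [Filter.le_principal_iff]
        change {n | ω n ∈ Set.Icc (-R) R} ∈ (U : Filter ℕ)
        filter_upwards [hR] with n hn
        exact abs_le.1 hn)
      exact ⟨ω₀, h⟩
    apply hp0
    apply hgood ω₀ p
    intro Q
    have h1 : Tendsto (fun n => ⟪D.b Q, z n⟫_ℂ -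
        ((α : ℂ) + ω n * Complex.I) * ⟪D.j Q, D.J (z n)⟫_ℂ) U
        (𝓝 (⟪D.b Q, p⟫_ℂ - ((α : ℂ) + ω₀ * Complex.I) * ⟪D.j Q, D.J p⟫_ℂ)) := by
      refine (hp _).sub (Tendsto.mul ?_ (hJp _))
      refine tendsto_const_nhds.add (Tendsto.mul_const _ ?_)
      exact (Complex.continuous_ofReal.tendsto ω₀).comp hω₀
    have := tendsto_nhds_unique h1 (hdiff Q)
    exact sub_eq_zero.1 this
  · -- unbounded frequencies: mass form vanishes
    push Not at hbd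
    have hR : ∀ R : ℝ, ∀ᶠ n in (U : Filter ℕ), R < |ω n| := by
      exact hbd
    have habs : Tendsto (fun n => |ω n|) U atTop := by
      rw [Filter.tendsto_atTop]
      intro R
      filter_upwards [hR R] with n hn using hn.le
    apply hp0
    apply D.dens
    intro Q
    -- numerator bounded
    have h1 : Tendsto (fun n => ⟪D.b Q, z n⟫_ℂ - (α : ℂ) * ⟪D.j Q, D.J (z n)⟫_ℂ -
        (⟪D.b Q, z n⟫_ℂ - ((α : ℂ) + ω n * Complex.I) * ⟪D.j Q, D.J (z n)⟫_ℂ)) U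
        (𝓝 (⟪D.b Q, p⟫_ℂ - (α : ℂ) * ⟪D.j Q, D.J p⟫_ℂ - 0)) :=
      (((hp _).sub ((hJp _).const_mul _))).sub (hdiff Q)
    have h2 : Tendsto (fun n => (|ω n|)⁻¹) U (𝓝 0) := tendsto_inv_atTop_zero.comp habs
    have h3 : Tendsto (fun n => (|ω n|)⁻¹ * ‖⟪D.b Q, z n⟫_ℂ - (α : ℂ) * ⟪D.j Q, D.J (z n)⟫_ℂ -
        (⟪D.b Q, z n⟫_ℂ - ((α : ℂ) + ω n * Complex.I) * ⟪D.j Q, D.J (z n)⟫_ℂ)‖) U
        (𝓝 (0 * ‖⟪D.b Q, p⟫_ℂ - (α : ℂ) * ⟪D.j Q, D.J p⟫_ℂ - 0‖)) := h2.mul h1.norm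
    rw [zero_mul] at h3
    have h4 : Tendsto (fun n => ‖⟪D.j Q, D.J (z n)⟫_ℂ‖) U (𝓝 0) := by
      refine h3.congr' ?_
      filter_upwards [hR 0] with n hn
      have e1 : ⟪D.b Q, z n⟫_ℂ - (α : ℂ) * ⟪D.j Q, D.J (z n)⟫_ℂ -
        (⟪D.b Q, z n⟫_ℂ - ((α : ℂ) + ω n * Complex.I) * ⟪D.j Q, D.J (z n)⟫_ℂ) =
          (ω n * Complex.I) * ⟪D.j Q, D.J (z n)⟫_ℂ := by ring
      rw [e1, norm_mul, norm_mul, Complex.norm_real, Complex.norm_I, mul_one, Real.norm_eq_abs,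
        ← mul_assoc, inv_mul_cancel₀ hn.ne', one_mul]
    have h5 := (hJp (D.j Q)).norm
    have h6 := tendsto_nhds_unique h5 h4
    exact norm_eq_zero.1 h6

/-- Combination: an exponent `κ ∈ (1/8,1/4)` whose line `Re = 65/2 - κ` is good, with a uniform
estimate. -/
theorem exists_good_kappa [CompleteSpace HY] (hα₁ : (65 : ℝ) / 2 - 1 / 8 ≤ D.α₁) :
    ∃ κ ∈ Set.Ioo (1 / 8 : ℝ) (1 / 4), ∃ C : ℝ, 0 ≤ C ∧ ∀ (ω : ℝ) (P : E) (M : ℝ), 0 ≤ M →
      (∀ Q, ‖⟪D.b Q, D.ι P⟫_ℂ - (((65 / 2 - κ : ℝ) : ℂ) + ω * Complex.I) *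
        ⟪D.j Q, D.J (D.ι P)⟫_ℂ‖ ≤ M * D.nX Q) →
      ‖D.ι P‖ ≤ C * M := by
  have hfin := D.bad_finite
  have hfin' := (hfin.image (fun lam : ℂ => 65 / 2 - lam.re))
  obtain ⟨κ, hκ, hκ'⟩ := ((Set.Ioo_infinite (show (1 / 8 : ℝ) < 1 / 4 by norm_num)).sdiff
    hfin').nonempty
  refine ⟨κ, hκ, ?_⟩
  apply D.good_line (65 / 2 - κ) (by linarith [hκ.1])
  intro ω e he
  by_contra hne
  apply hκ'
  refine ⟨((65 / 2 - κ : ℝ) : ℂ) + ω * Complex.I, ⟨?_, e, hne, he⟩, ?_⟩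
  · simp only [Complex.add_re, Complex.ofReal_re, Complex.mul_re, Complex.I_re, mul_zero,
      Complex.ofReal_im, Complex.I_im, mul_one, sub_self, add_zero]
    linarith [hκ.1]
  · simp

end SpecData

end Crest.Agent.R213.A
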