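import Crest.Agent.R213.A.StForm

/-!
# Row 213, Part A: bounds for multiplied test functions
-/

set_option autoImplicit false

open Set MeasureTheory Filter Topology
open scoped InnerProductSpace ENNReal

noncomputable section

namespace Crest.Agent.R213.A.St

variable {c0 C0 : ℝ} {g : ℝ → ℝ}

lemma norm_sq_three (a b c : ℂ) : ‖a + b + c‖ ^ 2 ≤ 3 * (‖a‖ ^ 2 + ‖b‖ ^ 2 + ‖c‖ ^ 2) := by
  have h := norm_add₃_le (a := a) (b := b) (c := c)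
  have h0 : 0 ≤ ‖a + b + c‖ := norm_nonneg _
  nlinarith [sq_nonneg (‖a‖ - ‖b‖), sq_nonneg (‖a‖ - ‖c‖), sq_nonneg (‖b‖ - ‖c‖),
    norm_nonneg a, norm_nonneg b, norm_nonneg c]

/-- pure algebra: `p = T^60`, `q = T^58` -/
lemma alg1 {y T p q g C0 A V0 V1 V2 a b c N : ℝ} (hy : 0 < y) (hT : 0 < T) (hyT : y ^ 2 ≤ T)
    (hp : 0 < p) (hq : 0 < q) (hg : g ^ 2 ≤ C0 ^ 2)
    (h0 : V0 ^ 2 ≤ p * p) (h1 : V1 ^ 2 ≤ A ^ 2 * (y ^ 2 * (p * q))) (h2 : V2 ^ 2 ≤ A ^ 2 * (p * q))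
    (ha : 0 ≤ a) (hb : 0 ≤ b) (hc : 0 ≤ c)
    (hN : N ≤ 3 * (V2 ^ 2 * a + 2 ^ 2 * V1 ^ 2 * b + V0 ^ 2 * c)) :
    y ^ 9 / p * ((y * g) ^ 2 * N) ≤
      3 * A ^ 2 * C0 ^ 2 * (y ^ 9 * (q * T) * a) + 12 * A ^ 2 * (y ^ 13 * g ^ 2 * q * b) +
        3 * (y ^ 11 * g ^ 2 * p * c) := by
  have hgn : 0 ≤ g ^ 2 := sq_nonneg g
  have e1 : y ^ 9 / p * ((y * g) ^ 2 * (3 * (V2 ^ 2 * a))) ≤
      3 * A ^ 2 * C0 ^ 2 * (y ^ 9 * (q * T) * a) := by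
    calc y ^ 9 / p * ((y * g) ^ 2 * (3 * (V2 ^ 2 * a)))
        ≤ y ^ 9 / p * ((y * g) ^ 2 * (3 * ((A ^ 2 * (p * q)) * a))) := by gcongr
      _ = (3 * A ^ 2 * (y ^ 9 * q * a)) * (g ^ 2 * y ^ 2) := by field_simp
      _ ≤ (3 * A ^ 2 * (y ^ 9 * q * a)) * (C0 ^ 2 * T) := by gcongr
      _ = _ := by ring
  have e2 : y ^ 9 / p * ((y * g) ^ 2 * (3 * (2 ^ 2 * V1 ^ 2 * b))) ≤
      12 * A ^ 2 * (y ^ 13 * g ^ 2 * q * b) := by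
    calc y ^ 9 / p * ((y * g) ^ 2 * (3 * (2 ^ 2 * V1 ^ 2 * b)))
        ≤ y ^ 9 / p * ((y * g) ^ 2 * (3 * (2 ^ 2 * (A ^ 2 * (y ^ 2 * (p * q))) * b))) := by gcongr
      _ = _ := by field_simp; ring
  have e3 : y ^ 9 / p * ((y * g) ^ 2 * (3 * (V0 ^ 2 * c))) ≤
      3 * (y ^ 11 * g ^ 2 * p * c) := by
    calc y ^ 9 / p * ((y * g) ^ 2 * (3 * (V0 ^ 2 * c)))
        ≤ y ^ 9 / p * ((y * g) ^ 2 * (3 * (p * p * c))) := by gcongr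
      _ = _ := by field_simp
  calc y ^ 9 / p * ((y * g) ^ 2 * N)
      ≤ y ^ 9 / p * ((y * g) ^ 2 * (3 * (V2 ^ 2 * a + 2 ^ 2 * V1 ^ 2 * b + V0 ^ 2 * c))) := by
        gcongr
    _ = y ^ 9 / p * ((y * g) ^ 2 * (3 * (V2 ^ 2 * a))) +
        y ^ 9 / p * ((y * g) ^ 2 * (3 * (2 ^ 2 * V1 ^ 2 * b))) +
        y ^ 9 / p * ((y * g) ^ 2 * (3 * (V0 ^ 2 * c))) := by ring
    _ ≤ _ := by linarith

/-- pure algebra for the zeroth component -/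
lemma alg2 {y p A V0 V1 T q a b M N : ℝ} (hy : 0 < y) (hT : 0 < T) (hyT : y ^ 2 ≤ T)
    (hp : 0 < p) (hq : 0 < q) (hpq : p = q * T ^ 2)
    (h0 : V0 ^ 2 ≤ p * p) (h1 : V1 ^ 2 ≤ A ^ 2 * (y ^ 2 * (p * q)))
    (ha : 0 ≤ a) (hb : 0 ≤ b) (hM : V0 = 0 ∨ y ^ 2 * p ≤ M) (hM0 : 0 ≤ M)
    (hN : N ≤ 3 * ((5 * V0) ^ 2 * a + (y / 2 * V1) ^ 2 * a + (y / 2 * V0) ^ 2 * b)) :
    y ^ 9 / p * N ≤ (75 + 3 * A ^ 2) * (y ^ 9 * p * a) + M * (y ^ 9 * b) := by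
  have t1 : y ^ 9 / p * (3 * ((5 * V0) ^ 2 * a)) ≤ 75 * (y ^ 9 * p * a) := by
    calc y ^ 9 / p * (3 * ((5 * V0) ^ 2 * a))
        = y ^ 9 / p * (75 * (V0 ^ 2 * a)) := by ring
      _ ≤ y ^ 9 / p * (75 * (p * p * a)) := by gcongr
      _ = _ := by field_simp
  have t2 : y ^ 9 / p * (3 * ((y / 2 * V1) ^ 2 * a)) ≤ 3 * A ^ 2 * (y ^ 9 * p * a) := by
    have y4 : y ^ 4 ≤ T ^ 2 := by
      have : y ^ 4 = (y ^ 2) ^ 2 := by ring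
      rw [this]; exact pow_le_pow_left₀ (by positivity) hyT 2
    calc y ^ 9 / p * (3 * ((y / 2 * V1) ^ 2 * a))
        = y ^ 9 / p * (3 * (y ^ 2 / 4 * V1 ^ 2 * a)) := by ring
      _ ≤ y ^ 9 / p * (3 * (y ^ 2 / 4 * (A ^ 2 * (y ^ 2 * (p * q))) * a)) := by gcongr
      _ = (3 / 4 * A ^ 2 * (y ^ 9 * q * a)) * y ^ 4 := by field_simp
      _ ≤ (3 / 4 * A ^ 2 * (y ^ 9 * q * a)) * T ^ 2 := by gcongr
      _ = 3 / 4 * (A ^ 2 * (y ^ 9 * p * a)) := by rw [hpq]; ring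
      _ ≤ _ := by
          have : 0 ≤ A ^ 2 * (y ^ 9 * p * a) := by positivity
          linarith
  have t3 : y ^ 9 / p * (3 * ((y / 2 * V0) ^ 2 * b)) ≤ M * (y ^ 9 * b) := by
    rcases hM with hM | hM
    · rw [hM]
      have : 0 ≤ M * (y ^ 9 * b) := by positivity
      simpa using this
    · calc y ^ 9 / p * (3 * ((y / 2 * V0) ^ 2 * b))
          = y ^ 9 / p * (3 / 4 * (y ^ 2 * V0 ^ 2 * b)) := by ring
        _ ≤ y ^ 9 / p * (3 / 4 * (y ^ 2 * (p * p) * b)) := by gcongr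
        _ = (3 / 4 * (y ^ 9 * b)) * (y ^ 2 * p) := by field_simp
        _ ≤ (3 / 4 * (y ^ 9 * b)) * M := by gcongr
        _ ≤ _ := by
            have : 0 ≤ (y ^ 9 * b) * M := by positivity
            linarith
  calc y ^ 9 / p * N
      ≤ y ^ 9 / p * (3 * ((5 * V0) ^ 2 * a + (y / 2 * V1) ^ 2 * a + (y / 2 * V0) ^ 2 * b)) := by
        gcongr
    _ = y ^ 9 / p * (3 * ((5 * V0) ^ 2 * a)) +
        y ^ 9 / p * (3 * ((y / 2 * V1) ^ 2 * a)) +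
        y ^ 9 / p * (3 * ((y / 2 * V0) ^ 2 * b)) := by ring
    _ ≤ _ := by linarith

lemma Wgt.sq0 {A : ℝ} {v v1 v2 : ℝ → ℝ} (hv : Wgt A v v1 v2) {y : ℝ} (hy : 0 < y) :
    v y ^ 2 ≤ (1 + y ^ 2) ^ 60 * (1 + y ^ 2) ^ 60 := by
  have := pow_le_pow_left₀ (hv.nonneg y hy) (hv.le_w y hy) 2
  rwa [sq ((1 + y ^ 2) ^ 60)] at this

lemma pow_split (T : ℝ) : T ^ 59 * T ^ 59 = T ^ 60 * T ^ 58 := by
  rw [← pow_add, ← pow_add]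

lemma Wgt.sq1 {A : ℝ} {v v1 v2 : ℝ → ℝ} (hv : Wgt A v v1 v2) {y : ℝ} (hy : 0 < y) :
    v1 y ^ 2 ≤ A ^ 2 * (y ^ 2 * ((1 + y ^ 2) ^ 60 * (1 + y ^ 2) ^ 58)) := by
  have := pow_le_pow_left₀ (abs_nonneg _) (hv.b1 y hy) 2
  rw [sq_abs] at this
  rw [← pow_split]
  refine this.trans (le_of_eq ?_)
  generalize (1 + y ^ 2) ^ 59 = r
  ring

lemma Wgt.sq2 {A : ℝ} {v v1 v2 : ℝ → ℝ} (hv : Wgt A v v1 v2) {y : ℝ} (hy : 0 < y) :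
    v2 y ^ 2 ≤ A ^ 2 * ((1 + y ^ 2) ^ 60 * (1 + y ^ 2) ^ 58) := by
  have := pow_le_pow_left₀ (abs_nonneg _) (hv.b2 y hy) 2
  rw [sq_abs] at this
  rw [← pow_split]
  refine this.trans (le_of_eq ?_)
  generalize (1 + y ^ 2) ^ 59 = r
  ring

lemma T60 (T : ℝ) : T ^ 60 = T ^ 58 * T ^ 2 := by rw [← pow_add]
lemma T59 (T : ℝ) : T ^ 59 = T ^ 58 * T := by rw [← pow_succ]

/-- pointwise bound of the second derivative part -/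
lemma pw_d2 (hg : Prof c0 C0 g) {A : ℝ} {v v1 v2 : ℝ → ℝ} (hv : Wgt A v v1 v2)
    (hs : ContDiff ℝ (⊤ : ℕ∞) v) {P : ℝ → ℂ} (hP : DD P) {y : ℝ} (hy : 0 < y) :
    tv y ^ 2 * ((y * g y) ^ 2 * ‖D2 (fun y => (v y : ℂ) * P y) y‖ ^ 2) ≤
      3 * A ^ 2 * C0 ^ 2 * (y ^ 9 * (1 + y ^ 2) ^ 59 * ‖P y‖ ^ 2) +
      12 * A ^ 2 * (y ^ 13 * (g y) ^ 2 * (1 + y ^ 2) ^ 58 * ‖D1 P y‖ ^ 2) +
      3 * (y ^ 11 * (g y) ^ 2 * (1 + y ^ 2) ^ 60 * ‖D2 P y‖ ^ 2) := by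
  rw [D2_mul_real hs hv.d1 hv.d2 hP hy, tv_sq hy.le, T59]
  have h1 := norm_sq_three ((v2 y : ℂ) * P y) (2 * v1 y * D1 P y) (v y * D2 P y)
  have e1 : ‖(v2 y : ℂ) * P y‖ ^ 2 = v2 y ^ 2 * ‖P y‖ ^ 2 := by
    rw [norm_mul, mul_pow, Complex.norm_real, Real.norm_eq_abs, sq_abs]
  have e2 : ‖2 * (v1 y : ℂ) * D1 P y‖ ^ 2 = 2 ^ 2 * v1 y ^ 2 * ‖D1 P y‖ ^ 2 := by
    rw [norm_mul, norm_mul, mul_pow, mul_pow, Complex.norm_real, Real.norm_eq_abs, sq_abs]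
    norm_num
  have e3 : ‖(v y : ℂ) * D2 P y‖ ^ 2 = v y ^ 2 * ‖D2 P y‖ ^ 2 := by
    rw [norm_mul, mul_pow, Complex.norm_real, Real.norm_eq_abs, sq_abs]
  rw [e1, e2, e3] at h1
  exact alg1 hy (by positivity) (by linarith) (by positivity) (by positivity)
    (pow_le_pow_left₀ (Prof.g_pos hg hy.le).le (hg.upper y hy.le) 2) (Wgt.sq0 hv hy)
    (Wgt.sq1 hv hy) (Wgt.sq2 hv hy) (by positivity) (by positivity) (by positivity) h1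

/-- constant for the bound of the second derivative part -/
def Kc (A C0 : ℝ) : ℝ := 3 * A ^ 2 * C0 ^ 2 + 12 * A ^ 2 * (1 + (133 * C0) ^ 2 + C0 ^ 2) + 3

lemma Kc_nonneg (A C0 : ℝ) : 0 ≤ Kc A C0 := by unfold Kc; positivity

lemma alg3 {A C0 I2 I1 IL I0 N J : ℝ} (hI2 : 0 ≤ I2) (hI0 : 0 ≤ I0) (hL : IL ≤ I0)
    (hI : I1 ≤ 1 * I2 + ((133 * C0) ^ 2 + C0 ^ 2 / 1) * IL)
    (hJ : J ≤ 3 * A ^ 2 * C0 ^ 2 * IL + 12 * A ^ 2 * I1 + 3 * I2) (hN : N = I2 + I0) :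
    J ≤ Kc A C0 * N := by
  have h2 : I1 ≤ I2 + ((133 * C0) ^ 2 + C0 ^ 2) * I0 := by
    have : ((133 * C0) ^ 2 + C0 ^ 2) * IL ≤ ((133 * C0) ^ 2 + C0 ^ 2) * I0 :=
      mul_le_mul_of_nonneg_left hL (by positivity)
    simp only [div_one, one_mul] at hI
    linarith
  have h3 : 12 * A ^ 2 * I1 ≤ 12 * A ^ 2 * (I2 + ((133 * C0) ^ 2 + C0 ^ 2) * I0) :=
    mul_le_mul_of_nonneg_left h2 (by positivity)
  have h4 : 3 * A ^ 2 * C0 ^ 2 * IL ≤ 3 * A ^ 2 * C0 ^ 2 * I0 :=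
    mul_le_mul_of_nonneg_left hL (by positivity)
  have p1 : 0 ≤ 3 * A ^ 2 * C0 ^ 2 * I2 := by positivity
  have p2 : 0 ≤ 12 * A ^ 2 * ((133 * C0) ^ 2 + C0 ^ 2) * I2 := by positivity
  have p3 : 0 ≤ 12 * A ^ 2 * I0 := by positivity
  have e : Kc A C0 * N = 3 * A ^ 2 * C0 ^ 2 * I2 + 3 * A ^ 2 * C0 ^ 2 * I0 +
      (12 * A ^ 2 * I2 + 12 * A ^ 2 * I0 + 12 * A ^ 2 * ((133 * C0) ^ 2 + C0 ^ 2) * I2 +
        12 * A ^ 2 * ((133 * C0) ^ 2 + C0 ^ 2) * I0) + 3 * I2 + 3 * I0 := by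
    rw [hN]; unfold Kc; ring
  rw [e]
  have e' : 12 * A ^ 2 * (I2 + ((133 * C0) ^ 2 + C0 ^ 2) * I0) = 12 * A ^ 2 * I2 +
      12 * A ^ 2 * ((133 * C0) ^ 2 + C0 ^ 2) * I0 := by ring
  rw [e'] at h3
  linarith

lemma nonneg_I2 {P : ℝ → ℂ} :
    0 ≤ ∫ y in Ioi (0 : ℝ), y ^ 11 * (g y) ^ 2 * (1 + y ^ 2) ^ 60 * ‖D2 P y‖ ^ 2 :=
  setIntegral_nonneg measurableSet_Ioi (fun y hy => by
    have : 0 < y := hy
    positivity)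

lemma nonneg_I0 {P : ℝ → ℂ} :
    0 ≤ ∫ y in Ioi (0 : ℝ), y ^ 9 * (1 + y ^ 2) ^ 60 * ‖P y‖ ^ 2 :=
  setIntegral_nonneg measurableSet_Ioi (fun y hy => by
    have : 0 < y := hy
    positivity)

lemma cc_I0 {P : ℝ → ℂ} (hP : DD P) : CC (fun y => y ^ 9 * (1 + y ^ 2) ^ 60 * ‖P y‖ ^ 2) :=
  (cc_norm_sq (cc0 hP).1 (cc0 hP).2).mul_left (a := fun y => y ^ 9 * (1 + y ^ 2) ^ 60) (by fun_prop)
lemma cc_IL {P : ℝ → ℂ} (hP : DD P) : CC (fun y => y ^ 9 * (1 + y ^ 2) ^ 59 * ‖P y‖ ^ 2) :=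
  (cc_norm_sq (cc0 hP).1 (cc0 hP).2).mul_left (a := fun y => y ^ 9 * (1 + y ^ 2) ^ 59) (by fun_prop)
lemma cc_I1 (hg : Prof c0 C0 g) {P : ℝ → ℂ} (hP : DD P) :
    CC (fun y => y ^ 13 * (g y) ^ 2 * (1 + y ^ 2) ^ 58 * ‖D1 P y‖ ^ 2) := by
  have hgc := Prof.cont hg
  exact (cc_norm_sq (cc1 hP).1 (cc1 hP).2).mul_left
    (a := fun y => y ^ 13 * (g y) ^ 2 * (1 + y ^ 2) ^ 58) (by fun_prop)
lemma cc_I2 (hg : Prof c0 C0 g) {P : ℝ → ℂ} (hP : DD P) :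
    CC (fun y => y ^ 11 * (g y) ^ 2 * (1 + y ^ 2) ^ 60 * ‖D2 P y‖ ^ 2) := by
  have hgc := Prof.cont hg
  exact (cc_norm_sq (cc2 hP).1 (cc2 hP).2).mul_left
    (a := fun y => y ^ 11 * (g y) ^ 2 * (1 + y ^ 2) ^ 60) (by fun_prop)
lemma cc_J (hg : Prof c0 C0 g) {Q : ℝ → ℂ} (hQ : DD Q) :
    CC (fun y => tv y ^ 2 * ((y * g y) ^ 2 * ‖D2 Q y‖ ^ 2)) := by
  have hgc := Prof.cont hg
  have htv := tv_cont
  have := (cc_norm_sq (cc2 hQ).1 (cc2 hQ).2).mul_left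
    (a := fun y => tv y ^ 2 * (y * g y) ^ 2) (by fun_prop)
  simpa only [mul_assoc] using this
lemma cc_J0 {Q : ℝ → ℂ} (hQ : DD Q) : CC (fun y => tv y ^ 2 * ‖Q y‖ ^ 2) := by
  have htv := tv_cont
  exact (cc_norm_sq (cc0 hQ).1 (cc0 hQ).2).mul_left (a := fun y => tv y ^ 2) (by fun_prop)

lemma IL_le_I0 {P : ℝ → ℂ} (hP : DD P) :
    ∫ y in Ioi (0 : ℝ), y ^ 9 * (1 + y ^ 2) ^ 59 * ‖P y‖ ^ 2 ≤
      ∫ y in Ioi (0 : ℝ), y ^ 9 * (1 + y ^ 2) ^ 60 * ‖P y‖ ^ 2 := by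
  refine setIntegral_mono_on (cc_IL hP).integrableOn (cc_I0 hP).integrableOn
    measurableSet_Ioi fun y hy => ?_
  have hy : 0 < y := hy
  have : (1 + y ^ 2) ^ 59 ≤ (1 + y ^ 2) ^ 60 :=
    pow_le_pow_right₀ (by nlinarith [sq_nonneg y]) (by norm_num)
  gcongr

lemma int_d2_le (hg : Prof c0 C0 g) {A : ℝ} {v v1 v2 : ℝ → ℝ} (hv : Wgt A v v1 v2)
    (hs : ContDiff ℝ (⊤ : ℕ∞) v) {P : ℝ → ℂ} (hP : DD P) :
    ∫ y in Ioi (0 : ℝ), tv y ^ 2 * ((y * g y) ^ 2 * ‖D2 (fun y => (v y : ℂ) * P y) y‖ ^ 2) ≤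
      Kc A C0 * ‖iota (Prof.cont hg) P hP‖ ^ 2 := by
  have b1 := ((cc_IL hP).mul_left (a := fun _ => 3 * A ^ 2 * C0 ^ 2) continuous_const)
  have b2 := ((cc_I1 hg hP).mul_left (a := fun _ => 12 * A ^ 2) continuous_const)
  have b3 := ((cc_I2 hg hP).mul_left (a := fun _ => (3 : ℝ)) continuous_const)
  have h1 := setIntegral_mono_on (cc_J hg (dd_mul_real hs hP)).integrableOn
    ((b1.add' b2).add' b3).integrableOn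
    measurableSet_Ioi (fun y hy => pw_d2 hg hv hs hP (mem_Ioi.1 hy))
  rw [integral_add (b1.add' b2).integrableOn b3.integrableOn,
      integral_add b1.integrableOn b2.integrableOn,
      integral_const_mul, integral_const_mul, integral_const_mul] at h1
  exact alg3 nonneg_I2 nonneg_I0 (IL_le_I0 hP) (interp hg (dd_tf hP) (ε := 1) one_pos) h1
    (norm_iota_sq _ hP)

lemma stX_split (hg : Prof c0 C0 g) {Q : ℝ → ℂ} (hQ : DD Q) :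
    stX g Q = (∫ y in Ioi (0 : ℝ), tv y ^ 2 * ((y * g y) ^ 2 * ‖D2 Q y‖ ^ 2)) +
      ∫ y in Ioi (0 : ℝ), tv y ^ 2 * ‖Q y‖ ^ 2 := by
  rw [← integral_add (cc_J hg hQ).integrableOn (cc_J0 hQ).integrableOn, stX]
  refine setIntegral_congr_fun measurableSet_Ioi fun y hy => ?_
  simp only [w60]
  rw [DD.deriv2_eq (mem_Ioi.1 hy), tv_sq (le_of_lt (mem_Ioi.1 hy)), div_eq_mul_inv]
  simp only [D2]
  generalize ((1 + y ^ 2) ^ 60)⁻¹ = p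
  ring

/-- `stX` of `v P` -/
lemma stX_mul_le (hg : Prof c0 C0 g) {A : ℝ} {v v1 v2 : ℝ → ℝ} (hv : Wgt A v v1 v2)
    (hs : ContDiff ℝ (⊤ : ℕ∞) v) {P : ℝ → ℂ} (hP : DD P) :
    stX g (fun y => (v y : ℂ) * P y) ≤ (Kc A C0 + 1) * ‖iota (Prof.cont hg) P hP‖ ^ 2 := by
  have hvP := dd_mul_real hs hP
  have h1 : ∫ y in Ioi (0 : ℝ), tv y ^ 2 * ‖(v y : ℂ) * P y‖ ^ 2 ≤
      ∫ y in Ioi (0 : ℝ), y ^ 9 * (1 + y ^ 2) ^ 60 * ‖P y‖ ^ 2 := by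
    refine setIntegral_mono_on (cc_J0 hvP).integrableOn (cc_I0 hP).integrableOn
      measurableSet_Ioi fun y hy => ?_
    have hy : 0 < y := hy
    rw [tv_sq hy.le, norm_mul, Complex.norm_real, Real.norm_eq_abs, mul_pow, sq_abs]
    have v0s := Wgt.sq0 hv hy
    have hp : 0 < (1 + y ^ 2) ^ 60 := by positivity
    generalize (1 + y ^ 2) ^ 60 = p at v0s hp
    calc y ^ 9 / p * (v y ^ 2 * ‖P y‖ ^ 2)
        ≤ y ^ 9 / p * ((p * p) * ‖P y‖ ^ 2) := by gcongr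
      _ = _ := by field_simp
  have h2 := int_d2_le hg hv hs hP
  have h3 : ∫ y in Ioi (0 : ℝ), y ^ 9 * (1 + y ^ 2) ^ 60 * ‖P y‖ ^ 2 ≤
      ‖iota (Prof.cont hg) P hP‖ ^ 2 := by
    rw [norm_iota_sq]
    linarith [nonneg_I2 (g := g) (P := P)]
  rw [stX_split hg hvP, add_mul, one_mul]
  linarith

/-- the `bvec` bound for a compactly supported multiplier -/
lemma bvec_mul_le (hg : Prof c0 C0 g) {A : ℝ} {v v1 v2 : ℝ → ℝ} (hv : Wgt A v v1 v2)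
    (hs : ContDiff ℝ (⊤ : ℕ∞) v) {S : ℝ} (hS0 : 0 ≤ S) (hS : ∀ y, S ≤ y → v y = 0) :
    ∃ K : ℝ, 0 ≤ K ∧ ∀ (P : ℝ → ℂ) (hP : DD P),
      ‖bvec (Prof.cont hg) (fun y => (v y : ℂ) * P y) (dd_mul_real hs hP)‖ ^ 2 ≤
        K * ‖iota (Prof.cont hg) P hP‖ ^ 2 := by
  have hc0 := hg.c0_pos
  obtain ⟨M, hM0, hM⟩ : ∃ M : ℝ, 0 ≤ M ∧ ∀ y, 0 < y → (v y = 0 ∨ y ^ 2 * (1 + y ^ 2) ^ 60 ≤ M) := by
    refine ⟨S ^ 2 * (1 + S ^ 2) ^ 60, by positivity, fun y hy => ?_⟩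
    rcases le_or_gt S y with hSy | hSy
    · exact Or.inl (hS y hSy)
    · refine Or.inr ?_
      gcongr
  refine ⟨Kc A C0 + (75 + 3 * A ^ 2) + M * (1 / 25 * (1 / c0 ^ 2)),
    by have := Kc_nonneg A C0; positivity, fun P hP => ?_⟩
  have hgc := Prof.cont hg
  have hvP := dd_mul_real hs hP
  rw [WithLp.prod_norm_sq_eq_of_L2]
  change ‖toL _ (cc_bF1 hgc hvP)‖ ^ 2 + ‖toL _ (cc_bF0 hvP)‖ ^ 2 ≤ _
  rw [norm_toL_sq, norm_toL_sq]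
  -- first component
  have h1 : ∫ y in Ioi (0 : ℝ), ‖((tv y * (y * g y) : ℝ) : ℂ) * D2 (fun y => (v y : ℂ) * P y) y‖ ^ 2 =
      ∫ y in Ioi (0 : ℝ), tv y ^ 2 * ((y * g y) ^ 2 * ‖D2 (fun y => (v y : ℂ) * P y) y‖ ^ 2) := by
    refine setIntegral_congr_fun measurableSet_Ioi fun y hy => ?_
    simp only [norm_mul, Complex.norm_real, Real.norm_eq_abs, mul_pow, sq_abs]
    ring
  -- second component
  have a9 : CC (fun y => y ^ 9 * ‖D1 P y‖ ^ 2) :=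
    (cc_norm_sq (cc1 hP).1 (cc1 hP).2).mul_left (a := fun y => y ^ 9) (by fun_prop)
  have b1 := (cc_I0 hP).mul_left (a := fun _ => 75 + 3 * A ^ 2) continuous_const
  have b2 := a9.mul_left (a := fun _ => M) continuous_const
  have h2 : ∫ y in Ioi (0 : ℝ), ‖(tv y : ℂ) * (5 * ((v y : ℂ) * P y) +
      ((y / 2 : ℝ) : ℂ) * D1 (fun y => (v y : ℂ) * P y) y)‖ ^ 2 ≤
      (75 + 3 * A ^ 2) * (∫ y in Ioi (0 : ℝ), y ^ 9 * (1 + y ^ 2) ^ 60 * ‖P y‖ ^ 2) +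
      M * ∫ y in Ioi (0 : ℝ), y ^ 9 * ‖D1 P y‖ ^ 2 := by
    rw [← integral_const_mul, ← integral_const_mul, ← integral_add b1.integrableOn b2.integrableOn]
    refine setIntegral_mono_on (cc_norm_sq (cc_bF0 hvP).1 (cc_bF0 hvP).2).integrableOn
      (b1.add' b2).integrableOn measurableSet_Ioi fun y hy => ?_
    have hy : 0 < y := hy
    rw [D1_mul_real hs hv.d1 hP hy]
    have e0 : (5 : ℂ) * ((v y : ℂ) * P y) + ((y / 2 : ℝ) : ℂ) * (v1 y * P y + v y * D1 P y) =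
        (5 * v y : ℝ) * P y + ((y / 2 * v1 y : ℝ) : ℂ) * P y + ((y / 2 * v y : ℝ) : ℂ) * D1 P y := by
      push_cast; ring
    rw [e0, norm_mul, mul_pow, Complex.norm_real, Real.norm_eq_abs, sq_abs, tv_sq hy.le]
    have h3 := norm_sq_three ((5 * v y : ℝ) * P y) (((y / 2 * v1 y : ℝ) : ℂ) * P y)
      (((y / 2 * v y : ℝ) : ℂ) * D1 P y)
    have f1 : ∀ (r : ℝ) (z : ℂ), ‖(r : ℂ) * z‖ ^ 2 = r ^ 2 * ‖z‖ ^ 2 := fun r z => by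
      rw [norm_mul, mul_pow, Complex.norm_real, Real.norm_eq_abs, sq_abs]
    rw [f1, f1, f1] at h3
    exact alg2 hy (T := 1 + y ^ 2) (q := (1 + y ^ 2) ^ 58) (by positivity) (by linarith)
      (by positivity) (by positivity) (T60 _) (Wgt.sq0 hv hy) (Wgt.sq1 hv hy) (by positivity)
      (by positivity) (hM y hy) hM0 h3
  -- Hardy
  have h3 := hardy (dd_tf hP).tf1' 9
  have h4 : ∫ y in Ioi (0 : ℝ), y ^ (9 + 2) * ‖D2 P y‖ ^ 2 ≤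
      1 / c0 ^ 2 * ∫ y in Ioi (0 : ℝ), y ^ 11 * (g y) ^ 2 * (1 + y ^ 2) ^ 60 * ‖D2 P y‖ ^ 2 := by
    rw [← integral_const_mul]
    have a6 : CC (fun y => y ^ (9 + 2) * ‖D2 P y‖ ^ 2) :=
      (cc_norm_sq (cc2 hP).1 (cc2 hP).2).mul_left (a := fun y => y ^ (9 + 2)) (by fun_prop)
    refine setIntegral_mono_on a6.integrableOn ((cc_I2 hg hP).mul_left (a := fun _ => 1 / c0 ^ 2)
      continuous_const).integrableOn measurableSet_Ioi fun y hy => ?_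
    have hy : 0 < y := hy
    have hgy := hg.lower y hy.le
    have g2 : c0 ^ 2 ≤ g y ^ 2 := pow_le_pow_left₀ hc0.le hgy 2
    have T1 : 1 ≤ (1 + y ^ 2) ^ 60 := one_le_pow₀ (by nlinarith [sq_nonneg y])
    generalize (1 + y ^ 2) ^ 60 = p at T1
    have : 1 ≤ 1 / c0 ^ 2 * (g y ^ 2 * p) := by
      rw [one_div, inv_mul_eq_div, le_div_iff₀ (by positivity), one_mul]
      calc c0 ^ 2 = c0 ^ 2 * 1 := by ring
        _ ≤ g y ^ 2 * p := by gcongr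
    calc y ^ (9 + 2) * ‖D2 P y‖ ^ 2 = 1 * (y ^ 11 * ‖D2 P y‖ ^ 2) := by ring
      _ ≤ (1 / c0 ^ 2 * (g y ^ 2 * p)) * (y ^ 11 * ‖D2 P y‖ ^ 2) := by gcongr
      _ = _ := by ring
  have h5 := int_d2_le hg hv hs hP
  rw [h1]
  have hI2 := nonneg_I2 (g := g) (P := P)
  have hI0 := nonneg_I0 (P := P)
  have hn := norm_iota_sq hgc hP
  generalize (∫ y in Ioi (0 : ℝ), ‖(tv y : ℂ) * (5 * ((v y : ℂ) * P y) +
      ((y / 2 : ℝ) : ℂ) * D1 (fun y => (v y : ℂ) * P y) y)‖ ^ 2) = J0 at h2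
  generalize (∫ y in Ioi (0 : ℝ), tv y ^ 2 * ((y * g y) ^ 2 *
    ‖D2 (fun y => (v y : ℂ) * P y) y‖ ^ 2)) = J2 at h5
  generalize (∫ y in Ioi (0 : ℝ), y ^ 11 * (g y) ^ 2 * (1 + y ^ 2) ^ 60 * ‖D2 P y‖ ^ 2) = I2 at *
  generalize (∫ y in Ioi (0 : ℝ), y ^ 9 * (1 + y ^ 2) ^ 60 * ‖P y‖ ^ 2) = I0 at *
  generalize (∫ y in Ioi (0 : ℝ), y ^ 9 * ‖D1 P y‖ ^ 2) = I9 at *
  generalize (∫ y in Ioi (0 : ℝ), y ^ (9 + 2) * ‖D2 P y‖ ^ 2) = I11 at *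
  have hn' : ‖iota (Prof.cont hg) P hP‖ ^ 2 = I2 + I0 := hn
  rw [hn'] at h5 ⊢
  have e1 : (4 : ℝ) / ((9 : ℕ) + 1) ^ 2 = 1 / 25 := by norm_num
  rw [e1] at h3
  have h6 : I9 ≤ 1 / 25 * (1 / c0 ^ 2) * (I2 + I0) := by
    calc I9 ≤ 1 / 25 * I11 := h3
      _ ≤ 1 / 25 * (1 / c0 ^ 2 * (I2 + I0)) := by
          have : 1 / c0 ^ 2 * I2 ≤ 1 / c0 ^ 2 * (I2 + I0) := by gcongr; linarith
          linarith
      _ = _ := by ring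
  have h8 : (75 + 3 * A ^ 2) * I0 ≤ (75 + 3 * A ^ 2) * (I2 + I0) := by gcongr; linarith
  have h9 : M * I9 ≤ M * (1 / 25 * (1 / c0 ^ 2) * (I2 + I0)) := by gcongr
  calc J2 + J0 ≤ Kc A C0 * (I2 + I0) + ((75 + 3 * A ^ 2) * (I2 + I0) +
        M * (1 / 25 * (1 / c0 ^ 2) * (I2 + I0))) := by linarith
    _ = _ := by ring

end Crest.Agent.R213.A.St
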