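import Crest.Agent.R213.A.StGard

/-!
# Row 213, PART A: admissible multipliers (`Wgt`): the weight `(1+y²)^60` and its truncations
-/

set_option autoImplicit false

open Set MeasureTheory Filter Topology

noncomputable section

namespace Crest.Agent.R213.A

open Crest.Agent.R213.A.St

namespace StCut

/-- cut-off: `1` for `r ≤ 1`, `0` for `r ≥ 2`. -/
def chi (r : ℝ) : ℝ := Real.smoothTransition (2 - r)

theorem chi_contDiff : ContDiff ℝ (⊤ : ℕ∞) chi :=
  Real.smoothTransition.contDiff.comp (contDiff_const.sub contDiff_id)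

theorem chi_one {r : ℝ} (hr : r ≤ 1) : chi r = 1 :=
  Real.smoothTransition.one_of_one_le (by linarith)

theorem chi_zero {r : ℝ} (hr : 2 ≤ r) : chi r = 0 :=
  Real.smoothTransition.zero_of_nonpos (by linarith)

theorem chi_nonneg (r : ℝ) : 0 ≤ chi r := Real.smoothTransition.nonneg _

theorem chi_le_one (r : ℝ) : chi r ≤ 1 := Real.smoothTransition.le_one _

theorem chi1_contDiff : ContDiff ℝ (⊤ : ℕ∞) (deriv chi) := by
  have := chi_contDiff
  exact ((contDiff_succ_iff_deriv (n := ((⊤ : ℕ∞) : WithTop ℕ∞))).mp (by simpa using this)).2.2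

theorem chi2_contDiff : ContDiff ℝ (⊤ : ℕ∞) (deriv (deriv chi)) := by
  have := chi1_contDiff
  exact ((contDiff_succ_iff_deriv (n := ((⊤ : ℕ∞) : WithTop ℕ∞))).mp (by simpa using this)).2.2

theorem chi1_zero {r : ℝ} (hr : r < 1 ∨ 2 < r) : deriv chi r = 0 := by
  rcases hr with hr | hr
  · have : chi =ᶠ[𝓝 r] fun _ => 1 := by
      filter_upwards [Iio_mem_nhds hr] with z hz using chi_one (le_of_lt hz)
    rw [this.deriv_eq]; simp
  · have : chi =ᶠ[𝓝 r] fun _ => 0 := by
      filter_upwards [Ioi_mem_nhds hr] with z hz using chi_zero (le_of_lt hz)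
    rw [this.deriv_eq]; simp

theorem chi2_zero {r : ℝ} (hr : r < 1 ∨ 2 < r) : deriv (deriv chi) r = 0 := by
  have : deriv chi =ᶠ[𝓝 r] fun _ => 0 := by
    rcases hr with hr | hr
    · filter_upwards [Iio_mem_nhds hr] with z hz using chi1_zero (Or.inl hz)
    · filter_upwards [Ioi_mem_nhds hr] with z hz using chi1_zero (Or.inr hz)
  rw [this.deriv_eq]; simp

theorem bdd_of_zero {f : ℝ → ℝ} (hf : Continuous f) (hz : ∀ r, (r < 1 ∨ 2 < r) → f r = 0) :
    ∃ M : ℝ, 0 ≤ M ∧ ∀ r, |f r| ≤ M := by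
  obtain ⟨M, hM⟩ := (isCompact_Icc (a := (1:ℝ)) (b := 2)).exists_bound_of_continuousOn
    hf.continuousOn
  refine ⟨max M 0, le_max_right _ _, fun r => ?_⟩
  by_cases h : r ∈ Icc (1:ℝ) 2
  · exact (hM r h).trans (le_max_left _ _)
  · have : r < 1 ∨ 2 < r := by
      by_contra hc
      push Not at hc
      exact h ⟨hc.1, hc.2⟩
    rw [hz r this]; simp

/-- the weight and its derivatives -/
def W0 (y : ℝ) : ℝ := (1 + y ^ 2) ^ 60
def W1 (y : ℝ) : ℝ := 120 * (y * (1 + y ^ 2) ^ 59)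
def W2 (y : ℝ) : ℝ := 120 * (1 + y ^ 2) ^ 59 + 14160 * (y ^ 2 * (1 + y ^ 2) ^ 58)

theorem hasDerivAt_base (y : ℝ) : HasDerivAt (fun y : ℝ => 1 + y ^ 2) (2 * y) y := by
  have := (hasDerivAt_pow 2 y).const_add 1
  simpa using this

theorem hasDerivAt_W0 (y : ℝ) : HasDerivAt W0 (W1 y) y := by
  refine ((hasDerivAt_base y).pow 60).congr_deriv ?_
  unfold W1
  generalize (1 + y ^ 2) = T
  norm_num
  ring

theorem hasDerivAt_W1 (y : ℝ) : HasDerivAt W1 (W2 y) y := by
  have h := (((hasDerivAt_id y).mul ((hasDerivAt_base y).pow 59))).const_mul 120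
  refine h.congr_deriv ?_
  unfold W2
  simp only [id_eq, Pi.pow_apply]
  generalize (1 + y ^ 2) = T
  norm_num
  ring

theorem continuous_W0 : Continuous W0 := by unfold W0; fun_prop
theorem continuous_W1 : Continuous W1 := by unfold W1; fun_prop
theorem continuous_W2 : Continuous W2 := by unfold W2; fun_prop

theorem W0_nonneg (y : ℝ) : 0 ≤ W0 y := by unfold W0; positivity

theorem W2_nonneg (y : ℝ) : 0 ≤ W2 y := by unfold W2; positivity

theorem W2_le (y : ℝ) : W2 y ≤ 14280 * (1 + y ^ 2) ^ 59 := by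
  unfold W2
  have e : (1 + y ^ 2) ^ 59 = (1 + y ^ 2) * (1 + y ^ 2) ^ 58 := by ring
  rw [e]
  have h : (0:ℝ) ≤ (1 + y ^ 2) ^ 58 := by positivity
  nlinarith

theorem abs_W1 {y : ℝ} (hy : 0 < y) : |W1 y| = 120 * (y * (1 + y ^ 2) ^ 59) := by
  unfold W1; exact abs_of_nonneg (by positivity)

theorem W0_eq (y : ℝ) : W0 y = (1 + y ^ 2) ^ 59 * (1 + y ^ 2) := by
  unfold W0; exact pow_succ _ 59

/-! abstract estimates; `T = (1+y²)^59`, `c, c1, c2` = values of the cut-off -/

theorem est1 {R y T c c1 M1 w0 w1 : ℝ} (hR0 : 0 < R) (hR1 : 1 ≤ R) (hy : 0 < y) (hT : 0 ≤ T)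
    (hM : 0 ≤ M1) (h0 : w0 = T * (1 + y ^ 2)) (h1 : |w1| = 120 * (y * T)) (hc : 0 ≤ c) (hc' : c ≤ 1)
    (hc1 : |c1| ≤ M1) (hz : (y < R ∨ 2 * R < y) → c1 = 0) :
    |c1 * (1 / R) * w0 + c * w1| ≤ (4 * M1 + 120) * (y * T) := by
  have s1 : |c * w1| ≤ 120 * (y * T) := by
    rw [abs_mul, abs_of_nonneg hc, h1]
    have h0 : 0 ≤ 120 * (y * T) := by positivity
    nlinarith
  have s2 : |c1 * (1 / R) * w0| ≤ 4 * M1 * (y * T) := by
    by_cases hh : y < R ∨ 2 * R < y
    · rw [hz hh]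
      simp only [zero_mul, abs_zero]
      positivity
    · push Not at hh
      have e : |c1 * (1 / R) * w0| = |c1| * ((1 / R) * (1 + y ^ 2)) * T := by
        rw [h0, abs_mul, abs_mul, abs_of_nonneg (show 0 ≤ T * (1 + y ^ 2) by positivity),
          abs_of_nonneg (show 0 ≤ 1 / R by positivity)]
        ring
      rw [e]
      have b1 : (1 / R) * (1 + y ^ 2) ≤ 4 * y := by
        rw [one_div, inv_mul_le_iff₀ hR0]
        nlinarith
      calc |c1| * ((1 / R) * (1 + y ^ 2)) * T ≤ M1 * (4 * y) * T := by gcongr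
        _ = _ := by ring
  exact (abs_add_le _ _).trans (by linarith)

theorem est2 {R y T c c1 c2 M1 M2 w0 w1 w2 : ℝ} (hR0 : 0 < R) (hR1 : 1 ≤ R) (hy : 0 < y)
    (hT : 0 ≤ T) (hM : 0 ≤ M1) (hM2 : 0 ≤ M2) (h0 : w0 = T * (1 + y ^ 2))
    (h1 : |w1| = 120 * (y * T))
    (h2 : |w2| ≤ 14280 * T) (hc : 0 ≤ c) (hc' : c ≤ 1)
    (hc1 : |c1| ≤ M1) (hz : (y < R ∨ 2 * R < y) → c1 = 0)
    (hc2 : |c2| ≤ M2) (hz2 : (y < R ∨ 2 * R < y) → c2 = 0) :
    |c2 * (1 / R) * (1 / R) * w0 + 2 * (c1 * (1 / R) * w1) + c * w2| ≤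
      (8 * M2 + 480 * M1 + 14280) * T := by
  have s1 : |c * w2| ≤ 14280 * T := by
    rw [abs_mul, abs_of_nonneg hc]
    have h0 : 0 ≤ |w2| := abs_nonneg _
    nlinarith
  have s2 : |2 * (c1 * (1 / R) * w1)| ≤ 480 * M1 * T := by
    by_cases hh : y < R ∨ 2 * R < y
    · rw [hz hh]
      simp only [zero_mul, mul_zero, abs_zero]
      positivity
    · push Not at hh
      have e : |2 * (c1 * (1 / R) * w1)| = 240 * (|c1| * ((1 / R) * y) * T) := by
        rw [abs_mul, abs_mul, abs_mul, h1, abs_of_nonneg (show 0 ≤ 1 / R by positivity),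
          abs_of_nonneg (show (0:ℝ) ≤ 2 by norm_num)]
        ring
      rw [e]
      have b1 : (1 / R) * y ≤ 2 := by
        rw [one_div, inv_mul_le_iff₀ hR0]
        linarith
      calc 240 * (|c1| * ((1 / R) * y) * T) ≤ 240 * (M1 * 2 * T) := by gcongr
        _ = _ := by ring
  have s3 : |c2 * (1 / R) * (1 / R) * w0| ≤ 8 * M2 * T := by
    by_cases hh : y < R ∨ 2 * R < y
    · rw [hz2 hh]
      simp only [zero_mul, abs_zero]
      positivity
    · push Not at hh
      have e : |c2 * (1 / R) * (1 / R) * w0| = |c2| * ((1 / R) * ((1 / R) * (1 + y ^ 2))) * T := by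
        rw [h0, abs_mul, abs_mul, abs_mul, abs_of_nonneg (show 0 ≤ T * (1 + y ^ 2) by positivity),
          abs_of_nonneg (show 0 ≤ 1 / R by positivity)]
        ring
      rw [e]
      have b1 : (1 / R) * ((1 / R) * (1 + y ^ 2)) ≤ 8 := by
        rw [one_div, inv_mul_le_iff₀ hR0, inv_mul_le_iff₀ hR0]
        nlinarith
      calc |c2| * ((1 / R) * ((1 / R) * (1 + y ^ 2))) * T ≤ M2 * 8 * T := by gcongr
        _ = _ := by ring
  have t := abs_add_le (c2 * (1 / R) * (1 / R) * w0) (2 * (c1 * (1 / R) * w1))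
  exact (abs_add_le _ _).trans (by linarith)

end StCut

open StCut St

theorem exists_cut : ∃ A : ℝ, ∀ R : ℝ, 1 ≤ R → ∃ v : ℝ → ℝ, ContDiff ℝ (⊤ : ℕ∞) v ∧
    Wgt A v (deriv v) (deriv (deriv v)) ∧ (∀ y, 0 < y → y ≤ R → v y = (1 + y ^ 2) ^ 60) ∧
    (∀ y, 2 * R ≤ y → v y = 0) := by
  obtain ⟨M1, hM1, bM1⟩ := bdd_of_zero chi1_contDiff.continuous (fun r hr => chi1_zero hr)
  obtain ⟨M2, hM2, bM2⟩ := bdd_of_zero chi2_contDiff.continuous (fun r hr => chi2_zero hr)
  refine ⟨8 * M2 + 480 * M1 + 14280, ?_⟩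
  intro R hR
  have hR0 : 0 < R := by linarith
  set v : ℝ → ℝ := fun y => chi (y / R) * W0 y with hv
  set v1 : ℝ → ℝ := fun y => deriv chi (y / R) * (1 / R) * W0 y + chi (y / R) * W1 y with hv1
  set v2 : ℝ → ℝ := fun y => deriv (deriv chi) (y / R) * (1 / R) * (1 / R) * W0 y +
    2 * (deriv chi (y / R) * (1 / R) * W1 y) + chi (y / R) * W2 y with hv2
  have hs : ContDiff ℝ (⊤ : ℕ∞) v := by
    refine (chi_contDiff.comp (contDiff_id.div_const R)).mul ?_
    show ContDiff ℝ (⊤ : ℕ∞) fun y : ℝ => (1 + y ^ 2) ^ 60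
    fun_prop
  have hdR : ∀ y, HasDerivAt (fun y : ℝ => y / R) (1 / R) y := fun y =>
    (hasDerivAt_id y).div_const R
  have hc1 : ∀ y, HasDerivAt (fun y => chi (y / R)) (deriv chi (y / R) * (1 / R)) y := by
    intro y
    have h1 : HasDerivAt chi (deriv chi (y / R)) (y / R) :=
      (chi_contDiff.differentiable (by simp) (y / R)).hasDerivAt
    exact HasDerivAt.comp (h₂ := chi) y h1 (hdR y)
  have hc2 : ∀ y, HasDerivAt (fun y => deriv chi (y / R))
      (deriv (deriv chi) (y / R) * (1 / R)) y := by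
    intro y
    have h1 : HasDerivAt (deriv chi) (deriv (deriv chi) (y / R)) (y / R) :=
      (chi1_contDiff.differentiable (by simp) (y / R)).hasDerivAt
    exact HasDerivAt.comp (h₂ := deriv chi) y h1 (hdR y)
  have hd1 : ∀ y, HasDerivAt v (v1 y) y := fun y => (hc1 y).mul (hasDerivAt_W0 y)
  have hd2 : ∀ y, HasDerivAt v1 (v2 y) y := by
    intro y
    have := (((hc2 y).mul_const (1 / R)).mul (hasDerivAt_W0 y)).add
      ((hc1 y).mul (hasDerivAt_W1 y))
    refine this.congr_deriv ?_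
    simp only [hv2]
    ring
  have e1 : deriv v = v1 := funext fun y => (hd1 y).deriv
  have e2 : deriv (deriv v) = v2 := by
    rw [e1]; exact funext fun y => (hd2 y).deriv
  have hsw : ∀ y, (y < R ∨ 2 * R < y) → (y / R < 1 ∨ 2 < y / R) := by
    intro y hy
    rcases hy with h | h
    · left; rwa [div_lt_one hR0]
    · right; rwa [lt_div_iff₀ hR0]
  refine ⟨v, hs, ?_, ?_, ?_⟩
  · rw [e2, e1]
    have cc0 : Continuous fun y : ℝ => chi (y / R) := chi_contDiff.continuous.comp (by fun_prop)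
    have cc1 : Continuous fun y : ℝ => deriv chi (y / R) :=
      chi1_contDiff.continuous.comp (by fun_prop)
    have cc2 : Continuous fun y : ℝ => deriv (deriv chi) (y / R) :=
      chi2_contDiff.continuous.comp (by fun_prop)
    have cW0 := continuous_W0
    have cW1 := continuous_W1
    have cW2 := continuous_W2
    refine ⟨by positivity, cc0.mul cW0, ?_, ?_, fun y _ => hd1 y, fun y _ => hd2 y, ?_, ?_, ?_, ?_⟩
    · exact ((cc1.mul continuous_const).mul cW0).add (cc0.mul cW1)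
    · exact ((((cc2.mul continuous_const).mul continuous_const).mul cW0).add
        (continuous_const.mul ((cc1.mul continuous_const).mul cW1))).add (cc0.mul cW2)
    · intro y _
      exact mul_nonneg (chi_nonneg _) (W0_nonneg _)
    · intro y _
      have h1 := chi_le_one (y / R)
      have h2 := W0_nonneg y
      have h3 : chi (y / R) * W0 y ≤ W0 y := mul_le_of_le_one_left h2 h1
      exact h3
    · intro y hy
      have hT : (0:ℝ) ≤ (1 + y ^ 2) ^ 59 := by positivity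
      have h := est1 hR0 hR hy hT hM1 (W0_eq y) (abs_W1 hy) (chi_nonneg (y / R))
        (chi_le_one (y / R)) (bM1 (y / R)) (fun h => chi1_zero (hsw y h))
      refine h.trans ?_
      refine mul_le_mul_of_nonneg_right ?_ (mul_nonneg hy.le hT)
      linarith
    · intro y hy
      have hT : (0:ℝ) ≤ (1 + y ^ 2) ^ 59 := by positivity
      exact est2 hR0 hR hy hT hM1 hM2 (W0_eq y) (abs_W1 hy)
        (by rw [abs_of_nonneg (W2_nonneg y)]; exact W2_le y) (chi_nonneg (y / R))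
        (chi_le_one (y / R)) (bM1 (y / R)) (fun h => chi1_zero (hsw y h))
        (bM2 (y / R)) (fun h => chi2_zero (hsw y h))
  · intro y hy hyR
    simp only [hv]
    rw [chi_one (by rw [div_le_one hR0]; exact hyR), one_mul]
    rfl
  · intro y hy
    simp only [hv]
    rw [chi_zero (by rw [le_div_iff₀ hR0]; exact hy), zero_mul]

theorem wgt_w60 : ∃ A : ℝ, Wgt A (fun y => (1 + y ^ 2) ^ 60)
    (deriv (fun y => (1 + y ^ 2) ^ 60)) (deriv (deriv (fun y => (1 + y ^ 2) ^ 60))) := by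
  have e1 : deriv (fun y : ℝ => (1 + y ^ 2) ^ 60) = W1 := funext fun y => (hasDerivAt_W0 y).deriv
  have e2 : deriv W1 = W2 := funext fun y => (hasDerivAt_W1 y).deriv
  rw [e1, e2]
  refine ⟨14280, ⟨by norm_num, continuous_W0, continuous_W1, continuous_W2,
    fun y _ => hasDerivAt_W0 y, fun y _ => hasDerivAt_W1 y, fun y _ => W0_nonneg y,
    fun y _ => le_rfl, ?_, ?_⟩⟩
  · intro y hy
    rw [abs_W1 hy]
    have hT : (0:ℝ) ≤ (1 + y ^ 2) ^ 59 := by positivity
    exact mul_le_mul_of_nonneg_right (by norm_num) (mul_nonneg hy.le hT)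
  · intro y hy
    rw [abs_of_nonneg (W2_nonneg y)]
    exact W2_le y

end Crest.Agent.R213.A
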