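import Crest.Agent.R213.A.StDefs

/-!
# Row 213, Part A: closability and density (concrete function-space facts for A/Static.lean)
-/

set_option autoImplicit false

open Set MeasureTheory Filter Topology
open scoped ENNReal ContDiff

noncomputable section

namespace Crest.Agent.R213.A

/-- square root of the weight of `stY` -/
def sv (y : ℝ) : ℝ := √(y ^ 9) * (1 + y ^ 2) ^ 30

/-- square root of the weight of `stX` -/
def tv (y : ℝ) : ℝ := √(y ^ 9) / (1 + y ^ 2) ^ 30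

theorem sv_pos {y : ℝ} (hy : 0 < y) : 0 < sv y := by
  have := Real.sqrt_pos.2 (pow_pos hy 9)
  unfold sv; positivity

theorem tv_pos {y : ℝ} (hy : 0 < y) : 0 < tv y := by
  have := Real.sqrt_pos.2 (pow_pos hy 9)
  unfold tv; positivity

theorem cdo_sqrt9 : ContDiffOn ℝ ∞ (fun y : ℝ => √(y ^ 9)) (Ioi 0) := by
  intro y hy
  have : ContDiffAt ℝ ∞ (fun y : ℝ => √(y ^ 9)) y :=
    (contDiff_id.pow 9).contDiffAt.sqrt (pow_pos (mem_Ioi.1 hy) 9).ne'
  exact this.contDiffWithinAt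

theorem cdo_sv : ContDiffOn ℝ ∞ sv (Ioi 0) := by
  refine cdo_sqrt9.mul ?_
  have : ContDiff ℝ ∞ (fun y : ℝ => (1 + y ^ 2) ^ 30) := by fun_prop
  exact this.contDiffOn

theorem cdo_tv : ContDiffOn ℝ ∞ tv (Ioi 0) := by
  refine cdo_sqrt9.div ?_ fun y _ => by positivity
  have : ContDiff ℝ ∞ (fun y : ℝ => (1 + y ^ 2) ^ 30) := by fun_prop
  exact this.contDiffOn

/-- smooth, compactly supported in `(0,∞)` -/
structure Tf (φ : ℝ → ℝ) : Prop where
  sm : ContDiff ℝ ∞ φ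
  cpt : HasCompactSupport φ
  sub : tsupport φ ⊆ Ioi 0

theorem Tf.mul {φ q : ℝ → ℝ} (hφ : Tf φ) (hq : ContDiffOn ℝ ∞ q (Ioi 0)) :
    Tf (fun y => φ y * q y) := by
  have hs : tsupport (fun y => φ y * q y) ⊆ tsupport φ := tsupport_mul_subset_left
  refine ⟨?_, hφ.cpt.mul_right, hs.trans hφ.sub⟩
  rw [contDiff_iff_contDiffAt]
  intro x
  by_cases hx : x ∈ tsupport φ
  · exact hφ.sm.contDiffAt.mul (hq.contDiffAt (isOpen_Ioi.mem_nhds (hφ.sub hx)))
  · have h1 : (fun y => φ y * q y) =ᶠ[𝓝 x] fun _ => (0 : ℝ) := by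
      filter_upwards [notMem_tsupport_iff_eventuallyEq.1 hx] with y hy
      rw [hy]; simp
    exact contDiffAt_const.congr_of_eventuallyEq h1

theorem Tf.drv {φ : ℝ → ℝ} (hφ : Tf φ) : Tf (deriv φ) :=
  ⟨(contDiff_infty_iff_deriv.1 hφ.sm).2, hφ.cpt.deriv,
    tsupport_deriv_subset.trans hφ.sub⟩

theorem Tf.zero_of_le {φ : ℝ → ℝ} (hφ : Tf φ) {y : ℝ} (hy : y ≤ 0) : φ y = 0 := by
  by_contra h
  exact absurd (hφ.sub (subset_tsupport _ h)) (not_lt.2 hy)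

/-- product with a complex function continuous on `(0,∞)` -/
theorem Tf.mulC {φ : ℝ → ℝ} (hφ : Tf φ) {q : ℝ → ℂ} (hq : ContinuousOn q (Ioi 0)) :
    Continuous (fun y => (φ y : ℂ) * q y) ∧ HasCompactSupport (fun y => (φ y : ℂ) * q y) := by
  have h0 : ∀ x, x ∉ tsupport φ → (fun y => (φ y : ℂ) * q y) =ᶠ[𝓝 x] fun _ => 0 := by
    intro x hx
    filter_upwards [notMem_tsupport_iff_eventuallyEq.1 hx] with y hy
    rw [hy]; simp
  constructor
  · rw [continuous_iff_continuousAt]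
    intro x
    by_cases hx : x ∈ tsupport φ
    · exact (Complex.continuous_ofReal.comp hφ.sm.continuous).continuousAt.mul
        (hq.continuousAt (isOpen_Ioi.mem_nhds (hφ.sub hx)))
    · exact (continuousAt_const.congr (h0 x hx).symm)
  · refine hφ.cpt.mono' ?_
    intro x hx
    by_contra h
    exact hx (h0 x h).self_of_nhds

theorem Tf.memLpC {φ : ℝ → ℝ} (hφ : Tf φ) {q : ℝ → ℂ} (hq : ContinuousOn q (Ioi 0)) :
    MemLp (fun y => (φ y : ℂ) * q y) 2 (volume.restrict (Ioi 0)) := by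
  obtain ⟨h1, h2⟩ := hφ.mulC hq
  exact (h1.memLp_of_hasCompactSupport h2).restrict _

theorem Tf.integrableC {φ : ℝ → ℝ} (hφ : Tf φ) {q : ℝ → ℂ} (hq : ContinuousOn q (Ioi 0)) :
    IntegrableOn (fun y => (φ y : ℂ) * q y) (Ioi 0) := by
  obtain ⟨h1, h2⟩ := hφ.mulC hq
  exact (h1.integrable_of_hasCompactSupport h2).integrableOn

/-! ### Test functions `DD` -/

theorem DD.cdo {P : ℝ → ℂ} (hP : DD P) : ContDiffOn ℝ ∞ P (Ioi 0) :=
  hP.1.mono Ioi_subset_Ici_self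

theorem DD.cdo1 {P : ℝ → ℂ} (hP : DD P) : ContDiffOn ℝ ∞ (deriv P) (Ioi 0) :=
  hP.cdo.deriv_of_isOpen isOpen_Ioi (by simp)

theorem DD.cdo2 {P : ℝ → ℂ} (hP : DD P) : ContDiffOn ℝ ∞ (deriv (deriv P)) (Ioi 0) :=
  hP.cdo1.deriv_of_isOpen isOpen_Ioi (by simp)

/-- integration by parts twice -/
theorem Tf.by_parts {η : ℝ → ℝ} (hη : Tf η) {P : ℝ → ℂ} (hP : DD P) :
    ∫ y in Ioi (0 : ℝ), (η y : ℂ) * deriv (deriv P) y =
      ∫ y in Ioi (0 : ℝ), ((deriv (deriv η) y : ℝ) : ℂ) * P y := by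
  have i1 := hη.integrableC hP.cdo2.continuousOn
  have i2 := hη.drv.drv.integrableC hP.cdo.continuousOn
  have hd : ∀ {f : ℝ → ℂ}, ContDiffOn ℝ ∞ f (Ioi 0) → ∀ x ∈ Ioi (0 : ℝ),
      HasDerivAt f (deriv f x) x := fun hf x hx =>
    ((hf.contDiffAt (isOpen_Ioi.mem_nhds hx)).differentiableAt (by simp)).hasDerivAt
  have hr : ∀ {f : ℝ → ℝ}, ContDiff ℝ ∞ f → ∀ x,
      HasDerivAt (fun y => (f y : ℂ)) ((deriv f x : ℝ) : ℂ) x := fun hf x =>
    ((hf.differentiable (by simp)) x).hasDerivAt.ofReal_comp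
  obtain ⟨c1, s1⟩ := hη.mulC hP.cdo1.continuousOn
  obtain ⟨c2, s2⟩ := hη.drv.mulC hP.cdo.continuousOn
  have key := integral_Ioi_of_hasDerivAt_of_tendsto (a := (0 : ℝ)) (m := (0 : ℂ))
    (f := fun y => (η y : ℂ) * deriv P y - ((deriv η y : ℝ) : ℂ) * P y)
    (f' := fun y => (η y : ℂ) * deriv (deriv P) y - ((deriv (deriv η) y : ℝ) : ℂ) * P y)
    (c1.sub c2).continuousWithinAt ?_ (i1.sub i2) ?_
  · rw [hη.zero_of_le le_rfl, hη.drv.zero_of_le le_rfl] at key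
    rw [integral_sub i1 i2] at key
    simp only [Complex.ofReal_zero, zero_mul, sub_zero] at key
    exact sub_eq_zero.1 key
  · intro x hx
    have h1 := (hr hη.sm x).mul (hd hP.cdo1 x hx)
    have h2 := (hr hη.drv.sm x).mul (hd hP.cdo x hx)
    refine (h1.sub h2).congr_deriv ?_
    ring
  · obtain ⟨R, hR⟩ := (s1.sub s2).isCompact.bddAbove
    refine (tendsto_const_nhds (x := (0 : ℂ))).congr' ?_
    filter_upwards [eventually_gt_atTop R] with y hy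
    by_contra hne
    exact absurd (hR (subset_tsupport _ (Ne.symm hne))) (not_le.2 hy)

/-- Cauchy–Schwarz in `eLpNorm` form -/
theorem cs_enorm {μ : Measure ℝ} {f g : ℝ → ℂ} (hf : AEStronglyMeasurable f μ)
    (hg : AEStronglyMeasurable g μ) :
    ‖∫ y, f y * g y ∂μ‖ₑ ≤ eLpNorm f 2 μ * eLpNorm g 2 μ := by
  calc ‖∫ y, f y * g y ∂μ‖ₑ ≤ ∫⁻ y, ‖f y * g y‖ₑ ∂μ := enorm_integral_le_lintegral_enorm _
    _ = eLpNorm (f • g) 1 μ := by
        rw [eLpNorm_one_eq_lintegral_enorm]; rfl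
    _ ≤ _ := eLpNorm_smul_le_mul_eLpNorm hg hf

/-- vanishing against all test functions -/
theorem ae_zero_of_tf {F : ℝ → ℂ} (hF : MemLp F 2 (volume.restrict (Ioi 0)))
    (h : ∀ φ, Tf φ → ∫ y in Ioi (0 : ℝ), (φ y : ℂ) * F y = 0) :
    F =ᵐ[volume.restrict (Ioi 0)] 0 := by
  have hloc : LocallyIntegrableOn F (Ioi 0) volume := by
    have h1 : LocallyIntegrable F (volume.restrict (Ioi (0 : ℝ))) :=
      hF.locallyIntegrable (by norm_num)
    intro x _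
    obtain ⟨U, hU, hi⟩ := h1 x
    refine ⟨U ∩ Ioi 0, inter_mem (mem_nhdsWithin_of_mem_nhds hU) self_mem_nhdsWithin, ?_⟩
    rw [IntegrableOn, Measure.restrict_restrict' measurableSet_Ioi] at hi
    exact hi
  have key := isOpen_Ioi.ae_eq_zero_of_integral_contDiff_smul_eq_zero hloc (by
    intro φ h1 h2 h3
    have h4 := h φ ⟨h1, h2, h3⟩
    rw [← h4]
    rw [← integral_indicator measurableSet_Ioi]
    congr 1
    funext y
    by_cases hy : y ∈ Ioi (0 : ℝ)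
    · rw [indicator_of_mem hy]; simp
    · rw [indicator_of_notMem hy, Tf.zero_of_le ⟨h1, h2, h3⟩ (not_lt.1 hy), zero_smul])
  exact (ae_restrict_iff' measurableSet_Ioi).2 key

theorem dense_t {F : ℝ → ℂ} (hF : MemLp F 2 (volume.restrict (Ioi 0)))
    (h : ∀ Q, DD Q → ∫ y in Ioi (0 : ℝ), starRingEnd ℂ ((tv y : ℂ) * Q y) * F y = 0) :
    F =ᵐ[volume.restrict (Ioi 0)] 0 := by
  refine ae_zero_of_tf hF fun φ hφ => ?_
  have hq : Tf (fun y => φ y * (tv y)⁻¹) :=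
    hφ.mul (cdo_tv.inv fun y hy => (tv_pos hy).ne')
  have hQ : DD (fun y => ((φ y * (tv y)⁻¹ : ℝ) : ℂ)) := by
    refine ⟨(Complex.ofRealCLM.contDiff.comp hq.sm).contDiffOn, ?_⟩
    obtain ⟨R, hR⟩ := hq.cpt.isCompact.bddAbove
    refine ⟨R + 1, fun y hy => ?_⟩
    have : (φ y * (tv y)⁻¹ : ℝ) = 0 := by
      by_contra hne
      have := hR (subset_tsupport _ hne)
      linarith
    simp only [this, Complex.ofReal_zero]
  rw [← h _ hQ]
  refine setIntegral_congr_fun measurableSet_Ioi fun y hy => ?_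
  have h1 := (tv_pos hy).ne'
  show (φ y : ℂ) * F y = _
  congr 1
  rw [← Complex.ofReal_mul, Complex.conj_ofReal]
  congr 1
  field_simp

theorem closable {c0 C0 : ℝ} {g : ℝ → ℝ} (hg : Prof c0 C0 g) {P : ℕ → ℝ → ℂ}
    (hP : ∀ n, DD (P n)) {F : ℝ → ℂ} (hF : MemLp F 2 (volume.restrict (Ioi 0)))
    (h0 : Tendsto (fun n => eLpNorm (fun y => (sv y : ℂ) * P n y) 2 (volume.restrict (Ioi 0)))
      atTop (𝓝 0))
    (h1 : Tendsto (fun n => eLpNorm (fun y => (sv y : ℂ) * ((y * g y : ℝ) : ℂ) *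
      deriv (deriv (P n)) y - F y) 2 (volume.restrict (Ioi 0))) atTop (𝓝 0)) :
    F =ᵐ[volume.restrict (Ioi 0)] 0 := by
  refine ae_zero_of_tf hF fun φ hφ => ?_
  have hG : ContDiffOn ℝ ∞ (fun y => sv y * (y * g y)) (Ioi 0) :=
    cdo_sv.mul (contDiff_id.mul hg.smooth).contDiffOn
  have hη : Tf (fun y => φ y * (sv y * (y * g y))) := hφ.mul hG
  set η : ℝ → ℝ := fun y => φ y * (sv y * (y * g y)) with hηdef
  have hinv : ContDiffOn ℝ ∞ (fun y => (sv y)⁻¹) (Ioi 0) := cdo_sv.inv fun y hy => (sv_pos hy).ne'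
  have cR : ∀ {q : ℝ → ℝ}, ContDiffOn ℝ ∞ q (Ioi 0) →
      ContinuousOn (fun y => (q y : ℂ)) (Ioi 0) := fun hq =>
    Complex.continuous_ofReal.comp_continuousOn hq.continuousOn
  have c1 : ContinuousOn (fun _ : ℝ => (1 : ℂ)) (Ioi 0) := continuousOn_const
  have mφ : MemLp (fun y => (φ y : ℂ)) 2 (volume.restrict (Ioi 0)) := by
    simpa using hφ.memLpC c1
  have mη : MemLp (fun y => ((deriv (deriv η) y : ℝ) : ℂ) * ((sv y)⁻¹ : ℝ)) 2
      (volume.restrict (Ioi 0)) := hη.drv.drv.memLpC (cR hinv)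
  have hf : ∀ n, ContinuousOn (fun y => (sv y : ℂ) * ((y * g y : ℝ) : ℂ) *
      deriv (deriv (P n)) y) (Ioi 0) := fun n =>
    ((cR cdo_sv).mul (cR (contDiff_id.mul hg.smooth).contDiffOn)).mul (hP n).cdo2.continuousOn
  have hid : ∀ n, ∫ y in Ioi (0 : ℝ), (φ y : ℂ) * ((sv y : ℂ) * ((y * g y : ℝ) : ℂ) *
      deriv (deriv (P n)) y) = ∫ y in Ioi (0 : ℝ), (((deriv (deriv η) y : ℝ) : ℂ) * ((sv y)⁻¹ : ℝ)) *
        ((sv y : ℂ) * P n y) := by
    intro n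
    have e1 : ∫ y in Ioi (0 : ℝ), (φ y : ℂ) * ((sv y : ℂ) * ((y * g y : ℝ) : ℂ) *
        deriv (deriv (P n)) y) = ∫ y in Ioi (0 : ℝ), (η y : ℂ) * deriv (deriv (P n)) y := by
      refine setIntegral_congr_fun measurableSet_Ioi fun y _ => ?_
      simp only [hηdef]
      push_cast
      ring
    rw [e1, hη.by_parts (hP n)]
    refine setIntegral_congr_fun measurableSet_Ioi fun y hy => ?_
    have : (sv y : ℂ) ≠ 0 := Complex.ofReal_ne_zero.2 (sv_pos hy).ne'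
    push_cast
    field_simp
  have hb : ∀ n, ‖∫ y in Ioi (0 : ℝ), (φ y : ℂ) * F y‖ₑ ≤
      eLpNorm (fun y => (φ y : ℂ)) 2 (volume.restrict (Ioi 0)) *
        eLpNorm (fun y => (sv y : ℂ) * ((y * g y : ℝ) : ℂ) * deriv (deriv (P n)) y - F y) 2
          (volume.restrict (Ioi 0)) +
      eLpNorm (fun y => ((deriv (deriv η) y : ℝ) : ℂ) * ((sv y)⁻¹ : ℝ)) 2 (volume.restrict (Ioi 0)) *
        eLpNorm (fun y => (sv y : ℂ) * P n y) 2 (volume.restrict (Ioi 0)) := by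
    intro n
    have i1 : IntegrableOn (fun y => (φ y : ℂ) * ((sv y : ℂ) * ((y * g y : ℝ) : ℂ) *
      deriv (deriv (P n)) y)) (Ioi 0) := hφ.integrableC (hf n)
    have i2 : IntegrableOn (fun y => (φ y : ℂ) * F y) (Ioi 0) := MemLp.integrable_mul mφ hF
    have m3 : AEStronglyMeasurable (fun y => (sv y : ℂ) * ((y * g y : ℝ) : ℂ) *
        deriv (deriv (P n)) y - F y) (volume.restrict (Ioi 0)) :=
      ((hf n).aestronglyMeasurable measurableSet_Ioi).sub hF.1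
    have m4 : AEStronglyMeasurable (fun y => (sv y : ℂ) * P n y) (volume.restrict (Ioi 0)) :=
      ((cR cdo_sv).mul (hP n).cdo.continuousOn).aestronglyMeasurable measurableSet_Ioi
    have e : ∫ y in Ioi (0 : ℝ), (φ y : ℂ) * F y =
        (∫ y in Ioi (0 : ℝ), (((deriv (deriv η) y : ℝ) : ℂ) * ((sv y)⁻¹ : ℝ)) * ((sv y : ℂ) * P n y)) -
        ∫ y in Ioi (0 : ℝ), (φ y : ℂ) * ((sv y : ℂ) * ((y * g y : ℝ) : ℂ) *
          deriv (deriv (P n)) y - F y) := by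
      rw [← hid n]
      have : ∀ y, (φ y : ℂ) * ((sv y : ℂ) * ((y * g y : ℝ) : ℂ) *
          deriv (deriv (P n)) y - F y) = (φ y : ℂ) * ((sv y : ℂ) * ((y * g y : ℝ) : ℂ) *
          deriv (deriv (P n)) y) - (φ y : ℂ) * F y := fun y => mul_sub _ _ _
      simp_rw [this]
      rw [integral_sub i1 i2]
      ring
    rw [e]
    refine (enorm_sub_le).trans ?_
    rw [add_comm]
    exact add_le_add (cs_enorm mφ.1 m3) (cs_enorm mη.1 m4)
  have hlim : Tendsto (fun n => eLpNorm (fun y => (φ y : ℂ)) 2 (volume.restrict (Ioi 0)) *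
        eLpNorm (fun y => (sv y : ℂ) * ((y * g y : ℝ) : ℂ) * deriv (deriv (P n)) y - F y) 2
          (volume.restrict (Ioi 0)) +
      eLpNorm (fun y => ((deriv (deriv η) y : ℝ) : ℂ) * ((sv y)⁻¹ : ℝ)) 2 (volume.restrict (Ioi 0)) *
        eLpNorm (fun y => (sv y : ℂ) * P n y) 2 (volume.restrict (Ioi 0))) atTop (𝓝 0) := by
    have a1 := ENNReal.Tendsto.const_mul (a := eLpNorm (fun y => (φ y : ℂ)) 2
      (volume.restrict (Ioi 0))) h1 (Or.inr mφ.2.ne)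
    have a2 := ENNReal.Tendsto.const_mul (a := eLpNorm (fun y => ((deriv (deriv η) y : ℝ) : ℂ) *
      ((sv y)⁻¹ : ℝ)) 2 (volume.restrict (Ioi 0))) h0 (Or.inr mη.2.ne)
    simpa using a1.add a2
  have hz := ge_of_tendsto' hlim hb
  exact enorm_eq_zero.1 (le_antisymm hz bot_le)

end Crest.Agent.R213.A
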