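import Crest.Agent.R213.A.StHilb

/-!
# Row 213, Part A: the stationary form in Hilbert space language
-/

set_option autoImplicit false

open Set MeasureTheory Filter Topology
open scoped InnerProductSpace ENNReal

noncomputable section

namespace Crest.Agent.R213.A.St

/-- closure of `CC` for complex-valued functions under multiplication by continuous functions -/
lemma CC.cmul {a : ℝ → ℂ} (ha : Continuous a) {F : ℝ → ℂ} (hF : CC F) :
    CC (fun y => a y * F y) := by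
  obtain ⟨hc, R, hR⟩ := hF
  exact ⟨ha.continuousOn.mul hc, R, fun y hy => by simp [hR y hy]⟩

lemma CC.cadd {F F' : ℝ → ℂ} (hF : CC F) (hF' : CC F') : CC (fun y => F y + F' y) := by
  obtain ⟨hc, R, hR⟩ := hF
  obtain ⟨hc', R', hR'⟩ := hF'
  exact ⟨hc.add hc', max R R', fun y hy => by
    simp [hR y ((le_max_left _ _).trans hy), hR' y ((le_max_right _ _).trans hy)]⟩

lemma CC.cconj_mul {F G : ℝ → ℂ} (hF : CC F) (hG : CC G) :
    CC (fun y => starRingEnd ℂ (F y) * G y) := by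
  obtain ⟨hc, R, hR⟩ := hF
  exact ⟨(Complex.continuous_conj.comp_continuousOn hc).mul hG.1, R, fun y hy => by simp [hR y hy]⟩

lemma cc0 {P : ℝ → ℂ} (h : DD P) : CC P := ⟨(dd_tf h).c0, (dd_tf h).s0⟩
lemma cc1 {P : ℝ → ℂ} (h : DD P) : CC (D1 P) := ⟨(dd_tf h).c1, (dd_tf h).s1⟩
lemma cc2 {P : ℝ → ℂ} (h : DD P) : CC (D2 P) := ⟨(dd_tf h).c2, (dd_tf h).s2⟩

lemma cc_iF0 {P : ℝ → ℂ} (h : DD P) : CC (fun y => (sv y : ℂ) * P y) :=
  (cc0 h).cmul (Complex.continuous_ofReal.comp sv_cont)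

lemma cc_iF1 {g : ℝ → ℝ} (hg : Continuous g) {P : ℝ → ℂ} (h : DD P) :
    CC (fun y => ((sv y * (y * g y) : ℝ) : ℂ) * D2 P y) :=
  (cc2 h).cmul (a := fun y => ((sv y * (y * g y) : ℝ) : ℂ))
    (Complex.continuous_ofReal.comp (sv_cont.mul (continuous_id.mul hg)))

lemma cc_bF1 {g : ℝ → ℝ} (hg : Continuous g) {P : ℝ → ℂ} (h : DD P) :
    CC (fun y => ((tv y * (y * g y) : ℝ) : ℂ) * D2 P y) :=
  (cc2 h).cmul (a := fun y => ((tv y * (y * g y) : ℝ) : ℂ))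
    (Complex.continuous_ofReal.comp (tv_cont.mul (continuous_id.mul hg)))

lemma cc_jF {P : ℝ → ℂ} (h : DD P) : CC (fun y => (tv y : ℂ) * P y) :=
  (cc0 h).cmul (Complex.continuous_ofReal.comp tv_cont)

lemma cc_bF0 {P : ℝ → ℂ} (h : DD P) :
    CC (fun y => (tv y : ℂ) * (5 * P y + ((y / 2 : ℝ) : ℂ) * D1 P y)) := by
  have h1 : CC (fun y => (5 : ℂ) * P y) := (cc0 h).cmul continuous_const
  have h2 : CC (fun y => ((y / 2 : ℝ) : ℂ) * D1 P y) :=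
    (cc1 h).cmul (a := fun y => ((y / 2 : ℝ) : ℂ)) (by fun_prop)
  exact (h1.cadd h2).cmul (Complex.continuous_ofReal.comp tv_cont)

/-- the energy embedding -/
def iota {g : ℝ → ℝ} (hg : Continuous g) (P : ℝ → ℂ) (h : DD P) : HH :=
  WithLp.toLp 2 (toL _ (cc_iF1 hg h), toL _ (cc_iF0 h))

/-- Riesz vector of `B₀(Q,·)` -/
def bvec {g : ℝ → ℝ} (hg : Continuous g) (P : ℝ → ℂ) (h : DD P) : HH :=
  WithLp.toLp 2 (toL _ (cc_bF1 hg h), toL _ (cc_bF0 h))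

/-- Riesz vector of the mass form -/
def jvec (P : ℝ → ℂ) (h : DD P) : LL := toL _ (cc_jF h)

lemma iota_congr {g : ℝ → ℝ} (hg : Continuous g) {P Q : ℝ → ℂ} (h : DD P) (h' : DD Q) (e : P = Q) :
    iota hg P h = iota hg Q h' := by subst e; rfl

/-- the energy embedding as a linear map -/
def iotaL {g : ℝ → ℝ} (hg : Continuous g) : DDs →ₗ[ℂ] HH where
  toFun P := iota hg P.1 P.2
  map_add' P Q := by
    have h1 : toL _ (cc_iF1 hg (dd_add P.2 Q.2)) = toL _ (cc_iF1 hg P.2) + toL _ (cc_iF1 hg Q.2) := by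
      unfold toL
      rw [← MemLp.toLp_add, MemLp.toLp_eq_toLp_iff]
      filter_upwards [ae_restrict_mem measurableSet_Ioi] with y hy
      simp only [Pi.add_apply]
      rw [D2_add P.2 Q.2 hy]; ring
    have h2 : toL _ (cc_iF0 (dd_add P.2 Q.2)) = toL _ (cc_iF0 P.2) + toL _ (cc_iF0 Q.2) := by
      unfold toL
      rw [← MemLp.toLp_add, MemLp.toLp_eq_toLp_iff]
      filter_upwards [ae_restrict_mem measurableSet_Ioi] with y hy
      simp only [Pi.add_apply]; ring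
    change WithLp.toLp 2 (toL _ (cc_iF1 hg (dd_add P.2 Q.2)), toL _ (cc_iF0 (dd_add P.2 Q.2))) = _
    rw [h1, h2]; rfl
  map_smul' a P := by
    have h1 : toL _ (cc_iF1 hg (dd_smul a P.2)) = a • toL _ (cc_iF1 hg P.2) := by
      unfold toL
      rw [← MemLp.toLp_const_smul, MemLp.toLp_eq_toLp_iff]
      filter_upwards [ae_restrict_mem measurableSet_Ioi] with y hy
      simp only [Pi.smul_apply, smul_eq_mul]
      rw [D2_smul a P.2 hy]; ring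
    have h2 : toL _ (cc_iF0 (dd_smul a P.2)) = a • toL _ (cc_iF0 P.2) := by
      unfold toL
      rw [← MemLp.toLp_const_smul, MemLp.toLp_eq_toLp_iff]
      filter_upwards [ae_restrict_mem measurableSet_Ioi] with y hy
      simp only [Pi.smul_apply, smul_eq_mul]; ring
    change WithLp.toLp 2 (toL _ (cc_iF1 hg (dd_smul a P.2)), toL _ (cc_iF0 (dd_smul a P.2))) = _
    rw [h1, h2]; rfl

/-- `⟪bvec Q, iota P⟫` as an integral -/
lemma inner_bvec_iota {g : ℝ → ℝ} (hg : Continuous g) {P Q : ℝ → ℂ} (hP : DD P) (hQ : DD Q) :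
    ⟪bvec hg Q hQ, iota hg P hP⟫_ℂ = ∫ y in Ioi (0 : ℝ), ((y ^ 9 : ℝ) : ℂ) *
      ((((y * g y) ^ 2 : ℝ) : ℂ) * (starRingEnd ℂ (D2 Q y) * D2 P y) +
        starRingEnd ℂ (5 * Q y + ((y / 2 : ℝ) : ℂ) * D1 Q y) * P y) := by
  rw [WithLp.prod_inner_apply]
  change ⟪toL _ (cc_bF1 hg hQ), toL _ (cc_iF1 hg hP)⟫_ℂ + ⟪toL _ (cc_bF0 hQ), toL _ (cc_iF0 hP)⟫_ℂ = _
  rw [inner_toL, inner_toL, ← integral_add ((cc_bF1 hg hQ).cconj_mul (cc_iF1 hg hP)).integrableOn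
    ((cc_bF0 hQ).cconj_mul (cc_iF0 hP)).integrableOn]
  refine setIntegral_congr_fun measurableSet_Ioi fun y hy => ?_
  have h1 := tv_sv (le_of_lt (mem_Ioi.1 hy))
  simp only [map_mul, Complex.conj_ofReal]
  rw [← h1]; push_cast; ring

lemma inner_jvec_iota {g : ℝ → ℝ} (hg : Continuous g) {P Q : ℝ → ℂ} (hP : DD P) (hQ : DD Q) :
    ⟪jvec Q hQ, (iota hg P hP).snd⟫_ℂ = ∫ y in Ioi (0 : ℝ), ((y ^ 9 : ℝ) : ℂ) *
      (starRingEnd ℂ (Q y) * P y) := by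
  change ⟪toL _ (cc_jF hQ), toL _ (cc_iF0 hP)⟫_ℂ = _
  rw [inner_toL]
  refine setIntegral_congr_fun measurableSet_Ioi fun y hy => ?_
  have h1 := tv_sv (le_of_lt (mem_Ioi.1 hy))
  simp only [map_mul, Complex.conj_ofReal]
  rw [← h1]; push_cast; ring

lemma norm_iota_sq {g : ℝ → ℝ} (hg : Continuous g) {P : ℝ → ℂ} (hP : DD P) :
    ‖iota hg P hP‖ ^ 2 = (∫ y in Ioi (0 : ℝ), y ^ 11 * (g y) ^ 2 * (1 + y ^ 2) ^ 60 * ‖D2 P y‖ ^ 2) +
      ∫ y in Ioi (0 : ℝ), y ^ 9 * (1 + y ^ 2) ^ 60 * ‖P y‖ ^ 2 := by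
  rw [WithLp.prod_norm_sq_eq_of_L2]
  change ‖toL _ (cc_iF1 hg hP)‖ ^ 2 + ‖toL _ (cc_iF0 hP)‖ ^ 2 = _
  rw [norm_toL_sq, norm_toL_sq]
  congr 1
  · refine setIntegral_congr_fun measurableSet_Ioi fun y hy => ?_
    have h1 := sv_sq (le_of_lt (mem_Ioi.1 hy))
    simp only [norm_mul, Complex.norm_real, mul_pow, Real.norm_eq_abs, sq_abs]
    rw [h1]; ring
  · refine setIntegral_congr_fun measurableSet_Ioi fun y hy => ?_
    have h1 := sv_sq (le_of_lt (mem_Ioi.1 hy))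
    simp only [norm_mul, Complex.norm_real, mul_pow, Real.norm_eq_abs, sq_abs]
    rw [h1]

lemma norm_iota_sq_stY {g : ℝ → ℝ} (hg : Continuous g) {P : ℝ → ℂ} (hP : DD P) :
    ‖iota hg P hP‖ ^ 2 = stY g P := by
  rw [norm_iota_sq]
  have a1 : CC (fun y => y ^ 11 * (g y) ^ 2 * (1 + y ^ 2) ^ 60 * ‖D2 P y‖ ^ 2) :=
    (cc_norm_sq (cc2 hP).1 (cc2 hP).2).mul_left
      (a := fun y => y ^ 11 * (g y) ^ 2 * (1 + y ^ 2) ^ 60) (by fun_prop)
  have a2 : CC (fun y => y ^ 9 * (1 + y ^ 2) ^ 60 * ‖P y‖ ^ 2) :=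
    (cc_norm_sq (cc0 hP).1 (cc0 hP).2).mul_left
      (a := fun y => y ^ 9 * (1 + y ^ 2) ^ 60) (by fun_prop)
  rw [← integral_add a1.integrableOn a2.integrableOn, stY]
  refine setIntegral_congr_fun measurableSet_Ioi fun y hy => ?_
  simp only [w60]
  rw [DD.deriv2_eq (mem_Ioi.1 hy)]
  simp only [D2]
  ring

/-- (Z) for complex-valued functions -/
lemma integral_total_c {F F' : ℝ → ℂ} (hF : CC F) (hF' : CC F') (h0 : F 0 = 0)
    (hd : ∀ y : ℝ, 0 < y → HasDerivAt F (F' y) y) : ∫ y in Ioi (0 : ℝ), F' y = 0 := by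
  have h1 : Tendsto F atTop (𝓝 0) := by
    obtain ⟨-, R, hR⟩ := hF
    refine tendsto_const_nhds.congr' ?_
    filter_upwards [eventually_ge_atTop R] with y hy
    exact (hR y hy).symm
  have h2 := integral_Ioi_of_hasDerivAt_of_tendsto (a := (0 : ℝ))
    (hF.1 0 (mem_Ici.2 le_rfl)) (fun x hx => hd x hx) hF'.integrableOn h1
  rw [h2, h0, sub_zero]

/-- the stationary form in Hilbert space language -/
lemma stForm_eq {g : ℝ → ℝ} (hg : Continuous g) (κ ξ : ℝ) {P Q : ℝ → ℂ} (hP : DD P) (hQ : DD Q) :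
    stForm g κ ξ Q P = ⟪bvec hg Q hQ, iota hg P hP⟫_ℂ -
      (((65 / 2 - κ : ℝ) : ℂ) + ξ * Complex.I) * ⟪jvec Q hQ, (iota hg P hP).snd⟫_ℂ := by
  rw [inner_bvec_iota, inner_jvec_iota, ← integral_const_mul]
  -- the total derivative
  set F : ℝ → ℂ := fun y => ((y ^ 10 / 2 : ℝ) : ℂ) * (starRingEnd ℂ (Q y) * P y) with hF
  set F' : ℝ → ℂ := fun y => ((5 * y ^ 9 : ℝ) : ℂ) * (starRingEnd ℂ (Q y) * P y) +
    ((y ^ 10 / 2 : ℝ) : ℂ) * (starRingEnd ℂ (D1 Q y) * P y + starRingEnd ℂ (Q y) * D1 P y) with hF'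
  have cQP := (cc0 hQ).cconj_mul (cc0 hP)
  have cQ1P := (cc1 hQ).cconj_mul (cc0 hP)
  have cQP1 := (cc0 hQ).cconj_mul (cc1 hP)
  have cQ2P2 := (cc2 hQ).cconj_mul (cc2 hP)
  have hF'c : CC F' := (cQP.cmul (a := fun y => ((5 * y ^ 9 : ℝ) : ℂ)) (by fun_prop)).cadd
    ((cQ1P.cadd cQP1).cmul (a := fun y => ((y ^ 10 / 2 : ℝ) : ℂ)) (by fun_prop))
  have h0 : ∫ y in Ioi (0 : ℝ), F' y = 0 := by
    refine integral_total_c (F := F) (cQP.cmul (a := fun y => ((y ^ 10 / 2 : ℝ) : ℂ)) (by fun_prop))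
      hF'c (by simp [hF]) ?_
    intro y hy
    have h1 : HasDerivAt (fun y : ℝ => ((y ^ 10 / 2 : ℝ) : ℂ)) (((5 * y ^ 9 : ℝ) : ℂ)) y := by
      have : HasDerivAt (fun y : ℝ => y ^ 10 / 2) (5 * y ^ 9) y := by
        refine ((hasDerivAt_pow 10 y).div_const 2).congr_deriv ?_
        norm_num; ring
      exact this.ofReal_comp
    have h2 : HasDerivAt (fun y => starRingEnd ℂ (Q y)) (starRingEnd ℂ (D1 Q y)) y := by
      exact ((dd_tf hQ).d1 y hy).star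
    have h3 := h1.mul (h2.mul ((dd_tf hP).d1 y hy))
    exact h3
  -- integrability of the three integrands
  have c1 : CC (fun y => ((y ^ 9 : ℝ) : ℂ) *
      ((((y * g y) ^ 2 : ℝ) : ℂ) * (starRingEnd ℂ (D2 Q y) * D2 P y) +
        starRingEnd ℂ (5 * Q y + ((y / 2 : ℝ) : ℂ) * D1 Q y) * P y)) := by
    have e1 : CC (fun y => (((y * g y) ^ 2 : ℝ) : ℂ) * (starRingEnd ℂ (D2 Q y) * D2 P y)) :=
      cQ2P2.cmul (a := fun y => (((y * g y) ^ 2 : ℝ) : ℂ)) (by fun_prop)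
    have e2 : CC (fun y => (5 : ℂ) * Q y + ((y / 2 : ℝ) : ℂ) * D1 Q y) :=
      ((cc0 hQ).cmul continuous_const).cadd ((cc1 hQ).cmul (a := fun y => ((y / 2 : ℝ) : ℂ))
        (by fun_prop))
    exact (e1.cadd (e2.cconj_mul (cc0 hP))).cmul (a := fun y => ((y ^ 9 : ℝ) : ℂ)) (by fun_prop)
  have c2 : CC (fun y => (((65 / 2 - κ : ℝ) : ℂ) + ξ * Complex.I) *
      (((y ^ 9 : ℝ) : ℂ) * (starRingEnd ℂ (Q y) * P y))) :=
    (cQP.cmul (a := fun y => ((y ^ 9 : ℝ) : ℂ)) (by fun_prop)).cmul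
      (a := fun _ => (((65 / 2 - κ : ℝ) : ℂ) + ξ * Complex.I)) continuous_const
  rw [← integral_sub c1.integrableOn c2.integrableOn, ← sub_zero (∫ y in Ioi (0 : ℝ), _), ← h0,
    ← integral_sub ?_ hF'c.integrableOn, stForm]
  · refine setIntegral_congr_fun measurableSet_Ioi fun y hy => ?_
    simp only [hF']
    rw [DD.deriv2_eq (mem_Ioi.1 hy), DD.deriv2_eq (mem_Ioi.1 hy), DD.deriv_eq (mem_Ioi.1 hy)]
    simp only [D1, D2, map_add, map_mul, Complex.conj_ofReal, map_ofNat]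
    push_cast
    ring
  · exact (c1.integrableOn.sub c2.integrableOn)

end Crest.Agent.R213.A.St
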