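import Crest.Agent.R213.A.StIneq

/-!
# Row 213, Part A, block A4: stationary Gårding inequality with a general weight `v`
-/

set_option autoImplicit false

open Set MeasureTheory Filter Topology
open scoped InnerProductSpace

noncomputable section

namespace Crest.Agent.R213.A.St

/-- admissible multiplier: `v` with first and second derivative, `0 ≤ v ≤ w`,
`|v'| ≤ A y (1+y²)^59`, `|v''| ≤ A (1+y²)^59`. -/
structure Wgt (A : ℝ) (v v1 v2 : ℝ → ℝ) : Prop where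
  A_nonneg : 0 ≤ A
  c0 : Continuous v
  c1 : Continuous v1
  c2 : Continuous v2
  d1 : ∀ y : ℝ, 0 < y → HasDerivAt v (v1 y) y
  d2 : ∀ y : ℝ, 0 < y → HasDerivAt v1 (v2 y) y
  nonneg : ∀ y : ℝ, 0 < y → 0 ≤ v y
  le_w : ∀ y : ℝ, 0 < y → v y ≤ (1 + y ^ 2) ^ 60
  b1 : ∀ y : ℝ, 0 < y → |v1 y| ≤ A * (y * (1 + y ^ 2) ^ 59)
  b2 : ∀ y : ℝ, 0 < y → |v2 y| ≤ A * (1 + y ^ 2) ^ 59

variable {c0 C0 : ℝ} {g : ℝ → ℝ}

/-- pointwise algebra for the Gårding inequality; `s = T^58` -/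
lemma pw_garding {y T s g C0 A v v1 v2 a b c i02 i12 : ℝ} (hy : 0 < y) (hT : T = 1 + y ^ 2)
    (hs : 0 < s) (hg : 0 < g) (hgC : g ≤ C0) (hA : 0 ≤ A)
    (hv1 : |v1| ≤ A * (y * (s * T))) (hv2 : |v2| ≤ A * (s * T))
    (h02 : |i02| ≤ b * c) (h12 : |i12| ≤ a * c) :
    y ^ 11 * g ^ 2 * (v * c ^ 2) - 3 / 16 * (y ^ 11 * g ^ 2 * (s * T ^ 2) * c ^ 2) -
        8 * A ^ 2 * (y ^ 13 * g ^ 2 * s * a ^ 2) - 4 * A ^ 2 * C0 ^ 2 * (y ^ 9 * (s * T) * b ^ 2) ≤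
      y ^ 11 * g ^ 2 * (v2 * i02 + 2 * v1 * i12 + v * c ^ 2) := by
  have hTpos : 0 < T := by rw [hT]; positivity
  have hyT : y ^ 2 ≤ T := by rw [hT]; linarith
  have hC0 : 0 < C0 := lt_of_lt_of_le hg hgC
  have h1 : -(A * (s * T) * (b * c)) ≤ v2 * i02 := by
    have : |v2 * i02| ≤ A * (s * T) * (b * c) := by
      rw [abs_mul]; exact mul_le_mul hv2 h02 (abs_nonneg _) (by positivity)
    exact (abs_le.1 this).1
  have h2 : -(A * (y * (s * T)) * (a * c)) ≤ v1 * i12 := by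
    have : |v1 * i12| ≤ A * (y * (s * T)) * (a * c) := by
      rw [abs_mul]; exact mul_le_mul hv1 h12 (abs_nonneg _) (by positivity)
    exact (abs_le.1 this).1
  have h3 : 2 * (A * (y * (s * T)) * (a * c)) ≤ 1 / 8 * (s * T ^ 2 * c ^ 2) + 8 * A ^ 2 * (y ^ 2 * s * a ^ 2) := by
    have : 0 ≤ s * (1 / 8) * (T * c - 8 * A * y * a) ^ 2 := by positivity
    nlinarith
  have h4 : A * (s * T) * (b * c) ≤ 1 / 16 * (s * T ^ 2 * c ^ 2) + 4 * A ^ 2 * (s * b ^ 2) := by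
    have : 0 ≤ s * (1 / 16) * (T * c - 8 * A * b) ^ 2 := by positivity
    nlinarith
  have h5 : y ^ 11 * g ^ 2 * (4 * A ^ 2 * (s * b ^ 2)) ≤ 4 * A ^ 2 * C0 ^ 2 * (y ^ 9 * (s * T) * b ^ 2) := by
    have e1 : g ^ 2 ≤ C0 ^ 2 := pow_le_pow_left₀ hg.le hgC 2
    calc y ^ 11 * g ^ 2 * (4 * A ^ 2 * (s * b ^ 2)) = (4 * A ^ 2 * (y ^ 9 * s * b ^ 2)) * (g ^ 2 * y ^ 2) := by ring
      _ ≤ (4 * A ^ 2 * (y ^ 9 * s * b ^ 2)) * (C0 ^ 2 * T) :=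
          mul_le_mul_of_nonneg_left (mul_le_mul e1 hyT (by positivity) (by positivity)) (by positivity)
      _ = _ := by ring
  have h6 : 0 < y ^ 11 * g ^ 2 := by positivity
  have h7 : y ^ 11 * g ^ 2 * (v * c ^ 2 - (1 / 8 * (s * T ^ 2 * c ^ 2) + 8 * A ^ 2 * (y ^ 2 * s * a ^ 2))
      - (1 / 16 * (s * T ^ 2 * c ^ 2) + 4 * A ^ 2 * (s * b ^ 2))) ≤
      y ^ 11 * g ^ 2 * (v2 * i02 + 2 * v1 * i12 + v * c ^ 2) :=
    mul_le_mul_of_nonneg_left (by linarith) h6.le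
  nlinarith

/-- the constant in the Gårding inequality -/
def C1c (A C0 : ℝ) : ℝ :=
  8 * A ^ 2 * ((133 * C0) ^ 2 + C0 ^ 2 / (1 / (128 * (A ^ 2 + 1)))) + 4 * A ^ 2 * C0 ^ 2

/-- the bilinear expression `y⁹[(yg)² Re(conj Q'' P'') + Re(conj (5Q + (y/2)Q') P)]` for
`Q = v P`, written with real inner products. -/
def gInt (g v v1 v2 : ℝ → ℝ) (P P1 P2 : ℝ → ℂ) (y : ℝ) : ℝ :=
  y ^ 9 * ((y * g y) ^ 2 * ⟪(v2 y : ℂ) * P y + 2 * v1 y * P1 y + v y * P2 y, P2 y⟫_ℝ +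
    ⟪5 * (v y * P y) + (y / 2) * (v1 y * P y + v y * P1 y), P y⟫_ℝ)

lemma gInt_eq (g v v1 v2 : ℝ → ℝ) (P P1 P2 : ℝ → ℂ) (y : ℝ) :
    gInt g v v1 v2 P P1 P2 y = y ^ 11 * (g y) ^ 2 * (v2 y * ⟪P y, P2 y⟫_ℝ +
      2 * v1 y * ⟪P1 y, P2 y⟫_ℝ + v y * ‖P2 y‖ ^ 2) +
      y ^ 9 * (5 * v y * ‖P y‖ ^ 2 + y / 2 * (v1 y * ‖P y‖ ^ 2 + v y * ⟪P1 y, P y⟫_ℝ)) := by
  have e1 : (v2 y : ℂ) * P y + 2 * v1 y * P1 y + v y * P2 y =
      v2 y • P y + (2 * v1 y) • P1 y + v y • P2 y := by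
    simp [Complex.real_smul]
  have e2 : (5 : ℂ) * (v y * P y) + (y / 2) * (v1 y * P y + v y * P1 y) =
      (5 * v y + y / 2 * v1 y) • P y + (y / 2 * v y) • P1 y := by
    simp only [Complex.real_smul]; push_cast; ring
  rw [gInt, e1, e2]
  simp only [inner_add_left, real_inner_smul_left, real_inner_self_eq_norm_sq]
  ring

/-- (GV) -/
lemma garding_v (hg : Prof c0 C0 g) {A : ℝ} {v v1 v2 : ℝ → ℝ} (hv : Wgt A v v1 v2)
    {P P1 P2 : ℝ → ℂ} (h : TF P P1 P2) :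
    (∫ y in Ioi (0 : ℝ), (y ^ 11 * (g y) ^ 2 * ((v y - 1 / 4 * (1 + y ^ 2) ^ 60) * ‖P2 y‖ ^ 2) +
        y ^ 9 * ((5 / 2 * v y + 1 / 4 * (y * v1 y)) * ‖P y‖ ^ 2))) -
      C1c A C0 * (∫ y in Ioi (0 : ℝ), y ^ 9 * (1 + y ^ 2) ^ 59 * ‖P y‖ ^ 2) ≤
    ∫ y in Ioi (0 : ℝ), gInt g v v1 v2 P P1 P2 y := by
  have hgc := Prof.cont hg
  have hvc := hv.c0
  have hv1c := hv.c1
  have hv2c := hv.c2
  have n0 := cc_norm_sq h.c0 h.s0
  have n1 := cc_norm_sq h.c1 h.s1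
  have n2 := cc_norm_sq h.c2 h.s2
  have i02 := cc_inner h.c0 h.c2 h.s0
  have i12 := cc_inner h.c1 h.c2 h.s1
  have i10 := cc_inner h.c1 h.c0 h.s1
  have i01 := cc_inner h.c0 h.c1 h.s0
  have hA := hv.A_nonneg
  -- CC facts
  have hG : CC (fun y => gInt g v v1 v2 P P1 P2 y) := by
    simp_rw [gInt_eq]
    have t1 : CC (fun y => y ^ 11 * (g y) ^ 2 * (v2 y * ⟪P y, P2 y⟫_ℝ +
      2 * v1 y * ⟪P1 y, P2 y⟫_ℝ + v y * ‖P2 y‖ ^ 2)) :=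
      CC.mul_left (a := fun y => y ^ 11 * (g y) ^ 2) (by fun_prop)
        (((i02.mul_left hv2c).add' (i12.mul_left (a := fun y => 2 * v1 y) (by fun_prop))).add'
          (n2.mul_left hvc))
    have t2 : CC (fun y => y ^ 9 * (5 * v y * ‖P y‖ ^ 2 + y / 2 *
        (v1 y * ‖P y‖ ^ 2 + v y * ⟪P1 y, P y⟫_ℝ))) :=
      CC.mul_left (a := fun y => y ^ 9) (by fun_prop)
        ((n0.mul_left (a := fun y => 5 * v y) (by fun_prop)).add'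
          (CC.mul_left (a := fun y => y / 2) (by fun_prop)
            ((n0.mul_left hv1c).add' (i10.mul_left hvc))))
    exact t1.add' t2
  set F : ℝ → ℝ := fun y => (-(1 / 4)) * (y ^ 10 * v y) * ⟪P y, P y⟫_ℝ with hF
  set F' : ℝ → ℝ := fun y => (-(1 / 4)) * (10 * y ^ 9 * v y + y ^ 10 * v1 y) * ⟪P y, P y⟫_ℝ +
    (-(1 / 4)) * (y ^ 10 * v y) * (⟪P y, P1 y⟫_ℝ + ⟪P1 y, P y⟫_ℝ) with hF'
  have i00 := cc_inner h.c0 h.c0 h.s0
  have a1 : CC (fun y => y ^ 11 * (g y) ^ 2 * ((v y - 1 / 4 * (1 + y ^ 2) ^ 60) * ‖P2 y‖ ^ 2)) := by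
    have := n2.mul_left (a := fun y => y ^ 11 * (g y) ^ 2 * (v y - 1 / 4 * (1 + y ^ 2) ^ 60))
      (by fun_prop)
    simpa only [mul_assoc] using this
  have a2 : CC (fun y => y ^ 9 * ((5 / 2 * v y + 1 / 4 * (y * v1 y)) * ‖P y‖ ^ 2)) := by
    have := n0.mul_left (a := fun y => y ^ 9 * (5 / 2 * v y + 1 / 4 * (y * v1 y)))
      (by fun_prop)
    simpa only [mul_assoc] using this
  have a3 : CC (fun y => y ^ 9 * (1 + y ^ 2) ^ 59 * ‖P y‖ ^ 2) := by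
    exact n0.mul_left (a := fun y => y ^ 9 * (1 + y ^ 2) ^ 59) (by fun_prop)
  have a4 : CC (fun y => y ^ 13 * (g y) ^ 2 * (1 + y ^ 2) ^ 58 * ‖P1 y‖ ^ 2) :=
    n1.mul_left (a := fun y => y ^ 13 * (g y) ^ 2 * (1 + y ^ 2) ^ 58) (by fun_prop)
  have a5 : CC (fun y => y ^ 11 * (g y) ^ 2 * (1 + y ^ 2) ^ 60 * ‖P2 y‖ ^ 2) :=
    n2.mul_left (a := fun y => y ^ 11 * (g y) ^ 2 * (1 + y ^ 2) ^ 60) (by fun_prop)
  have key := integral_le_of_total (F := F) (F' := F')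
    (a := fun y => (y ^ 11 * (g y) ^ 2 * ((v y - 1 / 4 * (1 + y ^ 2) ^ 60) * ‖P2 y‖ ^ 2) +
        y ^ 9 * ((5 / 2 * v y + 1 / 4 * (y * v1 y)) * ‖P y‖ ^ 2)))
    (b := fun y => gInt g v v1 v2 P P1 P2 y +
      (4 * A ^ 2 * C0 ^ 2 * (y ^ 9 * (1 + y ^ 2) ^ 59 * ‖P y‖ ^ 2) +
        8 * A ^ 2 * (y ^ 13 * (g y) ^ 2 * (1 + y ^ 2) ^ 58 * ‖P1 y‖ ^ 2) +
        (-(1 / 16)) * (y ^ 11 * (g y) ^ 2 * (1 + y ^ 2) ^ 60 * ‖P2 y‖ ^ 2)))
    (i00.mul_left (by fun_prop)) ?_ (by simp [hF]) ?_ ?_ ?_ ?_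
  · have b1 := (a3.mul_left (a := fun _ => 4 * A ^ 2 * C0 ^ 2) continuous_const)
    have b2 := (a4.mul_left (a := fun _ => 8 * A ^ 2) continuous_const)
    have b3 := (a5.mul_left (a := fun _ => (-(1 / 16) : ℝ)) continuous_const)
    rw [integral_add hG.integrableOn ((b1.add' b2).add' b3).integrableOn,
      integral_add (b1.add' b2).integrableOn b3.integrableOn,
      integral_add b1.integrableOn b2.integrableOn,
      integral_const_mul, integral_const_mul, integral_const_mul] at key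
    have hI := interp hg h (ε := 1 / (128 * (A ^ 2 + 1))) (by positivity)
    have hI2 : 0 ≤ ∫ y in Ioi (0 : ℝ), y ^ 11 * (g y) ^ 2 * (1 + y ^ 2) ^ 60 * ‖P2 y‖ ^ 2 :=
      setIntegral_nonneg measurableSet_Ioi (fun y hy => by
        have : 0 < y := hy
        positivity)
    set I2 := ∫ y in Ioi (0 : ℝ), y ^ 11 * (g y) ^ 2 * (1 + y ^ 2) ^ 60 * ‖P2 y‖ ^ 2
    set I1 := ∫ y in Ioi (0 : ℝ), y ^ 13 * (g y) ^ 2 * (1 + y ^ 2) ^ 58 * ‖P1 y‖ ^ 2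
    set IL := ∫ y in Ioi (0 : ℝ), y ^ 9 * (1 + y ^ 2) ^ 59 * ‖P y‖ ^ 2
    have h8 : 8 * A ^ 2 * I1 ≤ 1 / 16 * I2 +
        8 * A ^ 2 * ((133 * C0) ^ 2 + C0 ^ 2 / (1 / (128 * (A ^ 2 + 1)))) * IL := by
      have := mul_le_mul_of_nonneg_left hI (show 0 ≤ 8 * A ^ 2 by positivity)
      have e1 : 8 * A ^ 2 * (1 / (128 * (A ^ 2 + 1)) * I2) ≤ 1 / 16 * I2 := by
        have : 8 * A ^ 2 * (1 / (128 * (A ^ 2 + 1))) ≤ 1 / 16 := by
          rw [mul_one_div, div_le_div_iff₀ (by positivity) (by norm_num)]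
          nlinarith [sq_nonneg A]
        calc _ = (8 * A ^ 2 * (1 / (128 * (A ^ 2 + 1)))) * I2 := by ring
          _ ≤ _ := mul_le_mul_of_nonneg_right this hI2
      nlinarith
    rw [C1c]
    nlinarith
  · exact (i00.mul_left (a := fun y => (-(1 / 4)) * (10 * y ^ 9 * v y + y ^ 10 * v1 y))
        (by fun_prop)).add'
        ((i01.add' i10).mul_left (a := fun y => (-(1 / 4)) * (y ^ 10 * v y)) (by fun_prop))
  · intro y hy
    have h1 : HasDerivAt (fun y : ℝ => (-(1 / 4)) * (y ^ 10 * v y)) _ y :=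
      ((hasDerivAt_pow 10 y).mul (hv.d1 y hy)).const_mul (-(1 / 4))
    have h2 : HasDerivAt F _ y := h1.mul ((h.d1 y hy).inner ℝ (h.d1 y hy))
    refine h2.congr_deriv ?_
    simp only [hF']
    push_cast; ring
  · exact a1.add' a2
  · exact hG.add' (((a3.mul_left (a := fun _ => 4 * A ^ 2 * C0 ^ 2) continuous_const).add'
      (a4.mul_left (a := fun _ => 8 * A ^ 2) continuous_const)).add'
        (a5.mul_left (a := fun _ => (-(1 / 16) : ℝ)) continuous_const))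
  · intro y hy
    have hpw := pw_garding (y := y) (T := 1 + y ^ 2) (s := (1 + y ^ 2) ^ 58) (g := g y)
      (C0 := C0) (A := A) (v := v y) (v1 := v1 y) (v2 := v2 y)
      (a := ‖P1 y‖) (b := ‖P y‖) (c := ‖P2 y‖)
      (i02 := ⟪P y, P2 y⟫_ℝ) (i12 := ⟪P1 y, P2 y⟫_ℝ) hy rfl (by positivity) (Prof.g_pos hg hy.le)
      (hg.upper y hy.le) hA (by have := hv.b1 y hy; rwa [← pow_succ])
      (by have := hv.b2 y hy; rwa [← pow_succ]) 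
      (abs_real_inner_le_norm _ _) (abs_real_inner_le_norm _ _)
    have e1 : (1 + y ^ 2) ^ 58 * (1 + y ^ 2) ^ 2 = (1 + y ^ 2) ^ 60 := by ring
    have e2 : (1 + y ^ 2) ^ 58 * (1 + y ^ 2) = (1 + y ^ 2) ^ 59 := by ring
    rw [e1, e2] at hpw
    rw [gInt_eq]
    simp only [hF', real_inner_self_eq_norm_sq]
    have e3 := real_inner_comm (P y) (P1 y)
    rw [e3]
    nlinarith

end Crest.Agent.R213.A.St
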