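import Crest.Agent.R213.A.StSpec

/-!
# Row 213, Part A: Gårding inequality for weak solutions
-/

set_option autoImplicit false

open Set MeasureTheory Filter Topology
open scoped InnerProductSpace ENNReal

noncomputable section

namespace Crest.Agent.R213.A.St

variable {c0 C0 : ℝ} {g : ℝ → ℝ}

lemma mrf_memLp {A : ℝ} {v v1 v2 : ℝ → ℝ} (hv : Wgt A v v1 v2) :
    MemLp (fun y => (mrf v y : ℂ)) ∞ mu0 :=
  memLp_top_of (mrf_cont hv).measurable (K := 1) (fun y hy => by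
    rw [abs_of_nonneg (mrf_bd hv hy).1]; exact (mrf_bd hv hy).2)

/-- `jvec (vP) = (v/w) · (iota P).snd` -/
lemma jvec_mul (hg : Prof c0 C0 g) {A : ℝ} {v v1 v2 : ℝ → ℝ} (hv : Wgt A v v1 v2)
    (hs : ContDiff ℝ (⊤ : ℕ∞) v) {P : ℝ → ℂ} (hP : DD P) :
    jvec (fun y => (v y : ℂ) * P y) (dd_mul_real hs hP) =
      mulOp (mrf v) (mrf_memLp hv) (iota (Prof.cont hg) P hP).snd := by
  apply Lp.ext
  have h1 := toL_coe (cc_jF (dd_mul_real hs hP))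
  have h2 := mulOp_coe (mrf_memLp hv) (iota (Prof.cont hg) P hP).snd
  have h3 : ((iota (Prof.cont hg) P hP).snd : ℝ → ℂ) =ᵐ[mu0] fun y => (sv y : ℂ) * P y :=
    toL_coe (cc_iF0 hP)
  filter_upwards [h1, h2, h3] with y e1 e2 e3
  rw [e2, e3]
  change (toL _ (cc_jF (dd_mul_real hs hP)) : ℝ → ℂ) y = _
  rw [e1]
  have hp : (0 : ℝ) < (1 + y ^ 2) ^ 60 := by positivity
  have : sv y = tv y * (1 + y ^ 2) ^ 60 := tv_w.symm
  unfold mrf
  rw [this]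
  generalize (1 + y ^ 2) ^ 60 = p at hp
  push_cast
  have hp' : (p : ℂ) ≠ 0 := by exact_mod_cast hp.ne'
  field_simp

/-- Gårding for weak solutions, fixed cut-off -/
lemma garding_weak_v (hg : Prof c0 C0 g) {A : ℝ} {v v1 v2 : ℝ → ℝ} (hv : Wgt A v v1 v2)
    (hs : ContDiff ℝ (⊤ : ℕ∞) v) {S : ℝ} (hS0 : 0 ≤ S) (hS : ∀ y, S ≤ y → v y = 0)
    {e : HH} {P : ℕ → {P : ℝ → ℂ // DD P}}
    (hP : Tendsto (fun n => iota (Prof.cont hg) (P n).1 (P n).2) atTop (𝓝 e)) {f : LL}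
    (hf : ∀ Q : ℝ → ℂ, ∀ hQ : DD Q, ⟪bvec (Prof.cont hg) Q hQ, e⟫_ℂ = ⟪jvec Q hQ, f⟫_ℂ) :
    (∫ y in Ioi (0 : ℝ), m1f v y * ‖(e.fst : ℝ → ℂ) y‖ ^ 2) +
      (∫ y in Ioi (0 : ℝ), m0f v v1 y * ‖(e.snd : ℝ → ℂ) y‖ ^ 2) -
      C1c A C0 * (∫ y in Ioi (0 : ℝ), mwf y * ‖(e.snd : ℝ → ℂ) y‖ ^ 2) ≤
    (⟪mulOp (mrf v) (mrf_memLp hv) e.snd, f⟫_ℂ).re := by
  obtain ⟨K, hK0, hK⟩ := bvec_mul_le hg hv hs hS0 hS
  set z : ℕ → HH := fun n => iota (Prof.cont hg) (P n).1 (P n).2 with hz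
  set B : ℕ → HH := fun n => bvec (Prof.cont hg) (fun y => (v y : ℂ) * (P n).1 y)
    (dd_mul_real hs (P n).2) with hB
  have hfst : Tendsto (fun n => (z n).fst) atTop (𝓝 e.fst) :=
    ((WithLp.fstL 2 ℂ LL LL).continuous.tendsto e).comp hP
  have hsnd : Tendsto (fun n => (z n).snd) atTop (𝓝 e.snd) :=
    ((WithLp.sndL 2 ℂ LL LL).continuous.tendsto e).comp hP
  -- left side
  have q1 := ((quad_cont (m1f_cont hv).measurable (K := 1)
    (fun y hy => m1f_bd hv hy)).tendsto e.fst).comp hfst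
  have q2 := ((quad_cont (m0f_cont hv).measurable (K := 5 / 2 + A)
    (fun y hy => m0f_bd hv hy)).tendsto e.snd).comp hsnd
  have q3 := ((quad_cont mwf_cont.measurable (K := 1)
    (fun y _ => mwf_bd y)).tendsto e.snd).comp hsnd
  have hL := (q1.add q2).sub (q3.const_mul (C1c A C0))
  -- right side
  have hz0 : Tendsto (fun n => ‖z n - e‖) atTop (𝓝 0) := by
    have := (tendsto_iff_norm_sub_tendsto_zero).1 hP
    exact this
  have hzb : ∀ᶠ n in atTop, ‖z n‖ ≤ ‖e‖ + 1 := by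
    have := hP.norm
    exact (this.eventually (gt_mem_nhds (lt_add_one ‖e‖))).mono fun n hn => hn.le
  have hBb : ∀ n, ‖B n‖ ≤ √K * ‖z n‖ := by
    intro n
    have := hK (P n).1 (P n).2
    have h1 : ‖B n‖ ^ 2 ≤ (√K * ‖z n‖) ^ 2 := by
      rw [mul_pow, Real.sq_sqrt hK0]; exact this
    exact le_of_sq_le_sq h1 (by positivity)
  have hdiff : Tendsto (fun n => ⟪B n, z n - e⟫_ℂ) atTop (𝓝 0) := by
    rw [tendsto_zero_iff_norm_tendsto_zero]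
    have h1 : Tendsto (fun n => (√K * (‖e‖ + 1)) * ‖z n - e‖) atTop (𝓝 0) := by
      simpa using hz0.const_mul (√K * (‖e‖ + 1))
    refine squeeze_zero' (Eventually.of_forall fun n => norm_nonneg _) ?_ h1
    filter_upwards [hzb] with n hn
    calc ‖⟪B n, z n - e⟫_ℂ‖ ≤ ‖B n‖ * ‖z n - e‖ := norm_inner_le_norm _ _
      _ ≤ (√K * ‖z n‖) * ‖z n - e‖ := by gcongr; exact hBb n
      _ ≤ (√K * (‖e‖ + 1)) * ‖z n - e‖ := by gcongr
  have hj : Tendsto (fun n => ⟪jvec (fun y => (v y : ℂ) * (P n).1 y) (dd_mul_real hs (P n).2), f⟫_ℂ)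
      atTop (𝓝 ⟪mulOp (mrf v) (mrf_memLp hv) e.snd, f⟫_ℂ) := by
    have h1 : Tendsto (fun n => mulOp (mrf v) (mrf_memLp hv) (z n).snd) atTop
        (𝓝 (mulOp (mrf v) (mrf_memLp hv) e.snd)) :=
      ((mulOp (mrf v) (mrf_memLp hv)).continuous.tendsto _).comp hsnd
    have h2 := h1.inner (𝕜 := ℂ) (tendsto_const_nhds (x := f))
    refine h2.congr fun n => ?_
    rw [jvec_mul hg hv hs (P n).2]
  have hR : Tendsto (fun n => (⟪B n, z n⟫_ℂ).re) atTop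
      (𝓝 (⟪mulOp (mrf v) (mrf_memLp hv) e.snd, f⟫_ℂ).re) := by
    have h1 : ∀ n, ⟪B n, z n⟫_ℂ = ⟪jvec (fun y => (v y : ℂ) * (P n).1 y)
        (dd_mul_real hs (P n).2), f⟫_ℂ + ⟪B n, z n - e⟫_ℂ := by
      intro n
      rw [inner_sub_right, ← hf _ (dd_mul_real hs (P n).2)]
      ring
    have h2 := (Complex.continuous_re.tendsto _).comp (hj.add hdiff)
    rw [add_zero] at h2
    refine h2.congr fun n => ?_
    simp only [Function.comp_apply]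
    rw [h1 n]
  exact le_of_tendsto_of_tendsto' hL hR (fun n => garding_iota hg hv hs (P n).2)

/-- integrability of `|e|²` -/
lemma int_sq (e : LL) : Integrable (fun y => ‖(e : ℝ → ℂ) y‖ ^ 2) mu0 :=
  (memLp_two_iff_integrable_sq_norm (Lp.memLp e).1).1 (Lp.memLp e)

lemma int_mw (e : LL) : Integrable (fun y => mwf y * ‖(e : ℝ → ℂ) y‖ ^ 2) mu0 := by
  refine Integrable.bdd_mul (c := 1) (int_sq e) mwf_cont.aestronglyMeasurable ?_
  exact Eventually.of_forall fun y => by rw [Real.norm_eq_abs]; exact mwf_bd y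

/-- Gårding for weak solutions -/
lemma garding_weak (hg : Prof c0 C0 g) : ∃ C2 : ℝ, 0 ≤ C2 ∧ ∀ (e : HH), e ∈ YS hg → ∀ f : LL,
    (∀ Q : ℝ → ℂ, ∀ hQ : DD Q, ⟪bvec (Prof.cont hg) Q hQ, e⟫_ℂ = ⟪jvec Q hQ, f⟫_ℂ) →
    3 / 4 * ‖e.fst‖ ^ 2 + 65 / 2 * ‖e.snd‖ ^ 2 ≤ (⟪e.snd, f⟫_ℂ).re +
      C2 * (∫ y in Ioi (0 : ℝ), mwf y * ‖(e.snd : ℝ → ℂ) y‖ ^ 2) := by
  obtain ⟨A, hA⟩ := exists_cut
  have hC1 : 0 ≤ C1c A C0 := by unfold C1c; positivity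
  refine ⟨C1c A C0 + 30, by positivity, ?_⟩
  intro e he f hf
  obtain ⟨P, hP⟩ := exists_seq hg ⟨e, he⟩
  choose v hvs hvW hv1 hv0 using fun N : ℕ => hA (N + 1) (by linarith [Nat.cast_nonneg (α := ℝ) N])
  have hW : ∀ N : ℕ, ∀ y : ℝ, 0 < y → y < N + 1 → deriv (v N) y = 120 * y * (1 + y ^ 2) ^ 59 := by
    intro N y hy hyN
    refine w_d1 ((hvW N).d1 y hy) ?_
    filter_upwards [Ioo_mem_nhds hy hyN] with z hz using hv1 N z hz.1 hz.2.le
  have hmain : ∀ N, (∫ y in Ioi (0 : ℝ), m1f (v N) y * ‖(e.fst : ℝ → ℂ) y‖ ^ 2) +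
      (∫ y in Ioi (0 : ℝ), m0f (v N) (deriv (v N)) y * ‖(e.snd : ℝ → ℂ) y‖ ^ 2) -
      C1c A C0 * (∫ y in Ioi (0 : ℝ), mwf y * ‖(e.snd : ℝ → ℂ) y‖ ^ 2) ≤
    (⟪mulOp (mrf (v N)) (mrf_memLp (hvW N)) e.snd, f⟫_ℂ).re := fun N =>
    garding_weak_v hg (hvW N) (hvs N) (S := 2 * ((N : ℝ) + 1)) (by positivity) (hv0 N) hP hf
  have hev : ∀ y : ℝ, 0 < y → ∀ᶠ N : ℕ in atTop, y < (N : ℝ) + 1 := by
    intro y hy
    obtain ⟨n, hn⟩ := exists_nat_gt y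
    filter_upwards [eventually_ge_atTop n] with N hN
    have : (n : ℝ) ≤ N := by exact_mod_cast hN
    linarith
  have l1 : Tendsto (fun N => ∫ y in Ioi (0 : ℝ), m1f (v N) y * ‖(e.fst : ℝ → ℂ) y‖ ^ 2) atTop
      (𝓝 (∫ y in Ioi (0 : ℝ), (3 / 4) * ‖(e.fst : ℝ → ℂ) y‖ ^ 2)) := by
    refine tendsto_quad_R (m := fun N => m1f (v N)) (m' := fun _ => 3 / 4)
      (fun N => (m1f_cont (hvW N)).measurable) (K := 1)
      (fun N y hy => m1f_bd (hvW N) hy) ?_ _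
    intro y hy
    filter_upwards [hev y hy] with N hN
    simp only [m1f]
    rw [hv1 N y hy hN.le, div_self (by positivity)]; norm_num
  have l2 : Tendsto (fun N => ∫ y in Ioi (0 : ℝ), m0f (v N) (deriv (v N)) y *
      ‖(e.snd : ℝ → ℂ) y‖ ^ 2) atTop
      (𝓝 (∫ y in Ioi (0 : ℝ), (65 / 2 - 30 * mwf y) * ‖(e.snd : ℝ → ℂ) y‖ ^ 2)) := by
    refine tendsto_quad_R (m := fun N => m0f (v N) (deriv (v N)))
      (m' := fun y => 65 / 2 - 30 * mwf y)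
      (fun N => (m0f_cont (hvW N)).measurable) (K := 5 / 2 + A)
      (fun N y hy => m0f_bd (hvW N) hy) ?_ _
    intro y hy
    filter_upwards [hev y hy] with N hN
    simp only [m0f]
    rw [hv1 N y hy hN.le, hW N y hy hN]
    unfold mwf
    have hT : (0 : ℝ) < 1 + y ^ 2 := by positivity
    have hyT : y ^ 2 = (1 + y ^ 2) - 1 := by ring
    have e1 : y * (120 * y * (1 + y ^ 2) ^ 59) = 120 * y ^ 2 * (1 + y ^ 2) ^ 59 := by
      generalize (1 + y ^ 2) ^ 59 = q; ring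
    rw [e1]
    have e2 : (1 + y ^ 2) ^ 60 = (1 + y ^ 2) ^ 59 * (1 + y ^ 2) := pow_succ _ _
    rw [e2]
    have hq : (0 : ℝ) < (1 + y ^ 2) ^ 59 := by positivity
    generalize (1 + y ^ 2) ^ 59 = q at hq
    rw [hyT]
    generalize 1 + y ^ 2 = T at hT
    have : (1 + (T - 1)) = T := by ring
    rw [this]
    field_simp
    ring
  have l3 := tendsto_inner_R (m := fun N => mrf (v N)) (fun N => mrf_memLp (hvW N)) (K := 1)
    (fun N y hy => by rw [abs_of_nonneg (mrf_bd (hvW N) hy).1]; exact (mrf_bd (hvW N) hy).2)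
    (fun y hy => by
      filter_upwards [hev y hy] with N hN
      simp only [mrf]
      rw [hv1 N y hy hN.le, div_self (by positivity)]) e.snd f
  have hlim := le_of_tendsto_of_tendsto' ((l1.add l2).sub_const
    (C1c A C0 * (∫ y in Ioi (0 : ℝ), mwf y * ‖(e.snd : ℝ → ℂ) y‖ ^ 2)))
    ((Complex.continuous_re.tendsto _).comp l3) hmain
  have e1 : ∫ y in Ioi (0 : ℝ), (3 / 4) * ‖(e.fst : ℝ → ℂ) y‖ ^ 2 = 3 / 4 * ‖e.fst‖ ^ 2 := by
    rw [integral_const_mul, norm_sq_eq]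
  have e2 : ∫ y in Ioi (0 : ℝ), (65 / 2 - 30 * mwf y) * ‖(e.snd : ℝ → ℂ) y‖ ^ 2 =
      65 / 2 * ‖e.snd‖ ^ 2 - 30 * ∫ y in Ioi (0 : ℝ), mwf y * ‖(e.snd : ℝ → ℂ) y‖ ^ 2 := by
    have : (fun y => (65 / 2 - 30 * mwf y) * ‖(e.snd : ℝ → ℂ) y‖ ^ 2) = fun y =>
        65 / 2 * ‖(e.snd : ℝ → ℂ) y‖ ^ 2 - 30 * (mwf y * ‖(e.snd : ℝ → ℂ) y‖ ^ 2) := by
      funext y; ring
    rw [this, integral_sub ((int_sq _).const_mul _) ((int_mw _).const_mul _), integral_const_mul,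
      integral_const_mul, norm_sq_eq]
  rw [e1, e2] at hlim
  linarith

/-- Gårding for test functions -/
lemma garding_test (hg : Prof c0 C0 g) : ∃ C2 K : ℝ, 0 ≤ C2 ∧ 0 ≤ K ∧
    ∀ (P : ℝ → ℂ) (hP : DD P), ∃ (Q : ℝ → ℂ) (hQ : DD Q),
      stX g Q ≤ K * ‖iota (Prof.cont hg) P hP‖ ^ 2 ∧
      ⟪jvec Q hQ, (iota (Prof.cont hg) P hP).snd⟫_ℂ = ((‖(iota (Prof.cont hg) P hP).snd‖ ^ 2 : ℝ) : ℂ) ∧
      3 / 4 * ‖(iota (Prof.cont hg) P hP).fst‖ ^ 2 + 65 / 2 * ‖(iota (Prof.cont hg) P hP).snd‖ ^ 2 ≤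
        (⟪bvec (Prof.cont hg) Q hQ, iota (Prof.cont hg) P hP⟫_ℂ).re +
        C2 * (∫ y in Ioi (0 : ℝ), mwf y * ‖((iota (Prof.cont hg) P hP).snd : ℝ → ℂ) y‖ ^ 2) := by
  obtain ⟨A, hA⟩ := wgt_w60
  have hC1 : 0 ≤ C1c A C0 := by unfold C1c; positivity
  have hs : ContDiff ℝ (⊤ : ℕ∞) (fun y : ℝ => (1 + y ^ 2) ^ 60) := by fun_prop
  refine ⟨C1c A C0 + 30, Kc A C0 + 1, by positivity, by have := Kc_nonneg A C0; positivity, ?_⟩
  intro P hP
  refine ⟨_, dd_mul_real hs hP, stX_mul_le hg hA hs hP, ?_, ?_⟩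
  · rw [jvec_mul hg hA hs hP]
    have : mulOp (mrf fun y => (1 + y ^ 2) ^ 60) (mrf_memLp hA) (iota (Prof.cont hg) P hP).snd =
        (iota (Prof.cont hg) P hP).snd := by
      apply Lp.ext
      filter_upwards [mulOp_coe (mrf_memLp hA) (iota (Prof.cont hg) P hP).snd] with y hy
      rw [hy]
      simp only [mrf]
      rw [div_self (by positivity)]; simp
    rw [this, inner_self_eq_norm_sq_to_K]
    push_cast; rfl
  · have h := garding_iota hg hA hs hP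
    have e1 : ∫ y in Ioi (0 : ℝ), m1f (fun y => (1 + y ^ 2) ^ 60) y *
        ‖((iota (Prof.cont hg) P hP).fst : ℝ → ℂ) y‖ ^ 2 = 3 / 4 * ‖(iota (Prof.cont hg) P hP).fst‖ ^ 2 := by
      rw [norm_sq_eq, ← integral_const_mul]
      refine setIntegral_congr_fun measurableSet_Ioi fun y hy => ?_
      simp only [m1f]
      rw [div_self (by positivity)]; norm_num
    have e2 : ∫ y in Ioi (0 : ℝ), m0f (fun y => (1 + y ^ 2) ^ 60)
        (deriv (fun y => (1 + y ^ 2) ^ 60)) y *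
        ‖((iota (Prof.cont hg) P hP).snd : ℝ → ℂ) y‖ ^ 2 =
        65 / 2 * ‖(iota (Prof.cont hg) P hP).snd‖ ^ 2 -
          30 * ∫ y in Ioi (0 : ℝ), mwf y * ‖((iota (Prof.cont hg) P hP).snd : ℝ → ℂ) y‖ ^ 2 := by
      rw [norm_sq_eq, ← integral_const_mul, ← integral_const_mul,
        ← integral_sub ((int_sq _).const_mul _) ((int_mw _).const_mul _)]
      refine setIntegral_congr_fun measurableSet_Ioi fun y hy => ?_
      have hy : 0 < y := hy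
      have hd : deriv (fun y : ℝ => (1 + y ^ 2) ^ 60) y = 120 * y * (1 + y ^ 2) ^ 59 :=
        w_d1 (v := fun y : ℝ => (1 + y ^ 2) ^ 60)
          (v1 := deriv (fun y : ℝ => (1 + y ^ 2) ^ 60)) (hA.d1 y hy) EventuallyEq.rfl
      simp only [m0f]
      rw [hd]
      unfold mwf
      have hT : (0 : ℝ) < 1 + y ^ 2 := by positivity
      have hyT : y ^ 2 = (1 + y ^ 2) - 1 := by ring
      have e1 : y * (120 * y * (1 + y ^ 2) ^ 59) = 120 * y ^ 2 * (1 + y ^ 2) ^ 59 := by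
        generalize (1 + y ^ 2) ^ 59 = q; ring
      rw [e1]
      have e2 : (1 + y ^ 2) ^ 60 = (1 + y ^ 2) ^ 59 * (1 + y ^ 2) := pow_succ _ _
      rw [e2]
      have hq : (0 : ℝ) < (1 + y ^ 2) ^ 59 := by positivity
      generalize (1 + y ^ 2) ^ 59 = q at hq
      rw [hyT]
      generalize 1 + y ^ 2 = T at hT
      have : (1 + (T - 1)) = T := by ring
      rw [this]
      field_simp
      ring
    rw [e1, e2] at h
    linarith

end Crest.Agent.R213.A.St
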