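import Crest.Agent.R213.A.Spec
import Crest.Agent.R213.A.StGard

/-!
# Row 213, Part A: Hilbert space set-up of the stationary problem
-/

set_option autoImplicit false

open Set MeasureTheory Filter Topology
open scoped InnerProductSpace ENNReal

noncomputable section

namespace Crest.Agent.R213.A.St

/-- Lebesgue measure on `(0,∞)` -/
abbrev mu0 : Measure ℝ := volume.restrict (Ioi 0)

abbrev LL := Lp ℂ 2 mu0

abbrev HH := WithLp 2 (LL × LL)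

def sv (y : ℝ) : ℝ := √(y ^ 9) * (1 + y ^ 2) ^ 30
def tv (y : ℝ) : ℝ := √(y ^ 9) / (1 + y ^ 2) ^ 30

lemma sv_cont : Continuous sv := by unfold sv; fun_prop
lemma tv_cont : Continuous tv := by
  unfold tv
  refine Continuous.div (by fun_prop) (by fun_prop) (fun y => by positivity)

lemma sv_sq {y : ℝ} (hy : 0 ≤ y) : sv y ^ 2 = y ^ 9 * (1 + y ^ 2) ^ 60 := by
  unfold sv; rw [mul_pow, Real.sq_sqrt (by positivity)]; ring

lemma tv_sq {y : ℝ} (hy : 0 ≤ y) : tv y ^ 2 = y ^ 9 / (1 + y ^ 2) ^ 60 := by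
  unfold tv; rw [div_pow, Real.sq_sqrt (by positivity)]; ring

lemma tv_sv {y : ℝ} (hy : 0 ≤ y) : tv y * sv y = y ^ 9 := by
  unfold tv sv
  have : √(y ^ 9) * √(y ^ 9) = y ^ 9 := Real.mul_self_sqrt (by positivity)
  field_simp
  nlinarith [this]

lemma sv_pos {y : ℝ} (hy : 0 < y) : 0 < sv y := by unfold sv; positivity
lemma tv_pos {y : ℝ} (hy : 0 < y) : 0 < tv y := by unfold tv; positivity

lemma tv_w {y : ℝ} : tv y * (1 + y ^ 2) ^ 60 = sv y := by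
  unfold tv sv
  have : (1 + y ^ 2) ^ 60 = (1 + y ^ 2) ^ 30 * (1 + y ^ 2) ^ 30 := by ring
  rw [this]; field_simp

/-! ### `CC` functions as elements of `L²` -/

lemma CC.memLp {F : ℝ → ℂ} (h : CC F) : MemLp F 2 mu0 := by
  have hm : AEStronglyMeasurable F mu0 :=
    (h.1.mono Ioi_subset_Ici_self).aestronglyMeasurable measurableSet_Ioi
  rw [memLp_two_iff_integrable_sq_norm hm]
  exact (cc_norm_sq h.1 h.2).integrableOn

/-- the `L²` class of a `CC` function -/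
def toL (F : ℝ → ℂ) (h : CC F) : LL := h.memLp.toLp F

lemma toL_coe {F : ℝ → ℂ} (h : CC F) : (toL F h : ℝ → ℂ) =ᵐ[mu0] F := MemLp.coeFn_toLp _

lemma toL_congr {F G : ℝ → ℂ} (hF : CC F) (hG : CC G) (h : ∀ y : ℝ, 0 < y → F y = G y) :
    toL F hF = toL G hG := by
  unfold toL
  rw [MemLp.toLp_eq_toLp_iff]
  filter_upwards [ae_restrict_mem measurableSet_Ioi] with y hy using h y hy

lemma inner_toL_left {F : ℝ → ℂ} (h : CC F) (e : LL) :
    ⟪toL F h, e⟫_ℂ = ∫ y in Ioi (0 : ℝ), starRingEnd ℂ (F y) * e y := by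
  rw [L2.inner_def]
  refine integral_congr_ae ?_
  filter_upwards [toL_coe h] with y hy
  rw [hy, RCLike.inner_apply]; ring

lemma inner_toL {F G : ℝ → ℂ} (hF : CC F) (hG : CC G) :
    ⟪toL F hF, toL G hG⟫_ℂ = ∫ y in Ioi (0 : ℝ), starRingEnd ℂ (F y) * G y := by
  rw [inner_toL_left]
  refine integral_congr_ae ?_
  filter_upwards [toL_coe hG] with y hy
  rw [hy]

lemma norm_sq_eq (e : LL) : ‖e‖ ^ 2 = ∫ y in Ioi (0 : ℝ), ‖e y‖ ^ 2 := by
  have h1 : ((‖e‖ : ℂ)) ^ 2 = ⟪e, e⟫_ℂ := by rw [inner_self_eq_norm_sq_to_K]; rfl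
  rw [L2.inner_def] at h1
  have h2 : (fun a => ⟪e a, e a⟫_ℂ) = fun a => ((‖e a‖ ^ 2 : ℝ) : ℂ) := by
    funext a
    rw [inner_self_eq_norm_sq_to_K]; push_cast; rfl
  rw [h2, integral_complex_ofReal] at h1
  exact_mod_cast h1

lemma norm_toL_sq {F : ℝ → ℂ} (h : CC F) : ‖toL F h‖ ^ 2 = ∫ y in Ioi (0 : ℝ), ‖F y‖ ^ 2 := by
  rw [norm_sq_eq]
  refine integral_congr_ae ?_
  filter_upwards [toL_coe h] with y hy
  rw [hy]

/-! ### multiplication operators -/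

lemma memLp_top_of {m : ℝ → ℝ} (hm : Measurable m) {K : ℝ} (hK : ∀ y : ℝ, 0 < y → |m y| ≤ K) :
    MemLp (fun y => (m y : ℂ)) ∞ mu0 := by
  refine memLp_top_of_bound (Complex.measurable_ofReal.comp hm).aestronglyMeasurable K ?_
  filter_upwards [ae_restrict_mem measurableSet_Ioi] with y hy
  rw [Complex.norm_real]; exact hK y hy

/-- multiplication by a bounded real function -/
def mulOp (m : ℝ → ℝ) (h : MemLp (fun y => (m y : ℂ)) ∞ mu0) : LL →L[ℂ] LL :=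
  (ContinuousLinearMap.mul ℂ ℂ).holderL mu0 ∞ 2 2 (h.toLp _)

lemma mulOp_coe {m : ℝ → ℝ} (h : MemLp (fun y => (m y : ℂ)) ∞ mu0) (e : LL) :
    (mulOp m h e : ℝ → ℂ) =ᵐ[mu0] fun y => (m y : ℂ) * e y := by
  have h1 : mulOp m h e = (ContinuousLinearMap.mul ℂ ℂ).holder 2 (h.toLp _) e := by
    rw [mulOp, ContinuousLinearMap.holderL_apply_apply]
  rw [h1]
  filter_upwards [ContinuousLinearMap.coeFn_holder (r := 2) (ContinuousLinearMap.mul ℂ ℂ)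
    (h.toLp (fun y => (m y : ℂ))) e, h.coeFn_toLp] with y hy1 hy2
  rw [hy1, hy2]; rfl

lemma inner_mulOp {m : ℝ → ℝ} (h : MemLp (fun y => (m y : ℂ)) ∞ mu0) (e : LL) :
    (⟪e, mulOp m h e⟫_ℂ).re = ∫ y in Ioi (0 : ℝ), m y * ‖e y‖ ^ 2 := by
  rw [L2.inner_def]
  have h1 : ∫ a, ⟪e a, (mulOp m h e : ℝ → ℂ) a⟫_ℂ ∂mu0 =
      ∫ y in Ioi (0 : ℝ), ((m y * ‖e y‖ ^ 2 : ℝ) : ℂ) := by
    refine integral_congr_ae ?_
    filter_upwards [mulOp_coe h e] with y hy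
    rw [hy, RCLike.inner_apply, mul_assoc, RCLike.mul_conj]
    push_cast; rfl
  rw [h1, integral_complex_ofReal, Complex.ofReal_re]

/-- continuity of `e ↦ ∫ m |e|²` -/
lemma quad_cont {m : ℝ → ℝ} (hm : Measurable m) {K : ℝ} (hK : ∀ y : ℝ, 0 < y → |m y| ≤ K) :
    Continuous (fun e : LL => ∫ y in Ioi (0 : ℝ), m y * ‖e y‖ ^ 2) := by
  have h := memLp_top_of hm hK
  have h1 : (fun e : LL => ∫ y in Ioi (0 : ℝ), m y * ‖e y‖ ^ 2) =
      fun e : LL => (⟪e, mulOp m h e⟫_ℂ).re := by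
    funext e; rw [inner_mulOp]
  rw [h1]
  exact Complex.continuous_re.comp (continuous_id.inner (mulOp m h).continuous)

/-! ### the test space -/

def D1 (P : ℝ → ℂ) : ℝ → ℂ := derivWithin P (Ici 0)
def D2 (P : ℝ → ℂ) : ℝ → ℂ := derivWithin (derivWithin P (Ici 0)) (Ici 0)

lemma dd_tf {P : ℝ → ℂ} (h : DD P) : TF P (D1 P) (D2 P) := DD.tf h

lemma dd_add {P Q : ℝ → ℂ} (hP : DD P) (hQ : DD Q) : DD (P + Q) := by
  obtain ⟨h1, R1, hR1⟩ := hP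
  obtain ⟨h2, R2, hR2⟩ := hQ
  exact ⟨h1.add h2, max R1 R2, fun y hy => by
    simp [hR1 y ((le_max_left _ _).trans hy), hR2 y ((le_max_right _ _).trans hy)]⟩

lemma dd_smul {P : ℝ → ℂ} (a : ℂ) (hP : DD P) : DD (a • P) := by
  obtain ⟨h1, R1, hR1⟩ := hP
  exact ⟨contDiffOn_const.smul h1, R1, fun y hy => by simp [hR1 y hy]⟩

lemma dd_zero : DD (0 : ℝ → ℂ) := ⟨contDiffOn_const, 0, fun _ _ => rfl⟩

lemma dd_mul_real {v : ℝ → ℝ} (hv : ContDiff ℝ (⊤ : ℕ∞) v) {P : ℝ → ℂ} (hP : DD P) :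
    DD (fun y => (v y : ℂ) * P y) := by
  obtain ⟨h1, R1, hR1⟩ := hP
  exact ⟨((Complex.ofRealCLM.contDiff.comp hv).contDiffOn).mul h1, R1, fun y hy => by simp [hR1 y hy]⟩

/-- test functions as a subspace -/
def DDs : Submodule ℂ (ℝ → ℂ) where
  carrier := {P | DD P}
  add_mem' := dd_add
  zero_mem' := dd_zero
  smul_mem' := fun a _ h => dd_smul a h

lemma D1_add {P Q : ℝ → ℂ} (hP : DD P) (hQ : DD Q) {y : ℝ} (hy : 0 < y) :
    D1 (P + Q) y = D1 P y + D1 Q y :=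
  ((((dd_tf hP).d1 y hy).add ((dd_tf hQ).d1 y hy)).unique ((dd_tf (dd_add hP hQ)).d1 y hy)).symm

lemma D1_smul {P : ℝ → ℂ} (a : ℂ) (hP : DD P) {y : ℝ} (hy : 0 < y) :
    D1 (a • P) y = a * D1 P y :=
  ((((dd_tf hP).d1 y hy).const_smul a).unique ((dd_tf (dd_smul a hP)).d1 y hy)).symm

lemma D2_add {P Q : ℝ → ℂ} (hP : DD P) (hQ : DD Q) {y : ℝ} (hy : 0 < y) :
    D2 (P + Q) y = D2 P y + D2 Q y := by
  have h1 := ((dd_tf hP).d2 y hy).add ((dd_tf hQ).d2 y hy)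
  have h2 := (dd_tf (dd_add hP hQ)).d2 y hy
  have h3 : D1 (P + Q) =ᶠ[𝓝 y] (D1 P + D1 Q) := by
    filter_upwards [Ioi_mem_nhds hy] with z hz using D1_add hP hQ hz
  exact (h1.unique (h2.congr_of_eventuallyEq h3.symm)).symm

lemma D2_smul {P : ℝ → ℂ} (a : ℂ) (hP : DD P) {y : ℝ} (hy : 0 < y) :
    D2 (a • P) y = a * D2 P y := by
  have h1 := ((dd_tf hP).d2 y hy).const_smul a
  have h2 := (dd_tf (dd_smul a hP)).d2 y hy
  have h3 : D1 (a • P) =ᶠ[𝓝 y] (a • D1 P) := by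
    filter_upwards [Ioi_mem_nhds hy] with z hz using D1_smul a hP hz
  exact (h1.unique (h2.congr_of_eventuallyEq h3.symm)).symm

/-- derivatives of `v P` -/
lemma D1_mul_real {v v1 : ℝ → ℝ} (hv : ContDiff ℝ (⊤ : ℕ∞) v)
    (hd : ∀ y : ℝ, 0 < y → HasDerivAt v (v1 y) y) {P : ℝ → ℂ} (hP : DD P) {y : ℝ} (hy : 0 < y) :
    D1 (fun y => (v y : ℂ) * P y) y = v1 y * P y + v y * D1 P y := by
  have h1 : HasDerivAt (fun y => (v y : ℂ) * P y) _ y := (hd y hy).ofReal_comp.mul ((dd_tf hP).d1 y hy)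
  exact (h1.unique ((dd_tf (dd_mul_real hv hP)).d1 y hy)).symm

lemma D2_mul_real {v v1 v2 : ℝ → ℝ} (hv : ContDiff ℝ (⊤ : ℕ∞) v)
    (hd : ∀ y : ℝ, 0 < y → HasDerivAt v (v1 y) y)
    (hd2 : ∀ y : ℝ, 0 < y → HasDerivAt v1 (v2 y) y)
    {P : ℝ → ℂ} (hP : DD P) {y : ℝ} (hy : 0 < y) :
    D2 (fun y => (v y : ℂ) * P y) y = v2 y * P y + 2 * v1 y * D1 P y + v y * D2 P y := by
  have h1 : HasDerivAt (fun y => (v1 y : ℂ) * P y + v y * D1 P y) _ y :=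
    ((hd2 y hy).ofReal_comp.mul ((dd_tf hP).d1 y hy)).add
      ((hd y hy).ofReal_comp.mul ((dd_tf hP).d2 y hy))
  have h2 := (dd_tf (dd_mul_real hv hP)).d2 y hy
  have h3 : D1 (fun y => (v y : ℂ) * P y) =ᶠ[𝓝 y] (fun y => (v1 y : ℂ) * P y + v y * D1 P y) := by
    filter_upwards [Ioi_mem_nhds hy] with z hz using D1_mul_real hv hd hP hz
  have h4 := (h1.unique (h2.congr_of_eventuallyEq h3.symm)).symm
  rw [h4]; ring

end Crest.Agent.R213.A.St
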