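import Crest.Agent.R213.A.StKit

/-!
# Row 213, PART A: static interpolation (`st_interpY`, `st_interpX`)
-/

set_option autoImplicit false

open Set MeasureTheory Filter Topology

noncomputable section

namespace Crest.Agent.R213.A

/-- `Re(v̄ v')` has derivative `|v'|² + Re(v̄ v'')`. -/
theorem hasDerivAt_re_conj_mul {v v1 : ℝ → ℂ} {a b : ℂ} {y : ℝ} (h : HasDerivAt v a y)
    (h1 : HasDerivAt v1 b y) :
    HasDerivAt (fun x => (starRingEnd ℂ (v x) * v1 x).re)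
      ((starRingEnd ℂ a * v1 y).re + (starRingEnd ℂ (v y) * b).re) y := by
  have hc : HasDerivAt (fun x => starRingEnd ℂ (v x)) (starRingEnd ℂ a) y :=
    (Complex.conjCLE.toContinuousLinearMap.hasFDerivAt (x := v y)).comp_hasDerivAt y h
  have hm : HasDerivAt (fun x => starRingEnd ℂ (v x) * v1 x)
    (starRingEnd ℂ a * v1 y + starRingEnd ℂ (v y) * b) y := hc.mul h1
  have := (Complex.reCLM.hasFDerivAt (x := starRingEnd ℂ (v y) * v1 y)).comp_hasDerivAt y hm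
  refine this.congr_deriv ?_
  simp only [Complex.reCLM_apply, Complex.add_re]

theorem re_conj_mul_le (a b : ℂ) : |(starRingEnd ℂ a * b).re| ≤ ‖a‖ * ‖b‖ := by
  refine (Complex.abs_re_le_norm _).trans ?_
  rw [norm_mul, RCLike.norm_conj]

/-- the pointwise estimate behind the interpolation. -/
theorem interp_alg {a b c : ℂ} {p p1 q1 q2 K ε : ℝ} (hp : 0 ≤ p) (hq1 : 0 ≤ q1) (hq2 : 0 ≤ q2)
    (hK : 0 ≤ K) (hε : 0 < ε) (h12 : p ^ 2 ≤ q1 * q2) (h1 : p1 ^ 2 ≤ K * p * q1) :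
    p * ‖b‖ ^ 2 ≤ ε * (q2 * ‖c‖ ^ 2) + (1 / ε + K) * (q1 * ‖a‖ ^ 2) +
      2 * (p1 * (starRingEnd ℂ a * b).re + p * ((starRingEnd ℂ b * b).re +
        (starRingEnd ℂ a * c).re)) := by
  have hb : (starRingEnd ℂ b * b).re = ‖b‖ ^ 2 := by
    rw [← Complex.normSq_eq_conj_mul_self, Complex.ofReal_re, Complex.normSq_eq_norm_sq]
  rw [hb]
  have e1 := re_conj_mul_le a b
  have e2 := re_conj_mul_le a c
  set A := ‖a‖
  set B := ‖b‖
  set D := ‖c‖
  have hA : 0 ≤ A := norm_nonneg _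
  have hB : 0 ≤ B := norm_nonneg _
  have hD : 0 ≤ D := norm_nonneg _
  -- -2 p1 Re ≤ 2 |p1| A B ≤ p B² + K q1 A²
  have k1 : -(2 * (p1 * (starRingEnd ℂ a * b).re)) ≤ p * B ^ 2 + K * (q1 * A ^ 2) := by
    have h3 : |p1 * (starRingEnd ℂ a * b).re| ≤ |p1| * (A * B) := by
      rw [abs_mul]; gcongr
    have h4 : 2 * (|p1| * (A * B)) ≤ p * B ^ 2 + K * (q1 * A ^ 2) := by
      have h5 : (2 * (|p1| * (A * B))) ^ 2 ≤ (p * B ^ 2 + K * (q1 * A ^ 2)) ^ 2 := by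
        have h6 : (|p1| * (A * B)) ^ 2 ≤ (p * B ^ 2) * (K * (q1 * A ^ 2)) := by
          have : (|p1| * (A * B)) ^ 2 = p1 ^ 2 * (A ^ 2 * B ^ 2) := by
            rw [mul_pow, sq_abs]; ring
          rw [this]
          have : p1 ^ 2 * (A ^ 2 * B ^ 2) ≤ (K * p * q1) * (A ^ 2 * B ^ 2) := by gcongr
          linarith [this]
        nlinarith [sq_nonneg (p * B ^ 2 - K * (q1 * A ^ 2))]
      exact abs_le_of_sq_le_sq' h5 (by positivity) |>.2
    have := neg_abs_le (p1 * (starRingEnd ℂ a * b).re)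
    linarith
  have k2 : -(2 * (p * (starRingEnd ℂ a * c).re)) ≤ ε * (q2 * D ^ 2) + 1 / ε * (q1 * A ^ 2) := by
    have h3 : |p * (starRingEnd ℂ a * c).re| ≤ p * (A * D) := by
      rw [abs_mul, abs_of_nonneg hp]; gcongr
    have h4 : 2 * (p * (A * D)) ≤ ε * (q2 * D ^ 2) + 1 / ε * (q1 * A ^ 2) := by
      have h5 : (2 * (p * (A * D))) ^ 2 ≤ (ε * (q2 * D ^ 2) + 1 / ε * (q1 * A ^ 2)) ^ 2 := by
        have h6 : (p * (A * D)) ^ 2 ≤ (ε * (q2 * D ^ 2)) * (1 / ε * (q1 * A ^ 2)) := by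
          have e : (ε * (q2 * D ^ 2)) * (1 / ε * (q1 * A ^ 2)) = (q1 * q2) * (A ^ 2 * D ^ 2) := by
            field_simp
          rw [e]
          have : (p * (A * D)) ^ 2 = p ^ 2 * (A ^ 2 * D ^ 2) := by ring
          rw [this]
          gcongr
        nlinarith [sq_nonneg (ε * (q2 * D ^ 2) - 1 / ε * (q1 * A ^ 2))]
      exact abs_le_of_sq_le_sq' h5 (by positivity) |>.2
    have := neg_abs_le (p * (starRingEnd ℂ a * c).re)
    linarith
  linarith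

/-- weighted interpolation on `[0,∞)`. -/
theorem interp_gen {P P1 P2 : ℝ → ℂ} {R : ℝ} (hP : DDJet P P1 P2 R) {p p1 q1 q2 : ℝ → ℝ}
    (cp : ContinuousOn p (Ici 0)) (cp1 : ContinuousOn p1 (Ici 0)) (cq1 : ContinuousOn q1 (Ici 0))
    (cq2 : ContinuousOn q2 (Ici 0)) (hdp : ∀ y, 0 < y → HasDerivAt p (p1 y) y) (h0 : p 0 = 0)
    (hp : ∀ y, 0 < y → 0 ≤ p y) (hq1 : ∀ y, 0 < y → 0 ≤ q1 y) (hq2 : ∀ y, 0 < y → 0 ≤ q2 y)
    {K ε : ℝ} (hK : 0 ≤ K) (hε : 0 < ε)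
    (h12 : ∀ y, 0 < y → p y ^ 2 ≤ q1 y * q2 y) (h1 : ∀ y, 0 < y → p1 y ^ 2 ≤ K * p y * q1 y) :
    ∫ y in Ioi (0 : ℝ), p y * ‖P1 y‖ ^ 2 ≤
      ε * (∫ y in Ioi (0 : ℝ), q2 y * ‖P2 y‖ ^ 2) +
        (1 / ε + K) * ∫ y in Ioi (0 : ℝ), q1 y * ‖P y‖ ^ 2 := by
  have c0 := hP.c0
  have c1 := hP.c1
  have c2 := hP.c2
  set F : ℝ → ℝ := fun y => p y * (starRingEnd ℂ (P y) * P1 y).re with hF
  set f : ℝ → ℝ := fun y => p1 y * (starRingEnd ℂ (P y) * P1 y).re +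
    p y * ((starRingEnd ℂ (P1 y) * P1 y).re + (starRingEnd ℂ (P y) * P2 y).re) with hf
  have cc : ContinuousOn (fun y => starRingEnd ℂ (P y)) (Ici 0) :=
    Complex.continuous_conj.comp_continuousOn c0
  have cc1 : ContinuousOn (fun y => starRingEnd ℂ (P1 y)) (Ici 0) :=
    Complex.continuous_conj.comp_continuousOn c1
  have cF : ContinuousOn F (Ici 0) := cp.mul (Complex.continuous_re.comp_continuousOn (cc.mul c1))
  have cf : ContinuousOn f (Ici 0) :=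
    (cp1.mul (Complex.continuous_re.comp_continuousOn (cc.mul c1))).add
      (cp.mul ((Complex.continuous_re.comp_continuousOn (cc1.mul c1)).add
        (Complex.continuous_re.comp_continuousOn (cc.mul c2))))
  have hI : ∫ y in Ioi (0:ℝ), f y = 0 := by
    refine integral_deriv_zero (R := R) cF cf ?_ ?_ ?_ ?_
    · intro y hy
      exact (hdp y hy).mul (hasDerivAt_re_conj_mul (hP.d1 y hy) (hP.d2 y hy))
    · simp [hF, h0]
    · intro y hy; simp [hF, hP.z0 y hy]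
    · intro y hy; simp [hf, hP.z0 y hy, hP.z1 y hy]
  have i1 : IntegrableOn (fun y => p y * ‖P1 y‖ ^ 2) (Ioi 0) :=
    integrableOn_of_supp (R := R) (cp.mul (c1.norm.pow 2)) (fun y hy => by simp [hP.z1 y hy])
  have i2 : IntegrableOn (fun y => q2 y * ‖P2 y‖ ^ 2) (Ioi 0) :=
    integrableOn_of_supp (R := R) (cq2.mul (c2.norm.pow 2)) (fun y hy => by simp [hP.z2 y hy])
  have i3 : IntegrableOn (fun y => q1 y * ‖P y‖ ^ 2) (Ioi 0) :=
    integrableOn_of_supp (R := R) (cq1.mul (c0.norm.pow 2)) (fun y hy => by simp [hP.z0 y hy])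
  have i4 : IntegrableOn f (Ioi 0) :=
    integrableOn_of_supp (R := R) cf (fun y hy => by simp [hf, hP.z0 y hy, hP.z1 y hy])
  have key : ∫ y in Ioi (0 : ℝ), p y * ‖P1 y‖ ^ 2 ≤
      ∫ y in Ioi (0:ℝ), (ε * (q2 y * ‖P2 y‖ ^ 2) + (1 / ε + K) * (q1 y * ‖P y‖ ^ 2) + 2 * f y) := by
    refine setIntegral_mono_on i1 (((i2.const_mul ε).add (i3.const_mul _)).add (i4.const_mul 2))
      measurableSet_Ioi ?_
    intro y hy
    exact interp_alg (hp y hy) (hq1 y hy) (hq2 y hy) hK hε (h12 y hy) (h1 y hy)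
  have e : ∫ y in Ioi (0:ℝ), (ε * (q2 y * ‖P2 y‖ ^ 2) + (1 / ε + K) * (q1 y * ‖P y‖ ^ 2) + 2 * f y)
      = ε * (∫ y in Ioi (0 : ℝ), q2 y * ‖P2 y‖ ^ 2) +
        (1 / ε + K) * (∫ y in Ioi (0 : ℝ), q1 y * ‖P y‖ ^ 2) + 2 * ∫ y in Ioi (0:ℝ), f y := by
    have j1 : IntegrableOn (fun y => ε * (q2 y * ‖P2 y‖ ^ 2)) (Ioi 0) := i2.const_mul ε
    have j2 : IntegrableOn (fun y => (1 / ε + K) * (q1 y * ‖P y‖ ^ 2)) (Ioi 0) := i3.const_mul _
    have j3 : IntegrableOn (fun y => 2 * f y) (Ioi 0) := i4.const_mul 2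
    have j12 : IntegrableOn (fun y => ε * (q2 y * ‖P2 y‖ ^ 2) + (1 / ε + K) * (q1 y * ‖P y‖ ^ 2))
      (Ioi 0) := j1.add j2
    rw [integral_add j12 j3, integral_add j1 j2, integral_const_mul, integral_const_mul,
      integral_const_mul]
  rw [e, hI] at key
  linarith

/-! ### the profile -/

theorem Prof.gG {c0 C0 : ℝ} {g : ℝ → ℝ} (hg : Prof c0 C0 g) :
    ∃ G1 : ℝ → ℝ, Continuous G1 ∧ (∀ y, HasDerivAt (fun z => z * g z) (G1 y) y) ∧
      (∀ y, 0 ≤ y → |G1 y| ≤ C0) ∧ (∀ y, 0 ≤ y → 0 ≤ y * g y) ∧ (∀ y, 0 ≤ y → y * g y ≤ C0 * y) ∧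
      0 < C0 := by
  have hs : ContDiff ℝ (⊤ : ℕ∞) (fun z => z * g z) := contDiff_id.mul hg.smooth
  have h00 := hg.lower 0 le_rfl
  have h01 := hg.upper 0 le_rfl
  refine ⟨deriv (fun z => z * g z), hs.continuous_deriv (by simp), ?_, hg.dG, ?_, ?_, ?_⟩
  · intro y
    exact (hs.differentiable (by simp) y).hasDerivAt
  · intro y hy
    exact mul_nonneg hy (hg.c0_pos.le.trans (hg.lower y hy))
  · intro y hy
    rw [mul_comm C0]
    exact mul_le_mul_of_nonneg_left (hg.upper y hy) hy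
  · linarith [hg.c0_pos]

/-- both static interpolation inequalities: `ω` is any weight with `|ω'| ≤ 120 y/(1+y²) ω`. -/
theorem st_interp {c0 C0 : ℝ} {g : ℝ → ℝ} (hg : Prof c0 C0 g) {ω ω1 : ℝ → ℝ}
    (cω : Continuous ω) (cω1 : Continuous ω1) (hω : ∀ y, HasDerivAt ω (ω1 y) y)
    (hpos : ∀ y, 0 < ω y) (hb : ∀ y, 0 < y → |ω1 y| ≤ 120 * y / (1 + y ^ 2) * ω y)
    {ε : ℝ} (hε : 0 < ε) :
    ∃ K : ℝ, 0 ≤ K ∧ ∀ P, DD P →
      ∫ y in Ioi (0 : ℝ), y ^ 9 * ω y * ((y * g y) ^ 2 / (1 + y ^ 2)) * ‖deriv P y‖ ^ 2 ≤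
        ε * (∫ y in Ioi (0 : ℝ), y ^ 9 * ω y * (y * g y) ^ 2 * ‖deriv (deriv P) y‖ ^ 2) +
          K * ∫ y in Ioi (0 : ℝ), y ^ 9 * ω y / (1 + y ^ 2) * ‖P y‖ ^ 2 := by
  obtain ⟨G1, cG1, hG1, bG1, G0, GC, hC0⟩ := Prof.gG hg
  refine ⟨(1 / ε + 133 ^ 2) * C0 ^ 2, by positivity, ?_⟩
  intro P hP
  obtain ⟨P1, P2, R, hJ⟩ := hP.jet
  have cg : Continuous g := hg.smooth.continuous
  set G : ℝ → ℝ := fun z => z * g z with hGdef
  have cG : Continuous G := continuous_id.mul cg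
  set p : ℝ → ℝ := fun y => y ^ 9 * ω y * (G y ^ 2 / (1 + y ^ 2)) with hp
  set p1 : ℝ → ℝ := fun y => (9 * y ^ 8 * ω y + y ^ 9 * ω1 y) * (G y ^ 2 / (1 + y ^ 2)) +
    y ^ 9 * ω y * ((2 * G y * G1 y * (1 + y ^ 2) - G y ^ 2 * (2 * y)) / (1 + y ^ 2) ^ 2) with hp1
  set q1 : ℝ → ℝ := fun y => C0 ^ 2 * (y ^ 9 * ω y / (1 + y ^ 2)) with hq1
  set q2 : ℝ → ℝ := fun y => y ^ 9 * ω y * G y ^ 2 with hq2
  have hne : ∀ y : ℝ, 1 + y ^ 2 ≠ 0 := fun y => by positivity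
  have hne' : ∀ y : ℝ, (1 + y ^ 2) ^ 2 ≠ 0 := fun y => by positivity
  have cp : Continuous p := by
    simp only [hp]; fun_prop (disch := exact hne _)
  have cp1 : Continuous p1 := by
    simp only [hp1]; fun_prop (disch := first | exact hne _ | exact hne' _)
  have cq1 : Continuous q1 := by
    simp only [hq1]; fun_prop (disch := exact hne _)
  have cq2 : Continuous q2 := by
    simp only [hq2]; fun_prop
  have hdp : ∀ y, 0 < y → HasDerivAt p (p1 y) y := by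
    intro y _
    have a1 : HasDerivAt (fun y : ℝ => y ^ 9) (9 * y ^ 8) y := by
      simpa using hasDerivAt_pow 9 y
    have a2 : HasDerivAt (fun y : ℝ => 1 + y ^ 2) (2 * y) y := by
      have := (hasDerivAt_pow 2 y).const_add 1
      simpa using this
    have a3 : HasDerivAt (fun y => G y ^ 2) (2 * G y * G1 y) y := by
      have := (hG1 y).pow 2
      refine this.congr_deriv ?_
      push_cast; ring
    exact (a1.mul (hω y)).mul (a3.div a2 (hne y))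
  have hGy : ∀ y, 0 < y → 0 ≤ G y ∧ G y ≤ C0 * y := fun y hy => ⟨G0 y hy.le, GC y hy.le⟩
  have key := interp_gen hJ (K := 133 ^ 2) (ε := ε) cp.continuousOn cp1.continuousOn
    cq1.continuousOn cq2.continuousOn hdp (by simp [hp]) ?_ ?_ ?_ (by positivity) hε ?_ ?_
  · have l1 : ∫ y in Ioi (0 : ℝ), y ^ 9 * ω y * ((y * g y) ^ 2 / (1 + y ^ 2)) * ‖deriv P y‖ ^ 2 =
        ∫ y in Ioi (0 : ℝ), p y * ‖P1 y‖ ^ 2 := by
      refine setIntegral_congr_fun measurableSet_Ioi ?_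
      intro y hy
      simp only [hp, hGdef, hJ.e1 y hy]
    have l2 : ∫ y in Ioi (0 : ℝ), y ^ 9 * ω y * (y * g y) ^ 2 * ‖deriv (deriv P) y‖ ^ 2 =
        ∫ y in Ioi (0 : ℝ), q2 y * ‖P2 y‖ ^ 2 := by
      refine setIntegral_congr_fun measurableSet_Ioi ?_
      intro y hy
      simp only [hq2, hGdef, hJ.e2 y hy]
    have l3 : ∫ y in Ioi (0 : ℝ), q1 y * ‖P y‖ ^ 2 =
        C0 ^ 2 * ∫ y in Ioi (0 : ℝ), y ^ 9 * ω y / (1 + y ^ 2) * ‖P y‖ ^ 2 := by
      rw [← integral_const_mul]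
      refine setIntegral_congr_fun measurableSet_Ioi ?_
      intro y _
      simp only [hq1]; ring
    rw [l1, l2]
    rw [l3] at key
    calc _ ≤ _ := key
      _ = _ := by ring
  · intro y hy
    have := hpos y
    simp only [hp]; positivity
  · intro y hy
    have := hpos y
    simp only [hq1]; positivity
  · intro y hy
    have := hpos y
    simp only [hq2]; positivity
  · -- p² ≤ q1 q2
    intro y hy
    have hw := hpos y
    obtain ⟨g0, g1⟩ := hGy y hy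
    have e : p y ^ 2 = (y ^ 9 * ω y) ^ 2 * (G y ^ 2 * (G y ^ 2 / (1 + y ^ 2) ^ 2)) := by
      simp only [hp]; field_simp
    have e' : q1 y * q2 y = (y ^ 9 * ω y) ^ 2 * (G y ^ 2 * (C0 ^ 2 / (1 + y ^ 2))) := by
      simp only [hq1, hq2]; field_simp
    rw [e, e']
    have : G y ^ 2 / (1 + y ^ 2) ^ 2 ≤ C0 ^ 2 / (1 + y ^ 2) := by
      rw [div_le_div_iff₀ (by positivity) (by positivity)]
      have h2 : G y ^ 2 ≤ C0 ^ 2 * (1 + y ^ 2) := by
        have : G y ^ 2 ≤ (C0 * y) ^ 2 := by gcongr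
        nlinarith [sq_nonneg C0]
      calc G y ^ 2 * (1 + y ^ 2) ≤ (C0 ^ 2 * (1 + y ^ 2)) * (1 + y ^ 2) := by gcongr
        _ = _ := by ring
    gcongr
  · -- p1² ≤ 133² p q1
    intro y hy
    have hw := hpos y
    obtain ⟨g0, g1⟩ := hGy y hy
    have hb1 : |G1 y| ≤ C0 := bG1 y hy.le
    -- bound |p1| ≤ 133 C0 * y^9 ω G/(1+y²)
    have hp1b : |p1 y| ≤ 133 * C0 * (y ^ 9 * ω y * G y / (1 + y ^ 2)) := by
      have t1 : |9 * y ^ 8 * ω y * (G y ^ 2 / (1 + y ^ 2))| ≤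
          9 * C0 * (y ^ 9 * ω y * G y / (1 + y ^ 2)) := by
        rw [abs_of_nonneg (by positivity)]
        have : 9 * y ^ 8 * ω y * (G y ^ 2 / (1 + y ^ 2)) =
          9 * (y ^ 8 * ω y * G y / (1 + y ^ 2)) * G y := by ring
        rw [this]
        calc 9 * (y ^ 8 * ω y * G y / (1 + y ^ 2)) * G y ≤
            9 * (y ^ 8 * ω y * G y / (1 + y ^ 2)) * (C0 * y) := by gcongr
          _ = _ := by ring
      have t2 : |y ^ 9 * ω1 y * (G y ^ 2 / (1 + y ^ 2))| ≤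
          120 * C0 * (y ^ 9 * ω y * G y / (1 + y ^ 2)) := by
        rw [abs_mul, abs_mul, abs_of_nonneg (show 0 ≤ y ^ 9 by positivity),
          abs_of_nonneg (show 0 ≤ G y ^ 2 / (1 + y ^ 2) by positivity)]
        calc y ^ 9 * |ω1 y| * (G y ^ 2 / (1 + y ^ 2)) ≤
            y ^ 9 * (120 * y / (1 + y ^ 2) * ω y) * (G y ^ 2 / (1 + y ^ 2)) := by
              gcongr; exact hb y hy
          _ = 120 * (y ^ 9 * ω y * G y / (1 + y ^ 2)) * (y * G y / (1 + y ^ 2)) := by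
              field_simp
          _ ≤ 120 * (y ^ 9 * ω y * G y / (1 + y ^ 2)) * C0 := by
              gcongr
              rw [div_le_iff₀ (by positivity)]
              nlinarith [mul_le_mul_of_nonneg_left g1 hy.le]
          _ = _ := by ring
      have t3 : |y ^ 9 * ω y * ((2 * G y * G1 y * (1 + y ^ 2) - G y ^ 2 * (2 * y)) /
          (1 + y ^ 2) ^ 2)| ≤ 4 * C0 * (y ^ 9 * ω y * G y / (1 + y ^ 2)) := by
        have e : y ^ 9 * ω y * ((2 * G y * G1 y * (1 + y ^ 2) - G y ^ 2 * (2 * y)) /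
          (1 + y ^ 2) ^ 2) = (y ^ 9 * ω y * G y / (1 + y ^ 2)) *
            (2 * G1 y - 2 * (y * G y / (1 + y ^ 2))) := by
          field_simp
        rw [e, abs_mul, abs_of_nonneg (show 0 ≤ y ^ 9 * ω y * G y / (1 + y ^ 2) by positivity)]
        have h5 : y * G y / (1 + y ^ 2) ≤ C0 := by
          rw [div_le_iff₀ (by positivity)]
          nlinarith [mul_le_mul_of_nonneg_left g1 hy.le]
        have h6 : 0 ≤ y * G y / (1 + y ^ 2) := by positivity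
        have h7 : |2 * G1 y - 2 * (y * G y / (1 + y ^ 2))| ≤ 4 * C0 := by
          rw [abs_le] at hb1 ⊢
          constructor <;> linarith [hb1.1, hb1.2]
        calc _ ≤ (y ^ 9 * ω y * G y / (1 + y ^ 2)) * (4 * C0) := by gcongr
          _ = _ := by ring
      have e : p1 y = 9 * y ^ 8 * ω y * (G y ^ 2 / (1 + y ^ 2)) +
          y ^ 9 * ω1 y * (G y ^ 2 / (1 + y ^ 2)) +
          y ^ 9 * ω y * ((2 * G y * G1 y * (1 + y ^ 2) - G y ^ 2 * (2 * y)) /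
          (1 + y ^ 2) ^ 2) := by simp only [hp1]; ring
      rw [e]
      refine (abs_add_le _ _).trans ?_
      have t12 := abs_add_le (9 * y ^ 8 * ω y * (G y ^ 2 / (1 + y ^ 2)))
        (y ^ 9 * ω1 y * (G y ^ 2 / (1 + y ^ 2)))
      linarith
    calc p1 y ^ 2 = |p1 y| ^ 2 := (sq_abs _).symm
      _ ≤ (133 * C0 * (y ^ 9 * ω y * G y / (1 + y ^ 2))) ^ 2 := by gcongr
      _ = 133 ^ 2 * p y * q1 y := by
        simp only [hp, hq1]; field_simp

theorem hasDerivAt_w60 (y : ℝ) : HasDerivAt w60 (120 * y * (1 + y ^ 2) ^ 59) y := by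
  have a2 : HasDerivAt (fun y : ℝ => 1 + y ^ 2) (2 * y) y := by
    have := (hasDerivAt_pow 2 y).const_add 1
    simpa using this
  have := a2.pow 60
  refine this.congr_deriv ?_
  push_cast
  ring

theorem w60_pos (y : ℝ) : 0 < w60 y := by unfold w60; positivity

theorem continuous_w60 : Continuous w60 := by unfold w60; fun_prop

theorem st_interpY {c0 C0 : ℝ} {g : ℝ → ℝ} (hg : Prof c0 C0 g) {ε : ℝ} (hε : 0 < ε) :
    ∃ K : ℝ, 0 ≤ K ∧ ∀ P, DD P →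
      ∫ y in Ioi (0 : ℝ), y ^ 9 * w60 y * ((y * g y) ^ 2 / (1 + y ^ 2)) * ‖deriv P y‖ ^ 2 ≤
        ε * (∫ y in Ioi (0 : ℝ), y ^ 9 * w60 y * (y * g y) ^ 2 * ‖deriv (deriv P) y‖ ^ 2) +
          K * ∫ y in Ioi (0 : ℝ), y ^ 9 * w60 y / (1 + y ^ 2) * ‖P y‖ ^ 2 := by
  refine st_interp hg continuous_w60 (ω1 := fun y => 120 * y * (1 + y ^ 2) ^ 59) (by fun_prop)
    hasDerivAt_w60 w60_pos ?_ hε
  intro y hy
  rw [abs_of_nonneg (by positivity)]
  apply le_of_eq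
  unfold w60
  field_simp

theorem st_interpX {c0 C0 : ℝ} {g : ℝ → ℝ} (hg : Prof c0 C0 g) {ε : ℝ} (hε : 0 < ε) :
    ∃ K : ℝ, 0 ≤ K ∧ ∀ P, DD P →
      ∫ y in Ioi (0 : ℝ), y ^ 9 / w60 y * ((y * g y) ^ 2 / (1 + y ^ 2)) * ‖deriv P y‖ ^ 2 ≤
        ε * (∫ y in Ioi (0 : ℝ), y ^ 9 / w60 y * (y * g y) ^ 2 * ‖deriv (deriv P) y‖ ^ 2) +
          K * ∫ y in Ioi (0 : ℝ), y ^ 9 / w60 y / (1 + y ^ 2) * ‖P y‖ ^ 2 := by
  have h := st_interp hg (ω := fun y => (w60 y)⁻¹)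
    (ω1 := fun y => -(120 * y * (1 + y ^ 2) ^ 59) / (w60 y) ^ 2)
    (continuous_w60.inv₀ (fun y => (w60_pos y).ne'))
    (by
      have : ∀ y, w60 y ^ 2 ≠ 0 := fun y => (pow_pos (w60_pos y) 2).ne'
      have := continuous_w60
      fun_prop (disch := exact this _))
    (fun y => (hasDerivAt_w60 y).inv (w60_pos y).ne')
    (fun y => inv_pos.mpr (w60_pos y)) ?_ hε
  · simpa only [div_eq_mul_inv] using h
  · intro y hy
    have hw := w60_pos y
    rw [neg_div, abs_neg, abs_of_nonneg (by positivity)]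
    apply le_of_eq
    unfold w60
    field_simp

end Crest.Agent.R213.A
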