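import Crest.Agent.R213.A.ADefs

/-!
# Row 213, PART A: kit for the stationary (complex, one-variable) calculus on `[0,∞)`
-/

set_option autoImplicit false

open Set MeasureTheory Filter Topology

noncomputable section

namespace Crest.Agent.R213.A

/-- values, first and second derivatives of a test function: `P1, P2` continuous on `[0,∞)`. -/
structure DDJet (P P1 P2 : ℝ → ℂ) (R : ℝ) : Prop where
  R_pos : 0 < R
  c0 : ContinuousOn P (Ici 0)
  c1 : ContinuousOn P1 (Ici 0)
  c2 : ContinuousOn P2 (Ici 0)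
  d1 : ∀ y, 0 < y → HasDerivAt P (P1 y) y
  d2 : ∀ y, 0 < y → HasDerivAt P1 (P2 y) y
  e1 : ∀ y, 0 < y → deriv P y = P1 y
  e2 : ∀ y, 0 < y → deriv (deriv P) y = P2 y
  z0 : ∀ y, R ≤ y → P y = 0
  z1 : ∀ y, R ≤ y → P1 y = 0
  z2 : ∀ y, R ≤ y → P2 y = 0

theorem DD.jet {P : ℝ → ℂ} (hP : DD P) : ∃ P1 P2 R, DDJet P P1 P2 R := by
  obtain ⟨hs, R, hR⟩ := hP
  have hu : UniqueDiffOn ℝ (Ici (0:ℝ)) := uniqueDiffOn_Ici 0
  have h1 : ContDiffOn ℝ (⊤ : ℕ∞) (derivWithin P (Ici 0)) (Ici 0) :=
    hs.derivWithin hu (by simp)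
  have h2 : ContDiffOn ℝ (⊤ : ℕ∞) (derivWithin (derivWithin P (Ici 0)) (Ici 0)) (Ici 0) :=
    h1.derivWithin hu (by simp)
  have hd1 : ∀ y, 0 < y → HasDerivAt P (derivWithin P (Ici 0) y) y := by
    intro y hy
    have := (hs.differentiableOn (by simp) y hy.le).hasDerivWithinAt
    exact this.hasDerivAt (Ici_mem_nhds hy)
  have hd2 : ∀ y, 0 < y → HasDerivAt (derivWithin P (Ici 0))
      (derivWithin (derivWithin P (Ici 0)) (Ici 0) y) y := by
    intro y hy
    have := (h1.differentiableOn (by simp) y hy.le).hasDerivWithinAt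
    exact this.hasDerivAt (Ici_mem_nhds hy)
  have he1 : ∀ y, 0 < y → deriv P y = derivWithin P (Ici 0) y := fun y hy => (hd1 y hy).deriv
  have he2 : ∀ y, 0 < y → deriv (deriv P) y = derivWithin (derivWithin P (Ici 0)) (Ici 0) y := by
    intro y hy
    have : deriv P =ᶠ[𝓝 y] derivWithin P (Ici 0) := by
      filter_upwards [Ioi_mem_nhds hy] with z hz using he1 z hz
    rw [this.deriv_eq]
    exact (hd2 y hy).deriv
  have hz0 : ∀ y, max R 1 < y → P y = 0 := fun y hy => hR y ((le_max_left _ _).trans hy.le)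
  have hz1 : ∀ y, max R 1 < y → derivWithin P (Ici 0) y = 0 := by
    intro y hy
    have hy0 : 0 < y := lt_of_lt_of_le one_pos ((le_max_right _ _).trans hy.le)
    rw [← he1 y hy0]
    have : P =ᶠ[𝓝 y] fun _ => 0 := by
      filter_upwards [Ioi_mem_nhds hy] with z hz using hz0 z hz
    rw [this.deriv_eq]; simp
  have hz2 : ∀ y, max R 1 < y → derivWithin (derivWithin P (Ici 0)) (Ici 0) y = 0 := by
    intro y hy
    have hy0 : 0 < y := lt_of_lt_of_le one_pos ((le_max_right _ _).trans hy.le)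
    rw [← (hd2 y hy0).deriv]
    have : derivWithin P (Ici 0) =ᶠ[𝓝 y] fun _ => 0 := by
      filter_upwards [Ioi_mem_nhds hy] with z hz using hz1 z hz
    rw [this.deriv_eq]; simp
  have hm : max R 1 < max R 1 + 1 := by linarith
  refine ⟨derivWithin P (Ici 0), derivWithin (derivWithin P (Ici 0)) (Ici 0), max R 1 + 1,
    ⟨by positivity, hs.continuousOn, h1.continuousOn, h2.continuousOn, hd1, hd2, he1, he2,
      fun y hy => hz0 y (hm.trans_le hy), fun y hy => hz1 y (hm.trans_le hy),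
      fun y hy => hz2 y (hm.trans_le hy)⟩⟩

/-- continuous on `[0,∞)` and vanishing for large argument implies integrable. -/
theorem integrableOn_of_supp {E : Type*} [NormedAddCommGroup E] {f : ℝ → E} {R : ℝ}
    (hf : ContinuousOn f (Ici 0)) (hz : ∀ y, R ≤ y → f y = 0) : IntegrableOn f (Ioi 0) := by
  have h1 : IntegrableOn f (Icc 0 (max R 0)) :=
    (hf.mono (fun x hx => hx.1)).integrableOn_Icc
  have h2 : IntegrableOn f (Ioi (max R 0)) := by
    refine (integrableOn_zero (μ := volume) (s := Ioi (max R 0))).congr_fun ?_ measurableSet_Ioi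
    intro x hx
    exact (hz x ((le_max_left _ _).trans (le_of_lt hx))).symm
  have : Ioi (0:ℝ) ⊆ Icc 0 (max R 0) ∪ Ioi (max R 0) := by
    intro x hx
    by_cases h : x ≤ max R 0
    · exact Or.inl ⟨le_of_lt hx, h⟩
    · exact Or.inr (not_le.mp h)
  exact (h1.union h2).mono_set this

/-- the integral of the derivative of a compactly supported function vanishing at `0` is `0`. -/
theorem integral_deriv_zero {F f : ℝ → ℝ} {R : ℝ} (hF : ContinuousOn F (Ici 0))
    (hf : ContinuousOn f (Ici 0)) (hd : ∀ y, 0 < y → HasDerivAt F (f y) y) (h0 : F 0 = 0)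
    (hz : ∀ y, R ≤ y → F y = 0) (hz' : ∀ y, R ≤ y → f y = 0) :
    ∫ y in Ioi (0:ℝ), f y = 0 := by
  set b := max R 0 with hb
  have hb0 : 0 ≤ b := le_max_right _ _
  have hi : IntegrableOn f (Ioi 0) := integrableOn_of_supp hf hz'
  have h1 : ∫ y in Ioi (0:ℝ), f y = ∫ y in (0:ℝ)..b, f y := by
    rw [intervalIntegral.integral_of_le hb0]
    rw [← setIntegral_eq_of_subset_of_forall_sdiff_eq_zero measurableSet_Ioi
      (s := Ioc 0 b) (fun x hx => hx.1)]
    intro x hx
    have : b < x := by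
      by_contra h
      exact hx.2 ⟨hx.1, not_lt.mp h⟩
    exact hz' x ((le_max_left _ _).trans this.le)
  rw [h1]
  have h2 := intervalIntegral.integral_eq_sub_of_hasDerivAt_of_le hb0
    (hF.mono (fun x hx => hx.1)) (fun x hx => hd x hx.1)
    ((hf.mono (by rw [uIcc_of_le hb0]; exact fun x hx => hx.1)).intervalIntegrable)
  rw [h2, h0, hz b (le_max_left _ _), sub_zero]

end Crest.Agent.R213.A
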