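import Crest.Agent.R213.A.StBound

/-!
# Row 213, Part A: limit lemmas in `L²`
-/

set_option autoImplicit false

open Set MeasureTheory Filter Topology
open scoped InnerProductSpace ENNReal

noncomputable section

namespace Crest.Agent.R213.A.St

/-- dominated convergence for `∫ m_N |e|²` when `m_N` is eventually constant pointwise -/
lemma tendsto_quad_R {m : ℕ → ℝ → ℝ} {m' : ℝ → ℝ} (hm : ∀ N, Measurable (m N)) {K : ℝ}
    (hK : ∀ N, ∀ y : ℝ, 0 < y → |m N y| ≤ K)
    (hlim : ∀ y : ℝ, 0 < y → ∀ᶠ N in atTop, m N y = m' y) (e : LL) :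
    Tendsto (fun N => ∫ y in Ioi (0 : ℝ), m N y * ‖e y‖ ^ 2) atTop
      (𝓝 (∫ y in Ioi (0 : ℝ), m' y * ‖e y‖ ^ 2)) := by
  have he : MemLp (e : ℝ → ℂ) 2 mu0 := Lp.memLp e
  have hint : Integrable (fun y => ‖e y‖ ^ 2) mu0 :=
    (memLp_two_iff_integrable_sq_norm he.1).1 he
  refine tendsto_integral_of_dominated_convergence (fun y => K * ‖e y‖ ^ 2) ?_ ?_ ?_ ?_
  · intro N
    exact ((hm N).aestronglyMeasurable).mul hint.1
  · exact hint.const_mul K
  · intro N
    filter_upwards [ae_restrict_mem measurableSet_Ioi] with y hy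
    rw [norm_mul, Real.norm_eq_abs, Real.norm_eq_abs, abs_of_nonneg (sq_nonneg ‖e y‖)]
    exact mul_le_mul_of_nonneg_right (hK N y hy) (sq_nonneg _)
  · filter_upwards [ae_restrict_mem measurableSet_Ioi] with y hy
    refine tendsto_const_nhds.congr' ?_
    filter_upwards [hlim y hy] with N hN
    rw [hN]

/-- dominated convergence for `⟪m_N e, f⟫` -/
lemma tendsto_inner_R {m : ℕ → ℝ → ℝ} (hm : ∀ N, MemLp (fun y => (m N y : ℂ)) ∞ mu0) {K : ℝ}
    (hK : ∀ N, ∀ y : ℝ, 0 < y → |m N y| ≤ K)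
    (hlim : ∀ y : ℝ, 0 < y → ∀ᶠ N in atTop, m N y = 1) (e f : LL) :
    Tendsto (fun N => ⟪mulOp (m N) (hm N) e, f⟫_ℂ) atTop (𝓝 ⟪e, f⟫_ℂ) := by
  simp_rw [L2.inner_def]
  refine tendsto_integral_of_dominated_convergence (fun y => K * ‖⟪e y, f y⟫_ℂ‖) ?_ ?_ ?_ ?_
  · intro N
    exact (L2.integrable_inner (mulOp (m N) (hm N) e) f).1
  · exact (L2.integrable_inner e f).norm.const_mul K
  · intro N
    filter_upwards [ae_restrict_mem measurableSet_Ioi, mulOp_coe (hm N) e] with y hy h1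
    rw [h1]
    have : ⟪(m N y : ℂ) * e y, f y⟫_ℂ = (m N y : ℂ) * ⟪e y, f y⟫_ℂ := by
      simp only [RCLike.inner_apply, map_mul, Complex.conj_ofReal]; ring
    rw [this, norm_mul, Complex.norm_real, Real.norm_eq_abs]
    exact mul_le_mul_of_nonneg_right (hK N y hy) (norm_nonneg _)
  · have hall : ∀ᵐ y ∂mu0, ∀ N, (mulOp (m N) (hm N) e : ℝ → ℂ) y = (m N y : ℂ) * e y :=
      ae_all_iff.2 fun N => mulOp_coe (hm N) e
    filter_upwards [ae_restrict_mem measurableSet_Ioi, hall] with y hy h1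
    refine tendsto_const_nhds.congr' ?_
    filter_upwards [hlim y hy] with N hN
    rw [h1 N, hN]; simp

variable {c0 C0 : ℝ} {g : ℝ → ℝ}

/-- the energy space -/
def YS (hg : Prof c0 C0 g) : Submodule ℂ HH :=
  (LinearMap.range (iotaL (Prof.cont hg))).topologicalClosure

lemma YS_closed (hg : Prof c0 C0 g) : IsClosed (YS hg : Set HH) :=
  Submodule.isClosed_topologicalClosure _

instance (hg : Prof c0 C0 g) : CompleteSpace (YS hg) := (YS_closed hg).completeSpace_coe

lemma iota_mem (hg : Prof c0 C0 g) {P : ℝ → ℂ} (hP : DD P) :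
    iota (Prof.cont hg) P hP ∈ YS hg :=
  Submodule.le_topologicalClosure _ ⟨⟨P, hP⟩, rfl⟩

/-- elements of the energy space are limits of test functions -/
lemma exists_seq (hg : Prof c0 C0 g) (e : YS hg) :
    ∃ P : ℕ → {P : ℝ → ℂ // DD P},
      Tendsto (fun n => iota (Prof.cont hg) (P n).1 (P n).2) atTop (𝓝 (e : HH)) := by
  have h1 : (e : HH) ∈ closure ((LinearMap.range (iotaL (Prof.cont hg)) : Submodule ℂ HH) : Set HH) := by
    have := e.2
    change (e : HH) ∈ ((LinearMap.range (iotaL (Prof.cont hg))).topologicalClosure : Set HH) at this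
    rwa [Submodule.topologicalClosure_coe] at this
  rw [mem_closure_iff_seq_limit] at h1
  obtain ⟨x, hx, hlim⟩ := h1
  choose P hP using hx
  refine ⟨fun n => ⟨(P n).1, (P n).2⟩, ?_⟩
  refine hlim.congr fun n => ?_
  rw [← hP n]; rfl

end Crest.Agent.R213.A.St
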