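import Crest.Agent.R213.A.StDefs
import Crest.Agent.R213.C.Intp

/-!
# Row 213, Part A: `st_rellich` (helper337)

Two Hardy inequalities near `0`, Poincaré on short intervals in `[η, Y0]`.
-/

set_option autoImplicit false

open Set MeasureTheory Filter Topology intervalIntegral

noncomputable section

namespace Crest.Agent.R213.A.Rell

/-- derivative within `[0,∞)` -/
def dW (P : ℝ → ℂ) : ℝ → ℂ := derivWithin P (Ici 0)

theorem der {P : ℝ → ℂ} (hP : DD P) {y : ℝ} (hy : 0 ≤ y) :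
    HasDerivWithinAt P (dW P y) (Ici 0) y :=
  ((hP.1.differentiableOn (by simp)) y hy).hasDerivWithinAt

theorem derAt {P : ℝ → ℂ} (hP : DD P) {y : ℝ} (hy : 0 < y) : HasDerivAt P (dW P y) y :=
  (der hP hy.le).hasDerivAt (Ici_mem_nhds hy)

theorem deriv_eq {P : ℝ → ℂ} (hP : DD P) {y : ℝ} (hy : 0 < y) : deriv P y = dW P y :=
  (derAt hP hy).deriv

theorem dd_dW {P : ℝ → ℂ} (hP : DD P) : DD (dW P) := by
  refine ⟨hP.1.derivWithin (uniqueDiffOn_Ici 0) (by simp), ?_⟩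
  obtain ⟨R, hR⟩ := hP.2
  refine ⟨max R 0 + 1, fun y hy => ?_⟩
  have hy0 : 0 < y := by have := le_max_right R 0; linarith
  have hyR : R < y := by have := le_max_left R 0; linarith
  have hev : P =ᶠ[𝓝 y] fun _ => 0 := by
    filter_upwards [lt_mem_nhds hyR] with z hz using hR z hz.le
  have : HasDerivAt P 0 y := (hasDerivAt_const y (0 : ℂ)).congr_of_eventuallyEq hev
  have h2 := (derAt hP hy0).unique this
  exact h2

theorem deriv2_eq {P : ℝ → ℂ} (hP : DD P) {y : ℝ} (hy : 0 < y) :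
    deriv (deriv P) y = dW (dW P) y := by
  have hev : deriv P =ᶠ[𝓝 y] dW P := by
    filter_upwards [lt_mem_nhds hy] with z hz using deriv_eq hP hz
  rw [hev.deriv_eq]
  exact deriv_eq (dd_dW hP) hy

theorem contOn {P : ℝ → ℂ} (hP : DD P) : ContinuousOn P (Ici 0) := hP.1.continuousOn

theorem contOn_Icc {P : ℝ → ℂ} (hP : DD P) {a b : ℝ} (ha : 0 ≤ a) : ContinuousOn P (Icc a b) :=
  hP.1.continuousOn.mono (fun _ hx => ha.trans hx.1)

/-- a common vanishing bound. -/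
theorem exists_bd {P : ℝ → ℂ} (hP : DD P) (B0 : ℝ) :
    ∃ B, B0 ≤ B ∧ 0 < B ∧ (∀ y, B ≤ y → P y = 0) ∧ (∀ y, B ≤ y → dW P y = 0) ∧
      ∀ y, B ≤ y → dW (dW P) y = 0 := by
  obtain ⟨R, hR⟩ := hP.2
  obtain ⟨R1, hR1⟩ := (dd_dW hP).2
  obtain ⟨R2, hR2⟩ := (dd_dW (dd_dW hP)).2
  refine ⟨max (max (max R R1) (max R2 B0)) 1, ?_, ?_, ?_, ?_, ?_⟩
  · exact (le_max_right _ _).trans ((le_max_right _ _).trans (le_max_left _ _))
  · exact lt_of_lt_of_le one_pos (le_max_right _ _)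
  · intro y hy
    exact hR y (le_trans ((le_max_left _ _).trans ((le_max_left _ _).trans (le_max_left _ _))) hy)
  · intro y hy
    exact hR1 y (le_trans ((le_max_right _ _).trans ((le_max_left _ _).trans (le_max_left _ _))) hy)
  · intro y hy
    exact hR2 y (le_trans ((le_max_left _ _).trans ((le_max_right _ _).trans (le_max_left _ _))) hy)

theorem integral_Ioi_eq {f : ℝ → ℝ} {B : ℝ} (hB : 0 ≤ B) (hf : ∀ y, B ≤ y → f y = 0) :
    ∫ y in Ioi (0 : ℝ), f y = ∫ y in (0 : ℝ)..B, f y := by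
  rw [intervalIntegral.integral_of_le hB]
  apply setIntegral_eq_of_subset_of_forall_sdiff_eq_zero measurableSet_Ioi Ioc_subset_Ioi_self
  intro y hy
  apply hf
  by_contra h
  exact hy.2 ⟨hy.1, (not_le.1 h).le⟩

/-- **Hardy** on `[0,B]`. -/
theorem hardy {v : ℝ → ℂ} (hv : DD v) {B : ℝ} (hB : 0 < B) (hvB : v B = 0) (m : ℕ) :
    ∫ y in (0 : ℝ)..B, y ^ m * ‖v y‖ ^ 2 ≤
      4 / ((m : ℝ) + 1) ^ 2 * ∫ y in (0 : ℝ)..B, y ^ (m + 2) * ‖dW v y‖ ^ 2 := by
  have cv : ContinuousOn v (Icc 0 B) := contOn_Icc hv le_rfl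
  have cv1 : ContinuousOn (dW v) (Icc 0 B) := contOn_Icc (dd_dW hv) le_rfl
  -- Re (conj v * v')
  set q : ℝ → ℝ := fun y => (v y).re * (dW v y).re + (v y).im * (dW v y).im with hq
  have cq : ContinuousOn q (Icc 0 B) := by
    have e1 := Complex.continuous_re.comp_continuousOn cv
    have e2 := Complex.continuous_im.comp_continuousOn cv
    have e3 := Complex.continuous_re.comp_continuousOn cv1
    have e4 := Complex.continuous_im.comp_continuousOn cv1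
    exact (e1.mul e3).add (e2.mul e4)
  have hns : ∀ z : ℂ, ‖z‖ ^ 2 = z.re * z.re + z.im * z.im := by
    intro z
    rw [← Complex.normSq_eq_norm_sq, Complex.normSq_apply]
  have hder : ∀ y ∈ Ioo 0 B, HasDerivAt (fun y => y ^ (m + 1) * ‖v y‖ ^ 2)
      (((m : ℝ) + 1) * y ^ m * ‖v y‖ ^ 2 + y ^ (m + 1) * (2 * q y)) y := by
    intro y hy
    have h1 := derAt hv hy.1
    have hre : HasDerivAt (fun y => (v y).re) (dW v y).re y :=
      Complex.reCLM.hasFDerivAt.comp_hasDerivAt y h1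
    have him : HasDerivAt (fun y => (v y).im) (dW v y).im y :=
      Complex.imCLM.hasFDerivAt.comp_hasDerivAt y h1
    have h2 : HasDerivAt (fun y => ‖v y‖ ^ 2) (2 * q y) y := by
      have h3 := (hre.mul hre).add (him.mul him)
      refine (h3.congr_deriv ?_).congr_of_eventuallyEq ?_
      · simp only [hq]; ring
      · filter_upwards with z
        rw [hns]; rfl
    have h4 := (hasDerivAt_pow (m + 1) y).mul h2
    refine h4.congr_deriv ?_
    push_cast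
    simp
  have hcont : ContinuousOn (fun y => y ^ (m + 1) * ‖v y‖ ^ 2) (Icc 0 B) := by fun_prop
  have hint : IntervalIntegrable
      (fun y => ((m : ℝ) + 1) * y ^ m * ‖v y‖ ^ 2 + y ^ (m + 1) * (2 * q y)) volume 0 B := by
    apply ContinuousOn.intervalIntegrable
    rw [uIcc_of_le hB.le]
    fun_prop
  have hFTC := intervalIntegral.integral_eq_sub_of_hasDerivAt_of_le hB.le hcont hder hint
  rw [hvB] at hFTC
  simp only [norm_zero, ne_eq, OfNat.ofNat_ne_zero, not_false_eq_true, zero_pow, mul_zero,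
    add_eq_zero, one_ne_zero, and_false, zero_mul, sub_self] at hFTC
  have i1 : IntervalIntegrable (fun y => y ^ m * ‖v y‖ ^ 2) volume 0 B := by
    apply ContinuousOn.intervalIntegrable
    rw [uIcc_of_le hB.le]; fun_prop
  have i2 : IntervalIntegrable (fun y => y ^ (m + 1) * (2 * q y)) volume 0 B := by
    apply ContinuousOn.intervalIntegrable
    rw [uIcc_of_le hB.le]; fun_prop
  have i3 : IntervalIntegrable (fun y => y ^ (m + 2) * ‖dW v y‖ ^ 2) volume 0 B := by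
    apply ContinuousOn.intervalIntegrable
    rw [uIcc_of_le hB.le]; fun_prop
  set c : ℝ := (m : ℝ) + 1 with hc
  have hc0 : 0 < c := by positivity
  have e1 : ∫ y in (0 : ℝ)..B, (c * y ^ m * ‖v y‖ ^ 2 + y ^ (m + 1) * (2 * q y)) =
      c * (∫ y in (0 : ℝ)..B, y ^ m * ‖v y‖ ^ 2) + ∫ y in (0 : ℝ)..B, y ^ (m + 1) * (2 * q y) := by
    have : ∀ y : ℝ, c * y ^ m * ‖v y‖ ^ 2 + y ^ (m + 1) * (2 * q y) =
        c * (y ^ m * ‖v y‖ ^ 2) + y ^ (m + 1) * (2 * q y) := by intro y; ring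
    simp_rw [this]
    rw [intervalIntegral.integral_add (i1.const_mul c) i2, intervalIntegral.integral_const_mul]
  have e2 : - ∫ y in (0 : ℝ)..B, y ^ (m + 1) * (2 * q y) ≤
      c / 2 * (∫ y in (0 : ℝ)..B, y ^ m * ‖v y‖ ^ 2) +
        2 / c * ∫ y in (0 : ℝ)..B, y ^ (m + 2) * ‖dW v y‖ ^ 2 := by
    rw [← intervalIntegral.integral_neg, ← intervalIntegral.integral_const_mul,
      ← intervalIntegral.integral_const_mul, ← intervalIntegral.integral_add (i1.const_mul _)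
        (i3.const_mul _)]
    apply intervalIntegral.integral_mono_on hB.le i2.neg ((i1.const_mul _).add (i3.const_mul _))
    intro y hy
    have hy0 := hy.1
    have hqle : -q y ≤ ‖v y‖ * ‖dW v y‖ := by
      have h5 : |q y| ≤ ‖v y‖ * ‖dW v y‖ := by
        have : q y = (star (v y) * dW v y).re := by simp [hq]
        rw [this]
        refine (Complex.abs_re_le_norm _).trans (le_of_eq ?_)
        rw [norm_mul, norm_star]
      have := neg_abs_le (q y)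
      linarith
    have hym : 0 ≤ y ^ m := pow_nonneg hy0 m
    have key : -(y * (2 * q y)) ≤ c / 2 * ‖v y‖ ^ 2 + 2 / c * (y ^ 2 * ‖dW v y‖ ^ 2) := by
      have h6 : 0 ≤ (c * ‖v y‖ - 2 * (y * ‖dW v y‖)) ^ 2 / (2 * c) := by positivity
      have h7 : (c * ‖v y‖ - 2 * (y * ‖dW v y‖)) ^ 2 / (2 * c) =
          c / 2 * ‖v y‖ ^ 2 + 2 / c * (y ^ 2 * ‖dW v y‖ ^ 2) - 2 * y * (‖v y‖ * ‖dW v y‖) := by
        field_simp; ring
      have h8 : -(y * (2 * q y)) ≤ 2 * y * (‖v y‖ * ‖dW v y‖) := by nlinarith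
      linarith
    calc -(y ^ (m + 1) * (2 * q y)) = y ^ m * (-(y * (2 * q y))) := by ring
      _ ≤ y ^ m * (c / 2 * ‖v y‖ ^ 2 + 2 / c * (y ^ 2 * ‖dW v y‖ ^ 2)) :=
          mul_le_mul_of_nonneg_left key hym
      _ = _ := by ring
  rw [e1] at hFTC
  have e3 : c / 2 * (∫ y in (0 : ℝ)..B, y ^ m * ‖v y‖ ^ 2) ≤
      2 / c * ∫ y in (0 : ℝ)..B, y ^ (m + 2) * ‖dW v y‖ ^ 2 := by linarith
  have e4 : 2 / c * (c / 2 * (∫ y in (0 : ℝ)..B, y ^ m * ‖v y‖ ^ 2)) ≤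
      2 / c * (2 / c * ∫ y in (0 : ℝ)..B, y ^ (m + 2) * ‖dW v y‖ ^ 2) :=
    mul_le_mul_of_nonneg_left e3 (by positivity)
  calc _ = 2 / c * (c / 2 * (∫ y in (0 : ℝ)..B, y ^ m * ‖v y‖ ^ 2)) := by field_simp
    _ ≤ _ := e4
    _ = _ := by field_simp; ring

/-- Poincaré on a short interval. -/
theorem poincare {v : ℝ → ℂ} (hv : DD v) {a b : ℝ} (ha : 0 ≤ a) (hab : a < b) :
    ∫ y in a..b, ‖v y‖ ^ 2 ≤
      2 / (b - a) * ‖∫ y in a..b, v y‖ ^ 2 + 2 * (b - a) ^ 2 * ∫ y in a..b, ‖dW v y‖ ^ 2 := by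
  have hd : 0 < b - a := by linarith
  have cv : ContinuousOn v (Icc a b) := contOn_Icc hv ha
  have cv1 : ContinuousOn (dW v) (Icc a b) := contOn_Icc (dd_dW hv) ha
  set T : ℝ := ∫ y in a..b, ‖dW v y‖ with hT
  have iv : IntervalIntegrable v volume a b := by
    apply ContinuousOn.intervalIntegrable; rwa [uIcc_of_le hab.le]
  have hi1 : ∀ c d : ℝ, a ≤ c → c ≤ d → d ≤ b → IntervalIntegrable (fun y => ‖dW v y‖) volume c d := by
    intro c d hc hcd hdb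
    apply ContinuousOn.intervalIntegrable
    rw [uIcc_of_le hcd]
    exact (cv1.mono (Icc_subset_Icc hc hdb)).norm
  have hi2 : ∀ c d : ℝ, a ≤ c → c ≤ d → d ≤ b → IntervalIntegrable (dW v) volume c d := by
    intro c d hc hcd hdb
    apply ContinuousOn.intervalIntegrable
    rw [uIcc_of_le hcd]
    exact cv1.mono (Icc_subset_Icc hc hdb)
  have hT0 : 0 ≤ T := intervalIntegral.integral_nonneg hab.le (fun y _ => norm_nonneg _)
  have hsub : ∀ c d : ℝ, a ≤ c → c ≤ d → d ≤ b → ‖v d - v c‖ ≤ T := by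
    intro c d hc hcd hdb
    have hFTC : ∫ y in c..d, dW v y = v d - v c := by
      apply intervalIntegral.integral_eq_sub_of_hasDerivAt_of_le hcd
        (cv.mono (Icc_subset_Icc hc hdb)) _ (hi2 c d hc hcd hdb)
      intro y hy
      exact derAt hv (lt_of_le_of_lt (ha.trans hc) hy.1)
    rw [← hFTC]
    calc ‖∫ y in c..d, dW v y‖ ≤ ∫ y in c..d, ‖dW v y‖ :=
          intervalIntegral.norm_integral_le_integral_norm hcd
      _ ≤ T := by
          apply intervalIntegral.integral_mono_interval hc hcd hdb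
          · exact Eventually.of_forall (fun y => norm_nonneg _)
          · exact hi1 a b le_rfl hab.le le_rfl
  have hsub' : ∀ y ∈ Icc a b, ∀ z ∈ Icc a b, ‖v y - v z‖ ≤ T := by
    intro y hy z hz
    rcases le_total y z with h | h
    · rw [norm_sub_rev]; exact hsub y z hy.1 h hz.2
    · exact hsub z y hz.1 h hy.2
  have hpt : ∀ y ∈ Icc a b, ‖v y‖ ^ 2 ≤ 2 / (b - a) ^ 2 * ‖∫ z in a..b, v z‖ ^ 2 + 2 * T ^ 2 := by
    intro y hy
    have e1 : ((b - a : ℝ) : ℂ) * v y = (∫ z in a..b, v z) + ∫ z in a..b, (v y - v z) := by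
      rw [intervalIntegral.integral_sub intervalIntegrable_const iv,
        intervalIntegral.integral_const, Complex.real_smul]
      ring
    have e2 : ‖∫ z in a..b, (v y - v z)‖ ≤ T * (b - a) := by
      have := intervalIntegral.norm_integral_le_of_norm_le_const (a := a) (b := b)
        (f := fun z => v y - v z) (C := T) (by
          intro z hz
          rw [uIoc_of_le hab.le] at hz
          exact hsub' y hy z ⟨hz.1.le, hz.2⟩)
      rwa [abs_of_pos hd] at this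
    have e3 : (b - a) * ‖v y‖ ≤ ‖∫ z in a..b, v z‖ + T * (b - a) := by
      have : (b - a) * ‖v y‖ = ‖((b - a : ℝ) : ℂ) * v y‖ := by
        rw [norm_mul, Complex.norm_real, Real.norm_of_nonneg hd.le]
      rw [this, e1]
      exact (norm_add_le _ _).trans (by linarith)
    have e4 : ‖v y‖ ≤ ‖∫ z in a..b, v z‖ / (b - a) + T := by
      rw [← sub_le_iff_le_add, le_div_iff₀ hd]
      linarith
    have e5 : ‖v y‖ ^ 2 ≤ (‖∫ z in a..b, v z‖ / (b - a) + T) ^ 2 :=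
      pow_le_pow_left₀ (norm_nonneg _) e4 2
    have e6 : (‖∫ z in a..b, v z‖ / (b - a) + T) ^ 2 ≤
        2 * (‖∫ z in a..b, v z‖ / (b - a)) ^ 2 + 2 * T ^ 2 := by
      nlinarith [sq_nonneg (‖∫ z in a..b, v z‖ / (b - a) - T)]
    calc _ ≤ _ := e5
      _ ≤ _ := e6
      _ = _ := by rw [div_pow]; ring
  have hT2 : T ^ 2 ≤ (b - a) * ∫ y in a..b, ‖dW v y‖ ^ 2 := by
    have := C.cs hab.le (f := fun y => ‖dW v y‖) (g := fun _ => (1 : ℝ)) cv1.norm continuousOn_const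
    simp only [mul_one, one_pow, intervalIntegral.integral_const, smul_eq_mul] at this
    linarith
  calc ∫ y in a..b, ‖v y‖ ^ 2
      ≤ ∫ y in a..b, (2 / (b - a) ^ 2 * ‖∫ z in a..b, v z‖ ^ 2 + 2 * T ^ 2) := by
        apply intervalIntegral.integral_mono_on hab.le
        · apply ContinuousOn.intervalIntegrable
          rw [uIcc_of_le hab.le]; exact cv.norm.pow 2
        · exact intervalIntegrable_const
        · exact hpt
    _ = 2 / (b - a) * ‖∫ z in a..b, v z‖ ^ 2 + 2 * (b - a) * T ^ 2 := by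
        rw [intervalIntegral.integral_const, smul_eq_mul]
        field_simp
    _ ≤ _ := by
        have : 2 * (b - a) * T ^ 2 ≤ 2 * (b - a) * ((b - a) * ∫ y in a..b, ‖dW v y‖ ^ 2) :=
          mul_le_mul_of_nonneg_left hT2 (by positivity)
        nlinarith

/-- `stY` as an interval integral. -/
theorem stY_eq {g : ℝ → ℝ} {P : ℝ → ℂ} (hP : DD P) {B : ℝ} (hB : 0 ≤ B)
    (h0 : ∀ y, B ≤ y → P y = 0) (h2 : ∀ y, B ≤ y → dW (dW P) y = 0) :
    stY g P = ∫ y in (0 : ℝ)..B, y ^ 9 * w60 y * (((y * g y) ^ 2) * ‖dW (dW P) y‖ ^ 2 + ‖P y‖ ^ 2) := by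
  unfold stY
  rw [← integral_Ioi_eq hB (f := fun y => y ^ 9 * w60 y *
    (((y * g y) ^ 2) * ‖dW (dW P) y‖ ^ 2 + ‖P y‖ ^ 2)) (fun y hy => by simp [h0 y hy, h2 y hy])]
  apply setIntegral_congr_fun measurableSet_Ioi
  intro y hy
  simp only
  rw [deriv2_eq hP hy]

/-- both Hardy inequalities, in terms of `stY`. -/
theorem hardy_stY {c0 C0 : ℝ} {g : ℝ → ℝ} (hg : Prof c0 C0 g) {P : ℝ → ℂ} (hP : DD P) {B : ℝ}
    (hB : 0 < B) (h0 : ∀ y, B ≤ y → P y = 0) (h1 : ∀ y, B ≤ y → dW P y = 0)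
    (h2 : ∀ y, B ≤ y → dW (dW P) y = 0) :
    (∫ y in (0 : ℝ)..B, y ^ 7 * ‖P y‖ ^ 2 ≤ 1 / (400 * c0 ^ 2) * stY g P) ∧
      ∫ y in (0 : ℝ)..B, y ^ 9 * ‖dW P y‖ ^ 2 ≤ 1 / (25 * c0 ^ 2) * stY g P := by
  have hc0 := hg.c0_pos
  have a1 := hardy hP hB (h0 B le_rfl) 7
  have a2 := hardy (dd_dW hP) hB (h1 B le_rfl) 9
  have cP : ContinuousOn P (Icc 0 B) := contOn_Icc hP le_rfl
  have cP2 : ContinuousOn (dW (dW P)) (Icc 0 B) := contOn_Icc (dd_dW (dd_dW hP)) le_rfl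
  have cg : Continuous g := hg.smooth.continuous
  have cw : Continuous w60 := by unfold w60; fun_prop
  have a3 : ∫ y in (0 : ℝ)..B, y ^ 11 * ‖dW (dW P) y‖ ^ 2 ≤ 1 / c0 ^ 2 * stY g P := by
    rw [stY_eq hP hB.le h0 h2, ← intervalIntegral.integral_const_mul]
    apply intervalIntegral.integral_mono_on hB.le
    · apply ContinuousOn.intervalIntegrable
      rw [uIcc_of_le hB.le]; fun_prop
    · apply ContinuousOn.intervalIntegrable
      rw [uIcc_of_le hB.le]; fun_prop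
    · intro y hy
      have hy0 := hy.1
      have hl := hg.lower y hy0
      have hw : 1 ≤ w60 y := by
        unfold w60
        exact one_le_pow₀ (by nlinarith [sq_nonneg y])
      have hg2 : c0 ^ 2 * y ^ 2 ≤ (y * g y) ^ 2 := by
        have : c0 ^ 2 ≤ g y ^ 2 := pow_le_pow_left₀ hc0.le hl 2
        nlinarith [sq_nonneg y]
      have h9 : 0 ≤ y ^ 9 := pow_nonneg hy0 9
      have hN := sq_nonneg ‖dW (dW P) y‖
      have hPn := sq_nonneg ‖P y‖
      have key : c0 ^ 2 * (y ^ 2 * ‖dW (dW P) y‖ ^ 2) ≤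
          w60 y * ((y * g y) ^ 2 * ‖dW (dW P) y‖ ^ 2 + ‖P y‖ ^ 2) := by
        have k1 : c0 ^ 2 * (y ^ 2 * ‖dW (dW P) y‖ ^ 2) ≤ (y * g y) ^ 2 * ‖dW (dW P) y‖ ^ 2 := by
          nlinarith
        have k2 : 0 ≤ (y * g y) ^ 2 * ‖dW (dW P) y‖ ^ 2 := by positivity
        nlinarith
      calc y ^ 11 * ‖dW (dW P) y‖ ^ 2
          = 1 / c0 ^ 2 * (y ^ 9 * (c0 ^ 2 * (y ^ 2 * ‖dW (dW P) y‖ ^ 2))) := by
            field_simp
        _ ≤ 1 / c0 ^ 2 * (y ^ 9 * (w60 y * ((y * g y) ^ 2 * ‖dW (dW P) y‖ ^ 2 + ‖P y‖ ^ 2))) := by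
            gcongr
        _ = _ := by ring
  norm_num at a1 a2
  have b2 : ∫ y in (0 : ℝ)..B, y ^ 9 * ‖dW P y‖ ^ 2 ≤ 1 / (25 * c0 ^ 2) * stY g P := by
    calc _ ≤ _ := a2
      _ ≤ 1 / 25 * (1 / c0 ^ 2 * stY g P) := by gcongr
      _ = _ := by field_simp
  refine ⟨?_, b2⟩
  calc _ ≤ _ := a1
    _ ≤ 1 / 16 * (1 / (25 * c0 ^ 2) * stY g P) := by gcongr
    _ = _ := by field_simp; ring

end Crest.Agent.R213.A.Rell

namespace Crest.Agent.R213.A

open Rell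

theorem st_rellich {c0 C0 : ℝ} {g : ℝ → ℝ} (hg : Prof c0 C0 g) {ε Y0 : ℝ} (hε : 0 < ε)
    (hY : 0 < Y0) :
    ∃ (n : ℕ) (a b : Fin n → ℝ) (K : ℝ), 0 ≤ K ∧ (∀ i, 0 < a i ∧ a i < b i) ∧ ∀ P, DD P →
      ∫ y in Ioc 0 Y0, y ^ 9 * ‖P y‖ ^ 2 ≤
        ε * stY g P + K * ∑ i, ‖∫ y in Ioc (a i) (b i), P y‖ ^ 2 := by
  have hc0 := hg.c0_pos
  -- choice of η
  obtain ⟨η, hη0, hηY, hη⟩ : ∃ η : ℝ, 0 < η ∧ η < Y0 ∧ η ^ 2 * (1 / (400 * c0 ^ 2)) ≤ ε / 2 := by
    refine ⟨min (Y0 / 2) (√(200 * c0 ^ 2 * ε)), by positivity, ?_, ?_⟩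
    · exact (min_le_left _ _).trans_lt (by linarith)
    · have h1 : (min (Y0 / 2) (√(200 * c0 ^ 2 * ε))) ^ 2 ≤ (√(200 * c0 ^ 2 * ε)) ^ 2 :=
        pow_le_pow_left₀ (by positivity) (min_le_right _ _) 2
      rw [Real.sq_sqrt (by positivity)] at h1
      calc _ ≤ 200 * c0 ^ 2 * ε * (1 / (400 * c0 ^ 2)) := by gcongr
        _ = ε / 2 := by field_simp; ring
  -- choice of n
  set Q : ℝ := 2 * Y0 ^ 9 * Y0 ^ 2 * (η ^ 9)⁻¹ * (1 / (25 * c0 ^ 2)) with hQ
  have hQ0 : 0 ≤ Q := by positivity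
  obtain ⟨n, hn0, hn⟩ : ∃ n : ℕ, 0 < n ∧ Q / (n : ℝ) ^ 2 ≤ ε / 2 := by
    obtain ⟨n, hn⟩ := exists_nat_gt (max 1 (2 * Q / ε))
    have hn1 : (1 : ℝ) < n := (le_max_left _ _).trans_lt hn
    have hn2 : 2 * Q / ε < n := (le_max_right _ _).trans_lt hn
    refine ⟨n, by exact_mod_cast (by linarith : (0 : ℝ) < n), ?_⟩
    rw [div_le_iff₀ (by positivity)]
    rw [div_lt_iff₀ hε] at hn2
    nlinarith
  have hnR : (0 : ℝ) < n := by exact_mod_cast hn0
  set ℓ : ℝ := (Y0 - η) / n with hℓ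
  have hℓ0 : 0 < ℓ := div_pos (by linarith) hnR
  have hℓY : ℓ ≤ Y0 / n := by
    rw [hℓ]; gcongr; linarith
  set pt : ℕ → ℝ := fun i => η + i * ℓ with hpt
  have hpt0 : pt 0 = η := by simp [hpt]
  have hptn : pt n = Y0 := by
    simp only [hpt, hℓ]
    field_simp
    ring
  have hptmono : ∀ i, pt i < pt (i + 1) := by
    intro i
    simp only [hpt]
    push_cast
    nlinarith
  have hptsub : ∀ i, pt (i + 1) - pt i = ℓ := by
    intro i
    simp only [hpt]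
    push_cast
    ring
  have hptη : ∀ i, η ≤ pt i := by
    intro i
    simp only [hpt]
    have : (0 : ℝ) ≤ i := Nat.cast_nonneg i
    nlinarith
  have hptY : ∀ i, i ≤ n → pt i ≤ Y0 := by
    intro i hi
    rw [← hptn]
    simp only [hpt]
    have : (i : ℝ) ≤ n := by exact_mod_cast hi
    nlinarith
  refine ⟨n, fun i => pt i, fun i => pt (i + 1), Y0 ^ 9 * (2 / ℓ), by positivity,
    fun i => ⟨lt_of_lt_of_le hη0 (hptη i), hptmono i⟩, ?_⟩
  intro P hP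
  obtain ⟨B, hYB, hB, h0, h1, h2⟩ := exists_bd hP Y0
  obtain ⟨H7, H9⟩ := hardy_stY hg hP hB h0 h1 h2
  have cP : ∀ a b : ℝ, 0 ≤ a → ContinuousOn P (Icc a b) := fun a b ha => contOn_Icc hP ha
  have cP1 : ∀ a b : ℝ, 0 ≤ a → ContinuousOn (dW P) (Icc a b) :=
    fun a b ha => contOn_Icc (dd_dW hP) ha
  have iP : ∀ a b : ℝ, 0 ≤ a → a ≤ b → ∀ m : ℕ,
      IntervalIntegrable (fun y => y ^ m * ‖P y‖ ^ 2) volume a b := by
    intro a b ha hab m
    have := cP a b ha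
    apply ContinuousOn.intervalIntegrable
    rw [uIcc_of_le hab]; fun_prop
  have iP1 : ∀ a b : ℝ, 0 ≤ a → a ≤ b → ∀ m : ℕ,
      IntervalIntegrable (fun y => y ^ m * ‖dW P y‖ ^ 2) volume a b := by
    intro a b ha hab m
    have := cP1 a b ha
    apply ContinuousOn.intervalIntegrable
    rw [uIcc_of_le hab]; fun_prop
  -- split
  have hsplit : ∫ y in Ioc 0 Y0, y ^ 9 * ‖P y‖ ^ 2 =
      (∫ y in (0 : ℝ)..η, y ^ 9 * ‖P y‖ ^ 2) +
        ∑ i ∈ Finset.range n, ∫ y in pt i..pt (i + 1), y ^ 9 * ‖P y‖ ^ 2 := by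
    rw [intervalIntegral.sum_integral_adjacent_intervals (a := pt) (fun k hk =>
      iP _ _ (hη0.le.trans (hptη k)) (hptmono k).le 9), hpt0, hptn,
      intervalIntegral.integral_add_adjacent_intervals (iP _ _ le_rfl hη0.le 9)
        (iP _ _ hη0.le hηY.le 9), intervalIntegral.integral_of_le hY.le]
  rw [hsplit]
  -- first part
  have p1 : ∫ y in (0 : ℝ)..η, y ^ 9 * ‖P y‖ ^ 2 ≤ ε / 2 * stY g P := by
    have hst : 0 ≤ ∫ y in (0 : ℝ)..B, y ^ 7 * ‖P y‖ ^ 2 :=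
      intervalIntegral.integral_nonneg hB.le (fun y hy => mul_nonneg (pow_nonneg hy.1 7) (sq_nonneg _))
    have hstY : 0 ≤ stY g P := by
      have : 0 ≤ 1 / (400 * c0 ^ 2) * stY g P := hst.trans H7
      by_contra hneg
      push Not at hneg
      have h3 : 1 / (400 * c0 ^ 2) * stY g P < 0 := mul_neg_of_pos_of_neg (by positivity) hneg
      linarith
    calc ∫ y in (0 : ℝ)..η, y ^ 9 * ‖P y‖ ^ 2
        ≤ ∫ y in (0 : ℝ)..η, η ^ 2 * (y ^ 7 * ‖P y‖ ^ 2) := by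
          apply intervalIntegral.integral_mono_on hη0.le (iP _ _ le_rfl hη0.le 9)
            ((iP _ _ le_rfl hη0.le 7).const_mul _)
          intro y hy
          have h3 : y ^ 2 ≤ η ^ 2 := pow_le_pow_left₀ hy.1 hy.2 2
          have h4 : 0 ≤ y ^ 7 * ‖P y‖ ^ 2 := mul_nonneg (pow_nonneg hy.1 7) (sq_nonneg _)
          calc y ^ 9 * ‖P y‖ ^ 2 = y ^ 2 * (y ^ 7 * ‖P y‖ ^ 2) := by ring
            _ ≤ _ := mul_le_mul_of_nonneg_right h3 h4
      _ = η ^ 2 * ∫ y in (0 : ℝ)..η, y ^ 7 * ‖P y‖ ^ 2 := intervalIntegral.integral_const_mul _ _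
      _ ≤ η ^ 2 * ∫ y in (0 : ℝ)..B, y ^ 7 * ‖P y‖ ^ 2 := by
          apply mul_le_mul_of_nonneg_left _ (by positivity)
          apply intervalIntegral.integral_mono_interval le_rfl hη0.le (hηY.le.trans hYB)
          · refine (ae_restrict_mem measurableSet_Ioc).mono ?_
            intro y hy
            exact mul_nonneg (pow_nonneg hy.1.le 7) (sq_nonneg _)
          · exact iP _ _ le_rfl hB.le 7
      _ ≤ η ^ 2 * (1 / (400 * c0 ^ 2) * stY g P) := by gcongr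
      _ = (η ^ 2 * (1 / (400 * c0 ^ 2))) * stY g P := by ring
      _ ≤ ε / 2 * stY g P := by gcongr
  have hstY : 0 ≤ stY g P := by
    have hst : 0 ≤ ∫ y in (0 : ℝ)..B, y ^ 7 * ‖P y‖ ^ 2 :=
      intervalIntegral.integral_nonneg hB.le (fun y hy => mul_nonneg (pow_nonneg hy.1 7) (sq_nonneg _))
    have : 0 ≤ 1 / (400 * c0 ^ 2) * stY g P := hst.trans H7
    by_contra hneg
    push Not at hneg
    have h3 : 1 / (400 * c0 ^ 2) * stY g P < 0 := mul_neg_of_pos_of_neg (by positivity) hneg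
    linarith
  -- one short interval
  have p2 : ∀ i ∈ Finset.range n, ∫ y in pt i..pt (i + 1), y ^ 9 * ‖P y‖ ^ 2 ≤
      Y0 ^ 9 * (2 / ℓ) * ‖∫ y in Ioc (pt i) (pt (i + 1)), P y‖ ^ 2 +
        2 * Y0 ^ 9 * ℓ ^ 2 * (η ^ 9)⁻¹ * ∫ y in pt i..pt (i + 1), y ^ 9 * ‖dW P y‖ ^ 2 := by
    intro i hi
    have hin : i + 1 ≤ n := Finset.mem_range.1 hi
    have hi0 : 0 ≤ pt i := hη0.le.trans (hptη i)
    have hpo := poincare hP hi0 (hptmono i)
    rw [hptsub i] at hpo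
    have q1 : ∫ y in pt i..pt (i + 1), y ^ 9 * ‖P y‖ ^ 2 ≤
        Y0 ^ 9 * ∫ y in pt i..pt (i + 1), ‖P y‖ ^ 2 := by
      rw [← intervalIntegral.integral_const_mul]
      apply intervalIntegral.integral_mono_on (hptmono i).le (iP _ _ hi0 (hptmono i).le 9)
      · have := iP _ _ hi0 (hptmono i).le 0
        simp only [pow_zero, one_mul] at this
        exact this.const_mul _
      · intro y hy
        have : y ^ 9 ≤ Y0 ^ 9 := pow_le_pow_left₀ (hi0.trans hy.1) (hy.2.trans (hptY _ hin)) 9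
        exact mul_le_mul_of_nonneg_right this (sq_nonneg _)
    have q2 : ∫ y in pt i..pt (i + 1), ‖dW P y‖ ^ 2 ≤
        (η ^ 9)⁻¹ * ∫ y in pt i..pt (i + 1), y ^ 9 * ‖dW P y‖ ^ 2 := by
      rw [← intervalIntegral.integral_const_mul]
      apply intervalIntegral.integral_mono_on (hptmono i).le
      · have := iP1 _ _ hi0 (hptmono i).le 0
        simpa only [pow_zero, one_mul] using this
      · exact (iP1 _ _ hi0 (hptmono i).le 9).const_mul _
      · intro y hy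
        have h3 : η ^ 9 ≤ y ^ 9 := pow_le_pow_left₀ hη0.le ((hptη i).trans hy.1) 9
        have h4 : 1 ≤ (η ^ 9)⁻¹ * y ^ 9 := by
          rw [inv_mul_eq_div, le_div_iff₀ (by positivity)]
          linarith
        calc ‖dW P y‖ ^ 2 = 1 * ‖dW P y‖ ^ 2 := by ring
          _ ≤ ((η ^ 9)⁻¹ * y ^ 9) * ‖dW P y‖ ^ 2 := mul_le_mul_of_nonneg_right h4 (sq_nonneg _)
          _ = _ := by ring
    have q3 : ∫ y in Ioc (pt i) (pt (i + 1)), P y = ∫ y in pt i..pt (i + 1), P y :=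
      (intervalIntegral.integral_of_le (hptmono i).le).symm
    rw [q3]
    have q4 : 2 * ℓ ^ 2 * ∫ y in pt i..pt (i + 1), ‖dW P y‖ ^ 2 ≤
        2 * ℓ ^ 2 * ((η ^ 9)⁻¹ * ∫ y in pt i..pt (i + 1), y ^ 9 * ‖dW P y‖ ^ 2) := by gcongr
    have hY9 : 0 ≤ Y0 ^ 9 := by positivity
    have q5 := mul_le_mul_of_nonneg_left (hpo.trans (add_le_add_right q4 _)) hY9
    calc _ ≤ _ := q1
      _ ≤ _ := q5
      _ = _ := by ring
  have p3 : ∑ i ∈ Finset.range n, ∫ y in pt i..pt (i + 1), y ^ 9 * ‖dW P y‖ ^ 2 ≤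
      1 / (25 * c0 ^ 2) * stY g P := by
    rw [intervalIntegral.sum_integral_adjacent_intervals (a := pt) (fun k hk =>
      iP1 _ _ (hη0.le.trans (hptη k)) (hptmono k).le 9), hpt0, hptn]
    refine le_trans ?_ H9
    apply intervalIntegral.integral_mono_interval hη0.le hηY.le hYB
    · refine (ae_restrict_mem measurableSet_Ioc).mono ?_
      intro y hy
      exact mul_nonneg (pow_nonneg hy.1.le 9) (sq_nonneg _)
    · exact iP1 _ _ le_rfl hB.le 9
  have p4 : ∑ i ∈ Finset.range n, ∫ y in pt i..pt (i + 1), y ^ 9 * ‖P y‖ ^ 2 ≤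
      Y0 ^ 9 * (2 / ℓ) * ∑ i ∈ Finset.range n, ‖∫ y in Ioc (pt i) (pt (i + 1)), P y‖ ^ 2 +
        2 * Y0 ^ 9 * ℓ ^ 2 * (η ^ 9)⁻¹ * (1 / (25 * c0 ^ 2) * stY g P) := by
    refine (Finset.sum_le_sum p2).trans ?_
    rw [Finset.sum_add_distrib, ← Finset.mul_sum, ← Finset.mul_sum]
    gcongr
  have p5 : 2 * Y0 ^ 9 * ℓ ^ 2 * (η ^ 9)⁻¹ * (1 / (25 * c0 ^ 2) * stY g P) ≤ ε / 2 * stY g P := by
    have h3 : ℓ ^ 2 ≤ (Y0 / n) ^ 2 := pow_le_pow_left₀ hℓ0.le hℓY 2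
    calc _ ≤ 2 * Y0 ^ 9 * (Y0 / n) ^ 2 * (η ^ 9)⁻¹ * (1 / (25 * c0 ^ 2) * stY g P) := by gcongr
      _ = Q / (n : ℝ) ^ 2 * stY g P := by rw [hQ, div_pow]; ring
      _ ≤ _ := by gcongr
  have p6 : ∑ i : Fin n, ‖∫ y in Ioc (pt i) (pt (i + 1)), P y‖ ^ 2 =
      ∑ i ∈ Finset.range n, ‖∫ y in Ioc (pt i) (pt (i + 1)), P y‖ ^ 2 :=
    Fin.sum_univ_eq_sum_range (fun i => ‖∫ y in Ioc (pt i) (pt (i + 1)), P y‖ ^ 2) n
  rw [p6]
  linarith

end Crest.Agent.R213.A
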