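import Crest.Agent.R213.A.StLim
import Crest.Agent.R213.A.StCut

/-!
# Row 213, Part A: Gårding inequalities in the energy space
-/

set_option autoImplicit false

open Set MeasureTheory Filter Topology
open scoped InnerProductSpace ENNReal

noncomputable section

namespace Crest.Agent.R213.A.St

variable {c0 C0 : ℝ} {g : ℝ → ℝ}

lemma quad_toL (m : ℝ → ℝ) {F : ℝ → ℂ} (h : CC F) :
    ∫ y in Ioi (0 : ℝ), m y * ‖(toL F h : ℝ → ℂ) y‖ ^ 2 = ∫ y in Ioi (0 : ℝ), m y * ‖F y‖ ^ 2 := by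
  refine integral_congr_ae ?_
  filter_upwards [toL_coe h] with y hy
  rw [hy]

lemma quad_fst (hg : Continuous g) (m : ℝ → ℝ) {P : ℝ → ℂ} (hP : DD P) :
    ∫ y in Ioi (0 : ℝ), m y * ‖((iota hg P hP).fst : ℝ → ℂ) y‖ ^ 2 =
      ∫ y in Ioi (0 : ℝ), m y * (y ^ 11 * (g y) ^ 2 * (1 + y ^ 2) ^ 60 * ‖D2 P y‖ ^ 2) := by
  change ∫ y in Ioi (0 : ℝ), m y * ‖(toL _ (cc_iF1 hg hP) : ℝ → ℂ) y‖ ^ 2 = _
  rw [quad_toL]
  refine setIntegral_congr_fun measurableSet_Ioi fun y hy => ?_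
  have h1 := sv_sq (le_of_lt (mem_Ioi.1 hy))
  simp only [norm_mul, Complex.norm_real, mul_pow, Real.norm_eq_abs, sq_abs]
  rw [h1]
  generalize (1 + y ^ 2) ^ 60 = p
  ring

lemma quad_snd (hg : Continuous g) (m : ℝ → ℝ) {P : ℝ → ℂ} (hP : DD P) :
    ∫ y in Ioi (0 : ℝ), m y * ‖((iota hg P hP).snd : ℝ → ℂ) y‖ ^ 2 =
      ∫ y in Ioi (0 : ℝ), m y * (y ^ 9 * (1 + y ^ 2) ^ 60 * ‖P y‖ ^ 2) := by
  change ∫ y in Ioi (0 : ℝ), m y * ‖(toL _ (cc_iF0 hP) : ℝ → ℂ) y‖ ^ 2 = _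
  rw [quad_toL]
  refine setIntegral_congr_fun measurableSet_Ioi fun y hy => ?_
  have h1 := sv_sq (le_of_lt (mem_Ioi.1 hy))
  simp only [norm_mul, Complex.norm_real, mul_pow, Real.norm_eq_abs, sq_abs]
  rw [h1]

/-- `Re ⟪bvec (vP), iota P⟫` -/
lemma re_bvec (hg : Prof c0 C0 g) {A : ℝ} {v v1 v2 : ℝ → ℝ} (hv : Wgt A v v1 v2)
    (hs : ContDiff ℝ (⊤ : ℕ∞) v) {P : ℝ → ℂ} (hP : DD P) :
    (⟪bvec (Prof.cont hg) (fun y => (v y : ℂ) * P y) (dd_mul_real hs hP),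
      iota (Prof.cont hg) P hP⟫_ℂ).re = ∫ y in Ioi (0 : ℝ), gInt g v v1 v2 P (D1 P) (D2 P) y := by
  have hgc := Prof.cont hg
  have hvP := dd_mul_real hs hP
  rw [inner_bvec_iota]
  have e1 : CC (fun y => (((y * g y) ^ 2 : ℝ) : ℂ) *
      (starRingEnd ℂ (D2 (fun y => (v y : ℂ) * P y) y) * D2 P y)) :=
    ((cc2 hvP).cconj_mul (cc2 hP)).cmul (a := fun y => (((y * g y) ^ 2 : ℝ) : ℂ)) (by fun_prop)
  have e2 : CC (fun y => (5 : ℂ) * ((v y : ℂ) * P y) + ((y / 2 : ℝ) : ℂ) *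
      D1 (fun y => (v y : ℂ) * P y) y) :=
    ((cc0 hvP).cmul continuous_const).cadd ((cc1 hvP).cmul (a := fun y => ((y / 2 : ℝ) : ℂ))
      (by fun_prop))
  have hint := ((e1.cadd (e2.cconj_mul (cc0 hP))).cmul (a := fun y => ((y ^ 9 : ℝ) : ℂ))
    (by fun_prop)).integrableOn
  have h1 := integral_re (𝕜 := ℂ) hint
  have h2 : ∀ z : ℂ, z.re = RCLike.re z := fun z => rfl
  rw [h2, ← h1]
  refine setIntegral_congr_fun measurableSet_Ioi fun y hy => ?_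
  have hy : 0 < y := hy
  rw [D2_mul_real hs hv.d1 hv.d2 hP hy, D1_mul_real hs hv.d1 hP hy, gInt, Complex.inner,
    Complex.inner, ← h2]
  rw [Complex.re_ofReal_mul, Complex.add_re, Complex.re_ofReal_mul]
  push_cast
  rw [mul_comm (D2 P y), mul_comm (P y) (starRingEnd ℂ _)]

lemma w_d1 {v v1 : ℝ → ℝ} {y : ℝ} (h : HasDerivAt v (v1 y) y)
    (he : v =ᶠ[𝓝 y] fun y => (1 + y ^ 2) ^ 60) : v1 y = 120 * y * (1 + y ^ 2) ^ 59 := by
  have h0 : HasDerivAt (fun y : ℝ => 1 + y ^ 2) (2 * y) y := by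
    simpa using (hasDerivAt_pow 2 y).const_add 1
  have h1 : HasDerivAt (fun y : ℝ => (1 + y ^ 2) ^ 60) _ y := h0.pow 60
  have h2 := (h.congr_of_eventuallyEq he.symm).unique h1
  rw [h2]
  norm_num
  ring

/-- multipliers appearing in the Gårding inequality -/
def m1f (v : ℝ → ℝ) (y : ℝ) : ℝ := v y / (1 + y ^ 2) ^ 60 - 1 / 4
def m0f (v v1 : ℝ → ℝ) (y : ℝ) : ℝ := (5 / 2 * v y + 1 / 4 * (y * v1 y)) / (1 + y ^ 2) ^ 60
def mrf (v : ℝ → ℝ) (y : ℝ) : ℝ := v y / (1 + y ^ 2) ^ 60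
def mwf (y : ℝ) : ℝ := (1 + y ^ 2)⁻¹

lemma mrf_bd {A : ℝ} {v v1 v2 : ℝ → ℝ} (hv : Wgt A v v1 v2) {y : ℝ} (hy : 0 < y) :
    0 ≤ mrf v y ∧ mrf v y ≤ 1 := by
  have h0 := hv.nonneg y hy
  have h1 := hv.le_w y hy
  have hp : 0 < (1 + y ^ 2) ^ 60 := by positivity
  unfold mrf
  exact ⟨by positivity, by rw [div_le_one hp]; exact h1⟩

lemma m1f_bd {A : ℝ} {v v1 v2 : ℝ → ℝ} (hv : Wgt A v v1 v2) {y : ℝ} (hy : 0 < y) :
    |m1f v y| ≤ 1 := by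
  have h := mrf_bd hv hy
  unfold mrf at h
  unfold m1f
  rw [abs_le]; constructor <;> linarith [h.1, h.2]

lemma m0f_bd {A : ℝ} {v v1 v2 : ℝ → ℝ} (hv : Wgt A v v1 v2) {y : ℝ} (hy : 0 < y) :
    |m0f v v1 y| ≤ 5 / 2 + A := by
  have h := mrf_bd hv hy
  have hA := hv.A_nonneg
  have h1 := hv.b1 y hy
  unfold mrf at h
  have hp : 0 < (1 + y ^ 2) ^ 59 := by positivity
  have e : m0f v v1 y = 5 / 2 * (v y / (1 + y ^ 2) ^ 60) + 1 / 4 * (y * v1 y / (1 + y ^ 2) ^ 60) := by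
    unfold m0f; ring
  have h2 : |y * v1 y / (1 + y ^ 2) ^ 60| ≤ A := by
    rw [abs_div, abs_mul, abs_of_pos hy, abs_of_pos (by positivity : 0 < (1 + y ^ 2) ^ 60),
      div_le_iff₀ (by positivity)]
    have hyT : y ^ 2 ≤ 1 + y ^ 2 := by linarith
    calc y * |v1 y| ≤ y * (A * (y * (1 + y ^ 2) ^ 59)) := by gcongr
      _ = A * (y ^ 2 * (1 + y ^ 2) ^ 59) := by
          generalize (1 + y ^ 2) ^ 59 = p; ring
      _ ≤ A * ((1 + y ^ 2) * (1 + y ^ 2) ^ 59) := by gcongr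
      _ = A * (1 + y ^ 2) ^ 60 := by rw [← pow_succ']
  rw [e]
  calc |5 / 2 * (v y / (1 + y ^ 2) ^ 60) + 1 / 4 * (y * v1 y / (1 + y ^ 2) ^ 60)|
      ≤ |5 / 2 * (v y / (1 + y ^ 2) ^ 60)| + |1 / 4 * (y * v1 y / (1 + y ^ 2) ^ 60)| := abs_add_le _ _
    _ = 5 / 2 * (v y / (1 + y ^ 2) ^ 60) + 1 / 4 * |y * v1 y / (1 + y ^ 2) ^ 60| := by
        rw [abs_mul, abs_mul, abs_of_nonneg h.1]; norm_num
    _ ≤ 5 / 2 * 1 + 1 / 4 * A := by gcongr; exact h.2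
    _ ≤ _ := by linarith

lemma T60_cont : Continuous (fun y : ℝ => ((1 + y ^ 2) ^ 60 : ℝ)) := by fun_prop

lemma mrf_cont {A : ℝ} {v v1 v2 : ℝ → ℝ} (hv : Wgt A v v1 v2) : Continuous (mrf v) := by
  have h := hv.c0
  unfold mrf
  exact h.div T60_cont (fun y => by positivity)

lemma m1f_cont {A : ℝ} {v v1 v2 : ℝ → ℝ} (hv : Wgt A v v1 v2) : Continuous (m1f v) :=
  (mrf_cont hv).sub continuous_const

lemma m0f_cont {A : ℝ} {v v1 v2 : ℝ → ℝ} (hv : Wgt A v v1 v2) : Continuous (m0f v v1) := by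
  have h := hv.c0
  have h1 := hv.c1
  unfold m0f
  exact Continuous.div (by fun_prop) T60_cont (fun y => by positivity)

lemma mwf_cont : Continuous mwf := by
  unfold mwf
  exact Continuous.inv₀ (by fun_prop) (fun y => by positivity)

lemma mwf_bd (y : ℝ) : |mwf y| ≤ 1 := by
  unfold mwf
  rw [abs_of_pos (by positivity)]
  exact inv_le_one_of_one_le₀ (by nlinarith [sq_nonneg y])

/-- the Gårding inequality for test functions in Hilbert space form -/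
lemma garding_iota (hg : Prof c0 C0 g) {A : ℝ} {v v1 v2 : ℝ → ℝ} (hv : Wgt A v v1 v2)
    (hs : ContDiff ℝ (⊤ : ℕ∞) v) {P : ℝ → ℂ} (hP : DD P) :
    (∫ y in Ioi (0 : ℝ), m1f v y * ‖((iota (Prof.cont hg) P hP).fst : ℝ → ℂ) y‖ ^ 2) +
      (∫ y in Ioi (0 : ℝ), m0f v v1 y * ‖((iota (Prof.cont hg) P hP).snd : ℝ → ℂ) y‖ ^ 2) -
      C1c A C0 * (∫ y in Ioi (0 : ℝ), mwf y * ‖((iota (Prof.cont hg) P hP).snd : ℝ → ℂ) y‖ ^ 2) ≤
    (⟪bvec (Prof.cont hg) (fun y => (v y : ℂ) * P y) (dd_mul_real hs hP),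
      iota (Prof.cont hg) P hP⟫_ℂ).re := by
  have hgc := Prof.cont hg
  rw [re_bvec hg hv hs hP, quad_fst, quad_snd, quad_snd]
  have h := garding_v hg hv (dd_tf hP)
  refine le_trans (le_of_eq ?_) h
  have c1 := (cc_I2 hg hP).mul_left (m1f_cont hv)
  have c2 := (cc_I0 hP).mul_left (m0f_cont hv)
  rw [← integral_add c1.integrableOn c2.integrableOn]
  congr 1
  · refine setIntegral_congr_fun measurableSet_Ioi fun y hy => ?_
    have hp : 0 < (1 + y ^ 2) ^ 60 := by positivity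
    simp only [m1f, m0f]
    generalize (1 + y ^ 2) ^ 60 = p at hp
    field_simp
  · congr 1
    refine setIntegral_congr_fun measurableSet_Ioi fun y hy => ?_
    simp only [mwf]
    have hp : 0 < 1 + y ^ 2 := by positivity
    have e : (1 + y ^ 2) ^ 60 = (1 + y ^ 2) ^ 59 * (1 + y ^ 2) := pow_succ _ _
    rw [e]
    generalize (1 + y ^ 2) ^ 59 = q
    field_simp

end Crest.Agent.R213.A.St
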