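import Crest.Agent.R213.A.StGardL
import Crest.Agent.R213.A.StDens
import Crest.Agent.R213.A.StRell

/-!
# Row 213, Part A: `inner_static`
-/

set_option autoImplicit false

open Set MeasureTheory Filter Topology
open scoped InnerProductSpace ENNReal

noncomputable section

namespace Crest.Agent.R213.A.St

variable {c0 C0 : ℝ} {g : ℝ → ℝ}

/-- the functional `P ↦ ∫_a^b P` as an `L²` vector -/
lemma memLp_ind {a b : ℝ} (ha : 0 < a) :
    MemLp (fun y => ((Ioc a b).indicator (fun y => (sv y)⁻¹) y : ℂ)) 2 mu0 := by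
  have hm : AEStronglyMeasurable (fun y => ((Ioc a b).indicator (fun y => ((sv y : ℂ))⁻¹) y : ℂ)) mu0 := by
    refine (Measurable.indicator ?_ measurableSet_Ioc).aestronglyMeasurable
    exact (Complex.measurable_ofReal.comp sv_cont.measurable).inv
  have hc : ContinuousOn (fun y => ((sv y : ℂ))⁻¹) (Icc a b) := by
    refine ContinuousOn.inv₀ (Complex.continuous_ofReal.comp sv_cont).continuousOn ?_
    intro y hy
    exact_mod_cast (sv_pos (lt_of_lt_of_le ha hy.1)).ne'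
  have h1 : MemLp (fun y => ((sv y : ℂ))⁻¹) 2 (volume.restrict (Ioc a b)) := by
    have hfin : IsFiniteMeasure (volume.restrict (Ioc a b)) :=
      ⟨by rw [Measure.restrict_apply_univ, Real.volume_Ioc]; exact ENNReal.ofReal_lt_top⟩
    obtain ⟨K, hK⟩ := (isCompact_Icc (a := a) (b := b)).exists_bound_of_continuousOn hc
    refine MemLp.of_bound ((Complex.measurable_ofReal.comp sv_cont.measurable).inv).aestronglyMeasurable
      K ?_
    filter_upwards [ae_restrict_mem measurableSet_Ioc] with y hy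
    exact hK y (Ioc_subset_Icc_self hy)
  have h2 : MemLp ((Ioc a b).indicator (fun y => ((sv y : ℂ))⁻¹)) 2 volume :=
    (memLp_indicator_iff_restrict measurableSet_Ioc).2 h1
  exact h2.restrict _

lemma inner_ind (hg : Prof c0 C0 g) {a b : ℝ} (ha : 0 < a) {P : ℝ → ℂ} (hP : DD P) :
    ⟪(memLp_ind (b := b) ha).toLp _, (iota (Prof.cont hg) P hP).snd⟫_ℂ = ∫ y in Ioc a b, P y := by
  rw [L2.inner_def]
  have h3 : ((iota (Prof.cont hg) P hP).snd : ℝ → ℂ) =ᵐ[mu0] fun y => (sv y : ℂ) * P y :=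
    toL_coe (cc_iF0 hP)
  have h1 : ∫ y, ⟪(((memLp_ind (b := b) ha).toLp _ : LL) : ℝ → ℂ) y,
      ((iota (Prof.cont hg) P hP).snd : ℝ → ℂ) y⟫_ℂ ∂mu0 =
      ∫ y in Ioi (0 : ℝ), (Ioc a b).indicator P y := by
    refine integral_congr_ae ?_
    filter_upwards [h3, (memLp_ind (b := b) ha).coeFn_toLp, ae_restrict_mem measurableSet_Ioi]
      with y e3 e1 hy
    rw [e1, e3, RCLike.inner_apply]
    by_cases hyI : y ∈ Ioc a b
    · rw [indicator_of_mem hyI, indicator_of_mem hyI]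
      have : (sv y : ℂ) ≠ 0 := by exact_mod_cast (sv_pos hy).ne'
      rw [map_inv₀, Complex.conj_ofReal]
      field_simp
    · rw [indicator_of_notMem hyI, indicator_of_notMem hyI]; simp
  rw [h1, setIntegral_indicator measurableSet_Ioc]
  congr 2
  ext y
  simp only [mem_inter_iff, mem_Ioi, mem_Ioc]
  constructor
  · exact fun h => h.2
  · exact fun h => ⟨ha.trans h.1, h⟩

/-- compactness for test functions -/
lemma compact_test (hg : Prof c0 C0 g) {ε : ℝ} (hε : 0 < ε) :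
    ∃ (N : ℕ) (f : Fin N → LL) (C' : ℝ), 0 ≤ C' ∧ ∀ (P : ℝ → ℂ) (hP : DD P),
      (∫ y in Ioi (0 : ℝ), mwf y * ‖((iota (Prof.cont hg) P hP).snd : ℝ → ℂ) y‖ ^ 2) ≤
        ε * ‖iota (Prof.cont hg) P hP‖ ^ 2 +
          C' * ∑ i, ‖⟪f i, (iota (Prof.cont hg) P hP).snd⟫_ℂ‖ ^ 2 := by
  obtain ⟨Y0, hY0⟩ : ∃ Y0 : ℝ, Y0 = √(2 / ε) + 1 := ⟨_, rfl⟩
  have hY : 0 < Y0 := by rw [hY0]; positivity
  have hYe : 1 / (1 + Y0 ^ 2) ≤ ε / 2 := by
    have h1 : 2 / ε ≤ Y0 ^ 2 := by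
      calc 2 / ε = √(2 / ε) ^ 2 := (Real.sq_sqrt (by positivity)).symm
        _ ≤ Y0 ^ 2 := by
            rw [hY0]
            exact pow_le_pow_left₀ (Real.sqrt_nonneg _) (by linarith) 2
    rw [div_le_div_iff₀ (by positivity) (by norm_num)]
    have : 2 ≤ ε * Y0 ^ 2 := by
      have := mul_le_mul_of_nonneg_left h1 hε.le
      rwa [mul_div_cancel₀ _ hε.ne'] at this
    nlinarith
  obtain ⟨T0, hT0⟩ : ∃ T0 : ℝ, T0 = (1 + Y0 ^ 2) ^ 60 := ⟨_, rfl⟩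
  have hT0p : 0 < T0 := by rw [hT0]; positivity
  obtain ⟨n, a, b, K, hK, hab, h⟩ := st_rellich hg (ε := ε / (2 * T0)) (Y0 := Y0) (by positivity) hY
  refine ⟨n, fun i => (memLp_ind (b := b i) (hab i).1).toLp _, T0 * K, by positivity, ?_⟩
  intro P hP
  have hR := h P hP
  simp_rw [inner_ind hg (hab _).1 hP]
  rw [quad_snd, norm_iota_sq_stY]
  have hsY : (∫ y in Ioi (0 : ℝ), y ^ 9 * (1 + y ^ 2) ^ 60 * ‖P y‖ ^ 2) ≤ stY g P := by
    rw [← norm_iota_sq_stY (Prof.cont hg) hP, norm_iota_sq]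
    linarith [nonneg_I2 (g := g) (P := P)]
  have c9 : CC (fun y => y ^ 9 * ‖P y‖ ^ 2) :=
    (cc_norm_sq (cc0 hP).1 (cc0 hP).2).mul_left (a := fun y => y ^ 9) (by fun_prop)
  have cX := cc_I0 hP
  have h1 : ∫ y in Ioi (0 : ℝ), mwf y * (y ^ 9 * (1 + y ^ 2) ^ 60 * ‖P y‖ ^ 2) ≤
      1 / (1 + Y0 ^ 2) * (∫ y in Ioi (0 : ℝ), y ^ 9 * (1 + y ^ 2) ^ 60 * ‖P y‖ ^ 2) +
      T0 * ∫ y in Ioc 0 Y0, y ^ 9 * ‖P y‖ ^ 2 := by
    have e1 : ∫ y in Ioc 0 Y0, y ^ 9 * ‖P y‖ ^ 2 =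
        ∫ y in Ioi (0 : ℝ), (Ioc 0 Y0).indicator (fun y => y ^ 9 * ‖P y‖ ^ 2) y := by
      rw [setIntegral_indicator measurableSet_Ioc]
      congr 2
      ext y; simp only [mem_inter_iff, mem_Ioi, mem_Ioc]; tauto
    rw [e1, ← integral_const_mul, ← integral_const_mul, ← integral_add
      (cX.integrableOn.const_mul _) ((c9.integrableOn.indicator measurableSet_Ioc).const_mul _)]
    refine setIntegral_mono_on (cX.mul_left mwf_cont).integrableOn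
      ((cX.integrableOn.const_mul _).add ((c9.integrableOn.indicator measurableSet_Ioc).const_mul _))
      measurableSet_Ioi fun y hy => ?_
    have hy : 0 < y := hy
    by_cases hyY : y ≤ Y0
    · have hmem : y ∈ Ioc 0 Y0 := ⟨hy, hyY⟩
      rw [indicator_of_mem hmem]
      have h2 : mwf y ≤ 1 := (abs_le.1 (mwf_bd y)).2
      have h3 : (1 + y ^ 2) ^ 60 ≤ T0 := by rw [hT0]; gcongr
      have h4 : 0 ≤ 1 / (1 + Y0 ^ 2) * (y ^ 9 * (1 + y ^ 2) ^ 60 * ‖P y‖ ^ 2) := by positivity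
      calc mwf y * (y ^ 9 * (1 + y ^ 2) ^ 60 * ‖P y‖ ^ 2)
          ≤ 1 * (y ^ 9 * T0 * ‖P y‖ ^ 2) := by
            refine mul_le_mul h2 ?_ (by positivity) (by norm_num)
            gcongr
        _ = T0 * (y ^ 9 * ‖P y‖ ^ 2) := by ring
        _ ≤ _ := by linarith
    · push Not at hyY
      have hmem : y ∉ Ioc 0 Y0 := fun h => absurd h.2 (not_le.2 hyY)
      rw [indicator_of_notMem hmem, mul_zero, add_zero]
      have h2 : mwf y ≤ 1 / (1 + Y0 ^ 2) := by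
        unfold mwf
        rw [← one_div]
        gcongr
      gcongr
  have hS0 : 0 ≤ stY g P := by rw [← norm_iota_sq_stY (Prof.cont hg) hP]; positivity
  have h2 : 1 / (1 + Y0 ^ 2) * (∫ y in Ioi (0 : ℝ), y ^ 9 * (1 + y ^ 2) ^ 60 * ‖P y‖ ^ 2) ≤
      ε / 2 * stY g P := by
    refine mul_le_mul hYe hsY nonneg_I0 (by positivity)
  have h3 : T0 * ∫ y in Ioc 0 Y0, y ^ 9 * ‖P y‖ ^ 2 ≤
      ε / 2 * stY g P + T0 * K * ∑ i, ‖∫ y in Ioc (a i) (b i), P y‖ ^ 2 := by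
    calc T0 * ∫ y in Ioc 0 Y0, y ^ 9 * ‖P y‖ ^ 2
        ≤ T0 * (ε / (2 * T0) * stY g P + K * ∑ i, ‖∫ y in Ioc (a i) (b i), P y‖ ^ 2) := by gcongr
      _ = _ := by field_simp
  linarith

lemma eLpNorm_eq_norm (e : LL) : eLpNorm (e : ℝ → ℂ) 2 mu0 = ENNReal.ofReal ‖e‖ := by
  rw [Lp.norm_def, ENNReal.ofReal_toReal (Lp.eLpNorm_ne_top e)]

/-- closability in Hilbert space form -/
lemma closable_YS (hg : Prof c0 C0 g) {e : HH} (he : e ∈ YS hg) (h0 : e.snd = 0) : e = 0 := by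
  obtain ⟨P, hP⟩ := exists_seq hg ⟨e, he⟩
  have hfst : Tendsto (fun n => (iota (Prof.cont hg) (P n).1 (P n).2).fst) atTop (𝓝 e.fst) :=
    ((WithLp.fstL 2 ℂ LL LL).continuous.tendsto e).comp hP
  have hsnd : Tendsto (fun n => (iota (Prof.cont hg) (P n).1 (P n).2).snd) atTop (𝓝 e.snd) :=
    ((WithLp.sndL 2 ℂ LL LL).continuous.tendsto e).comp hP
  have t0 : Tendsto (fun n => eLpNorm (fun y => (Crest.Agent.R213.A.sv y : ℂ) * (P n).1 y) 2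
      (volume.restrict (Ioi 0))) atTop (𝓝 0) := by
    have h1 : Tendsto (fun n => ENNReal.ofReal ‖(iota (Prof.cont hg) (P n).1 (P n).2).snd‖) atTop
        (𝓝 0) := by
      have := ENNReal.tendsto_ofReal hsnd.norm
      rwa [h0, norm_zero, ENNReal.ofReal_zero] at this
    refine h1.congr fun n => ?_
    rw [← eLpNorm_eq_norm]
    exact eLpNorm_congr_ae (toL_coe (cc_iF0 (P n).2))
  have t1 : Tendsto (fun n => eLpNorm (fun y => (Crest.Agent.R213.A.sv y : ℂ) *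
      ((y * g y : ℝ) : ℂ) * deriv (deriv (P n).1) y - (e.fst : ℝ → ℂ) y) 2
      (volume.restrict (Ioi 0))) atTop (𝓝 0) := by
    have h1 : Tendsto (fun n => ENNReal.ofReal ‖(iota (Prof.cont hg) (P n).1 (P n).2).fst - e.fst‖)
        atTop (𝓝 0) := by
      have := ENNReal.tendsto_ofReal ((tendsto_iff_norm_sub_tendsto_zero).1 hfst)
      rwa [ENNReal.ofReal_zero] at this
    refine h1.congr fun n => ?_
    rw [← eLpNorm_eq_norm]
    refine eLpNorm_congr_ae ?_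
    have h2 : ((iota (Prof.cont hg) (P n).1 (P n).2).fst : ℝ → ℂ) =ᵐ[mu0] _ :=
      toL_coe (cc_iF1 (Prof.cont hg) (P n).2)
    filter_upwards [Lp.coeFn_sub (iota (Prof.cont hg) (P n).1 (P n).2).fst e.fst, h2,
      ae_restrict_mem measurableSet_Ioi] with y e1 e2 hy
    rw [e1, Pi.sub_apply, e2]
    have : deriv (deriv (P n).1) y = D2 (P n).1 y := DD.deriv2_eq hy
    rw [this]
    have : Crest.Agent.R213.A.sv y = sv y := rfl
    rw [this]; push_cast; ring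
  have hz := closable hg (fun n => (P n).2) (Lp.memLp e.fst) t0 t1
  have hf : e.fst = 0 := by
    apply Lp.ext
    filter_upwards [hz, Lp.coeFn_zero ℂ 2 mu0] with y h1 h2
    rw [h1, h2]
  apply (WithLp.equiv 2 (LL × LL)).injective
  exact Prod.ext hf h0

/-- the spectral data -/
theorem exists_specData (hg : Prof c0 C0 g) :
    ∃ D : SpecData {P : ℝ → ℂ // DD P} (YS hg) LL,
      (65 : ℝ) / 2 - 1 / 8 ≤ D.α₁ ∧ (∀ P, D.nX P = √(stX g P.1)) ∧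
      (∀ P, ‖D.ι P‖ ^ 2 = stY g P.1) ∧
      (∀ (κ ξ : ℝ) P Q, stForm g κ ξ Q.1 P.1 = ⟪D.b Q, D.ι P⟫_ℂ -
        (((65 / 2 - κ : ℝ) : ℂ) + ξ * Complex.I) * ⟪D.j Q, D.J (D.ι P)⟫_ℂ) := by
  obtain ⟨C2, hC2, hw⟩ := garding_weak hg
  obtain ⟨C2', K, hC2', hK, ht⟩ := garding_test hg
  have hbin : ∀ (Q : {P : ℝ → ℂ // DD P}) (e : YS hg),
      ⟪(YS hg).orthogonalProjectionOnto (bvec (Prof.cont hg) Q.1 Q.2), e⟫_ℂ =
        ⟪bvec (Prof.cont hg) Q.1 Q.2, (e : HH)⟫_ℂ := fun Q e =>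
    Submodule.inner_orthogonalProjectionOnto_eq_of_mem_right e _
  have hnorm : ∀ e : HH, ‖e‖ ^ 2 = ‖e.fst‖ ^ 2 + ‖e.snd‖ ^ 2 := fun e =>
    WithLp.prod_norm_sq_eq_of_L2 e
  have hk0 : ∀ e : LL, 0 ≤ ∫ y in Ioi (0 : ℝ), mwf y * ‖(e : ℝ → ℂ) y‖ ^ 2 := fun e =>
    integral_nonneg fun y => mul_nonneg (by unfold mwf; positivity) (sq_nonneg _)
  refine ⟨{
    ι := fun P => ⟨iota (Prof.cont hg) P.1 P.2, iota_mem hg P.2⟩
    J := (WithLp.sndL 2 ℂ LL LL).comp (YS hg).subtypeL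
    b := fun Q => (YS hg).orthogonalProjectionOnto (bvec (Prof.cont hg) Q.1 Q.2)
    j := fun Q => jvec Q.1 Q.2
    nX := fun P => √(stX g P.1)
    k := fun e => √(∫ y in Ioi (0 : ℝ), mwf y * ‖((e : HH).snd : ℝ → ℂ) y‖ ^ 2)
    c := 1 / 8
    C := C2 + C2' + √K
    α₁ := 65 / 2 - 1 / 8
    c_pos := by norm_num
    C_nonneg := by positivity
    dens := ?_
    garding := ?_
    gardingD := ?_
    compact := ?_ }, le_rfl, fun P => rfl,
    fun P => norm_iota_sq_stY (Prof.cont hg) P.2, ?_⟩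
  · -- dens
    intro e he
    have h0 : (e : HH).snd = 0 := by
      have h1 := dense_t (Lp.memLp (e : HH).snd) (fun Q hQ => by
        have := he ⟨Q, hQ⟩
        change ⟪jvec Q hQ, (e : HH).snd⟫_ℂ = 0 at this
        rw [jvec, inner_toL_left] at this
        exact this)
      apply Lp.ext
      filter_upwards [h1, Lp.coeFn_zero ℂ 2 mu0] with y h1 h2
      rw [h1, h2]
    exact Subtype.ext (closable_YS hg e.2 h0)
  · -- garding
    intro e f hf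
    have h1 := hw e.1 e.2 f (fun Q hQ => by
      have := hf ⟨Q, hQ⟩
      rwa [hbin] at this)
    change 1 / 8 * ‖(e : HH)‖ ^ 2 + (65 / 2 - 1 / 8) * ‖(e : HH).snd‖ ^ 2 ≤
      (⟪(e : HH).snd, f⟫_ℂ).re + (C2 + C2' + √K) *
        (√(∫ y in Ioi (0 : ℝ), mwf y * ‖((e : HH).snd : ℝ → ℂ) y‖ ^ 2)) ^ 2
    rw [Real.sq_sqrt (hk0 _), hnorm]
    have h2 := hk0 (e : HH).snd
    have h3 : 0 ≤ (C2' + √K) * ∫ y in Ioi (0 : ℝ), mwf y * ‖((e : HH).snd : ℝ → ℂ) y‖ ^ 2 := by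
      positivity
    have h4 : 0 ≤ ‖(e : HH).fst‖ ^ 2 := by positivity
    nlinarith
  · -- gardingD
    intro P α ω M hα hM hb
    obtain ⟨Q, hQ, h1, h2, h3⟩ := ht P.1 P.2
    have h4 := hb ⟨Q, hQ⟩
    rw [hbin] at h4
    set z : HH := iota (Prof.cont hg) P.1 P.2 with hz
    change ‖⟪bvec (Prof.cont hg) Q hQ, z⟫_ℂ - ((α : ℂ) + ω * Complex.I) * ⟪jvec Q hQ, z.snd⟫_ℂ‖ ≤
      M * √(stX g Q) at h4
    change 1 / 8 * ‖z‖ ^ 2 ≤ (C2 + C2' + √K) * M * ‖z‖ + (C2 + C2' + √K) *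
        (√(∫ y in Ioi (0 : ℝ), mwf y * ‖(z.snd : ℝ → ℂ) y‖ ^ 2)) ^ 2
    rw [Real.sq_sqrt (hk0 _)]
    have h5 : (⟪bvec (Prof.cont hg) Q hQ, z⟫_ℂ).re - α * ‖z.snd‖ ^ 2 ≤ M * (√K * ‖z‖) := by
      have e1 : (⟪bvec (Prof.cont hg) Q hQ, z⟫_ℂ - ((α : ℂ) + ω * Complex.I) *
          ⟪jvec Q hQ, z.snd⟫_ℂ).re = (⟪bvec (Prof.cont hg) Q hQ, z⟫_ℂ).re - α * ‖z.snd‖ ^ 2 := by
        rw [h2, Complex.sub_re, Complex.re_mul_ofReal]
        simp
      rw [← e1]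
      refine (Complex.re_le_norm _).trans (h4.trans ?_)
      refine mul_le_mul_of_nonneg_left ?_ hM
      rw [show √K * ‖z‖ = √(K * ‖z‖ ^ 2) by
        rw [Real.sqrt_mul hK, Real.sqrt_sq (norm_nonneg _)]]
      exact Real.sqrt_le_sqrt h1
    have h6 := hnorm z
    have h7 := hk0 z.snd
    have h8 : 0 ≤ (C2 + √K) * ∫ y in Ioi (0 : ℝ), mwf y * ‖(z.snd : ℝ → ℂ) y‖ ^ 2 := by
      positivity
    have h9 : 0 ≤ (C2 + C2') * M * ‖z‖ := by positivity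
    have h10 : 0 ≤ ‖z.fst‖ ^ 2 := by positivity
    have h11 : 0 ≤ ‖z.snd‖ ^ 2 := by positivity
    have h12 : α * ‖z.snd‖ ^ 2 ≤ (65 / 2 - 1 / 8) * ‖z.snd‖ ^ 2 :=
      mul_le_mul_of_nonneg_right hα h11
    rw [h6]
    have e2 : (C2 + C2' + √K) * M * ‖z‖ = (C2 + C2') * M * ‖z‖ + M * (√K * ‖z‖) := by ring
    have e3 : (C2 + C2' + √K) * ∫ y in Ioi (0 : ℝ), mwf y * ‖(z.snd : ℝ → ℂ) y‖ ^ 2 =
      (C2 + √K) * (∫ y in Ioi (0 : ℝ), mwf y * ‖(z.snd : ℝ → ℂ) y‖ ^ 2) +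
        C2' * ∫ y in Ioi (0 : ℝ), mwf y * ‖(z.snd : ℝ → ℂ) y‖ ^ 2 := by ring
    rw [e2, e3]
    linarith
  · -- compact
    intro ε hε
    obtain ⟨N, f, C', hC', h⟩ := compact_test hg hε
    refine ⟨N, f, C', hC', fun e => ?_⟩
    change (√(∫ y in Ioi (0 : ℝ), mwf y * ‖((e : HH).snd : ℝ → ℂ) y‖ ^ 2)) ^ 2 ≤
      ε * ‖(e : HH)‖ ^ 2 + C' * ∑ i, ‖⟪f i, (e : HH).snd⟫_ℂ‖ ^ 2
    rw [Real.sq_sqrt (hk0 _)]
    obtain ⟨P, hP⟩ := exists_seq hg e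
    have hsnd : Tendsto (fun n => (iota (Prof.cont hg) (P n).1 (P n).2).snd) atTop
        (𝓝 (e : HH).snd) :=
      ((WithLp.sndL 2 ℂ LL LL).continuous.tendsto (e : HH)).comp hP
    have q3 := ((quad_cont mwf_cont.measurable (K := 1)
      (fun y _ => mwf_bd y)).tendsto (e : HH).snd).comp hsnd
    have q4 : Tendsto (fun n => ε * ‖iota (Prof.cont hg) (P n).1 (P n).2‖ ^ 2 +
        C' * ∑ i, ‖⟪f i, (iota (Prof.cont hg) (P n).1 (P n).2).snd⟫_ℂ‖ ^ 2) atTop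
        (𝓝 (ε * ‖(e : HH)‖ ^ 2 + C' * ∑ i, ‖⟪f i, (e : HH).snd⟫_ℂ‖ ^ 2)) := by
      refine ((hP.norm.pow 2).const_mul ε).add (Tendsto.const_mul C' ?_)
      refine tendsto_finsetSum _ fun i _ => ?_
      exact ((tendsto_const_nhds (x := f i)).inner (𝕜 := ℂ) hsnd).norm.pow 2
    exact le_of_tendsto_of_tendsto' q3 q4 (fun n => h (P n).1 (P n).2)
  · -- form identity
    intro κ ξ P Q
    have e1 := stForm_eq (Prof.cont hg) κ ξ P.2 Q.2
    have e2 := (hbin Q ⟨iota (Prof.cont hg) P.1 P.2, iota_mem hg P.2⟩).symm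
    have e3 : ⟪bvec (Prof.cont hg) Q.1 Q.2, iota (Prof.cont hg) P.1 P.2⟫_ℂ =
        ⟪(YS hg).orthogonalProjectionOnto (bvec (Prof.cont hg) Q.1 Q.2),
          (⟨iota (Prof.cont hg) P.1 P.2, iota_mem hg P.2⟩ : YS hg)⟫_ℂ := e2
    rw [e3] at e1
    exact e1

end Crest.Agent.R213.A.St

namespace Crest.Agent.R213.A

/-- The stationary estimate: there is a good exponent `κ ∈ (1/8,1/4)`. -/
theorem inner_static {c0 C0 : ℝ} {g : ℝ → ℝ} (hg : Prof c0 C0 g) :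
    ∃ κ ∈ Ioo (1 / 8 : ℝ) (1 / 4), ∃ C : ℝ, 0 ≤ C ∧ StEst g κ C := by
  obtain ⟨D, hα, hn, hY, hform⟩ := St.exists_specData hg
  obtain ⟨κ, hκ, C, hC, h⟩ := D.exists_good_kappa hα
  refine ⟨κ, hκ, C ^ 2, by positivity, ?_⟩
  intro ξ P hP S hS hb
  have h1 := h ξ ⟨P, hP⟩ (√S) (Real.sqrt_nonneg _) (fun Q => by
    rw [← hform κ ξ ⟨P, hP⟩ Q, hn Q]
    have h2 := hb Q.1 Q.2
    have h3 : ‖stForm g κ ξ Q.1 P‖ = √(‖stForm g κ ξ Q.1 P‖ ^ 2) :=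
      (Real.sqrt_sq (norm_nonneg _)).symm
    rw [h3, ← Real.sqrt_mul hS]
    exact Real.sqrt_le_sqrt h2)
  rw [← hY ⟨P, hP⟩]
  calc ‖D.ι ⟨P, hP⟩‖ ^ 2 ≤ (C * √S) ^ 2 := pow_le_pow_left₀ (norm_nonneg _) h1 2
    _ = C ^ 2 * S := by rw [mul_pow, Real.sq_sqrt hS]

end Crest.Agent.R213.A
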