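import Crest.Agent.R213.A.Kit
import Crest.Agent.R213.A.CoV

/-!
# Row 213, PART A: transfer between the inner variables and the original ones, smoothness and
pointwise identities (helper795)
-/

set_option autoImplicit false

open Set MeasureTheory Filter Topology

noncomputable section

namespace Crest.Agent.R213.A.Tr

/-! ### cut-offs -/

/-- space cutoff: `1` for `r ≤ 3/32`, `0` for `r ≥ 1/8` -/
def chi (r : ℝ) : ℝ := Real.smoothTransition (4 - 32 * r)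

theorem chi_smooth : ContDiff ℝ (⊤ : ℕ∞) chi := by
  unfold chi
  exact Real.smoothTransition.contDiff.comp (by fun_prop)

theorem chi_one {r : ℝ} (h : r ≤ 3 / 32) : chi r = 1 :=
  Real.smoothTransition.one_of_one_le (by linarith)

theorem chi_zero {r : ℝ} (h : 1 / 8 ≤ r) : chi r = 0 :=
  Real.smoothTransition.zero_of_nonpos (by linarith)

theorem chi_nonneg (r : ℝ) : 0 ≤ chi r := Real.smoothTransition.nonneg _

theorem chi_le_one (r : ℝ) : chi r ≤ 1 := Real.smoothTransition.le_one _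

theorem exists_theta {a b : ℝ} (ha : 0 < a) (hab : a < b) (hb : b < 1) :
    ∃ θ : ℝ → ℝ, ContDiff ℝ (⊤ : ℕ∞) θ ∧ (∀ τ ∈ Icc a b, θ τ = 1) ∧
      (∀ τ, 0 ≤ θ τ ∧ θ τ ≤ 1) ∧
      (∃ a' b' : ℝ, 0 < a' ∧ a' < b' ∧ b' < 1 ∧ ∀ τ, τ ∉ Icc a' b' → θ τ = 0) := by
  have hb1 : 0 < 1 - b := by linarith
  refine ⟨fun τ => Real.smoothTransition (2 * τ / a - 1) *
    Real.smoothTransition ((1 + b - 2 * τ) / (1 - b)), ?_, ?_, ?_, a / 2, (1 + b) / 2,
    by linarith, by linarith, by linarith, ?_⟩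
  · exact (Real.smoothTransition.contDiff.comp (by fun_prop)).mul
      (Real.smoothTransition.contDiff.comp (by fun_prop))
  · intro τ hτ
    have h1 : 1 ≤ 2 * τ / a - 1 := by
      have : 2 ≤ 2 * τ / a := by
        rw [le_div_iff₀ ha]; linarith [hτ.1]
      linarith
    have h2 : 1 ≤ (1 + b - 2 * τ) / (1 - b) := by
      rw [le_div_iff₀ hb1]; linarith [hτ.2]
    show Real.smoothTransition _ * Real.smoothTransition _ = 1
    rw [Real.smoothTransition.one_of_one_le h1, Real.smoothTransition.one_of_one_le h2, one_mul]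
  · intro τ
    constructor
    · exact mul_nonneg (Real.smoothTransition.nonneg _) (Real.smoothTransition.nonneg _)
    · exact mul_le_one₀ (Real.smoothTransition.le_one _) (Real.smoothTransition.nonneg _)
        (Real.smoothTransition.le_one _)
  · intro τ hτ
    show Real.smoothTransition _ * Real.smoothTransition _ = 0
    rw [mem_Icc, not_and_or, not_le, not_le] at hτ
    rcases hτ with h | h
    · rw [Real.smoothTransition.zero_of_nonpos, zero_mul]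
      have : 2 * τ / a < 1 := by rw [div_lt_one ha]; linarith
      linarith
    · rw [Real.smoothTransition.zero_of_nonpos (x := (1 + b - 2 * τ) / (1 - b)), mul_zero]
      rw [div_nonpos_iff]
      right
      constructor <;> linarith

/-! ### the two transforms -/

/-- `ψ ↦ P` -/
def Pf (κ : ℝ) (ψ : ℝ → ℝ → ℝ) (s y : ℝ) : ℝ :=
  Real.exp (-(65 / 2 - κ) * s) * ψ (Real.exp (-s)) (y * Real.exp (-s / 2))

/-- cut-off of `V` -/
def Vc (L : ℝ) (θ : ℝ → ℝ) (V : ℝ → ℝ → ℝ) (s y : ℝ) : ℝ :=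
  θ (Real.exp (-s)) * chi (y * Real.exp (-s / 2) / L) * V s y

/-- `V ↦ u` (with cut-offs) -/
def Uf (κ L : ℝ) (θ : ℝ → ℝ) (V : ℝ → ℝ → ℝ) (τ x : ℝ) : ℝ :=
  τ ^ (55 / 2 - κ) * (θ τ * chi (x / L) * V (-Real.log τ) (x / √τ))

variable {κ L : ℝ} {θ : ℝ → ℝ} {V ψ : ℝ → ℝ → ℝ}

theorem Uf_eq {τ : ℝ} (hτ : 0 < τ) (x : ℝ) :
    Uf κ L θ V τ x = τ ^ (55 / 2 - κ) * Vc L θ V (-Real.log τ) (x * (√τ)⁻¹) := by
  have hs : 0 < √τ := Real.sqrt_pos.2 hτ
  unfold Uf Vc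
  rw [CoV.exp_half_log hτ, neg_neg, Real.exp_log hτ, mul_assoc x, inv_mul_cancel₀ hs.ne', mul_one,
    div_eq_mul_inv x (√τ)]

theorem Uf_exp (s y : ℝ) :
    Uf κ L θ V (Real.exp (-s)) (y * Real.exp (-s / 2)) =
      Real.exp (-(55 / 2 - κ) * s) * Vc L θ V s y := by
  rw [Uf_eq (Real.exp_pos _), Real.log_exp, neg_neg, CoV.sqrt_exp, mul_assoc y,
    mul_inv_cancel₀ (Real.exp_pos _).ne', mul_one, ← Real.exp_mul]
  congr 2
  ring

theorem sm_Uf (hV : DR V) (hθ : ContDiff ℝ (⊤ : ℕ∞) θ) : Sm (Ioo 0 1) L (Uf κ L θ V) := by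
  have h1 : Sm (Ioo 0 1) L (fun τ _ => τ ^ (55 / 2 - κ)) :=
    Sm.rpow (u := fun τ _ => τ) Sm.fst _ (fun τ hτ x _ => hτ.1.ne')
  have h2 : Sm (Ioo 0 1) L (fun τ _ => θ τ) := Sm.of_left hθ.contDiffOn
  have h3 : Sm (Ioo 0 1) L (fun _ x => chi (x / L)) :=
    Sm.of_right (chi_smooth.comp (by fun_prop)).contDiffOn
  have h4 : Sm (Ioo 0 1) L (fun τ x => V (-Real.log τ) (x / √τ)) := by
    have e1 : Sm (Ioo 0 1) L (fun τ _ => -Real.log τ) :=
      (Sm.log (u := fun τ _ => τ) Sm.fst (fun τ hτ x _ => hτ.1.ne')).neg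
    have e2 : Sm (Ioo 0 1) L (fun τ x => x / √τ) :=
      Sm.div (u := fun _ x => x) (v := fun τ _ => √τ) Sm.snd
        (Sm.sqrt (u := fun τ _ => τ) Sm.fst (fun τ hτ x _ => hτ.1.ne'))
        (fun τ hτ x _ => (Real.sqrt_pos.2 hτ.1).ne')
    exact ContDiffOn.comp (g := fun p : ℝ × ℝ => V p.1 p.2)
      (f := fun p : ℝ × ℝ => (-Real.log p.1, p.2 / √p.1)) hV.1 (ContDiffOn.prodMk e1 e2)
      (fun p hp => ⟨mem_univ _, div_nonneg hp.2.1 (Real.sqrt_nonneg _)⟩)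
  exact h1.mul ((h2.mul h3).mul h4)

theorem tst_Uf (hV : DR V) (hθ : ContDiff ℝ (⊤ : ℕ∞) θ)
    (hθs : ∃ a' b' : ℝ, 0 < a' ∧ a' < b' ∧ b' < 1 ∧ ∀ τ, τ ∉ Icc a' b' → θ τ = 0) :
    Tst L (Uf κ L θ V) := by
  obtain ⟨a', b', h1, h2, h3, h4⟩ := hθs
  exact ⟨sm_Uf hV hθ, a', b', h1, h2, h3, fun τ x hτ => by unfold Uf; rw [h4 τ hτ]; ring⟩

theorem dr_Vc (hV : DR V) (hθ : ContDiff ℝ (⊤ : ℕ∞) θ) : DR (Vc L θ V) := by
  obtain ⟨h1, R, hR⟩ := hV
  refine ⟨?_, R, fun s y h => by unfold Vc; rw [hR s y h]; ring⟩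
  have e1 : ContDiff ℝ (⊤ : ℕ∞) (fun p : ℝ × ℝ => θ (Real.exp (-p.1))) :=
    hθ.comp (by fun_prop)
  have e2 : ContDiff ℝ (⊤ : ℕ∞) (fun p : ℝ × ℝ => chi (p.2 * Real.exp (-p.1 / 2) / L)) :=
    chi_smooth.comp (by fun_prop)
  exact (e1.mul e2).contDiffOn.mul h1

/-! ### second derivatives -/

theorem deriv_comp_mul_right' (f : ℝ → ℝ) (e y : ℝ) :
    deriv (fun y => f (y * e)) y = e * deriv f (y * e) := by
  have := deriv_comp_mul_left e f y
  simpa [mul_comm, smul_eq_mul] using this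

theorem deriv2_scale (f : ℝ → ℝ) (c e y : ℝ) :
    deriv (deriv (fun y => c * f (y * e))) y = c * e ^ 2 * deriv (deriv f) (y * e) := by
  have h1 : ∀ (F : ℝ → ℝ) (c y : ℝ), deriv (fun y => c * F (y * e)) y = c * e * deriv F (y * e) := by
    intro F c y
    rw [deriv_const_mul_field, deriv_comp_mul_right']
    ring
  have h2 : deriv (fun y => c * f (y * e)) = fun y => (c * e) * deriv f (y * e) :=
    funext (fun y => h1 f c y)
  rw [h2, h1]
  ring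

theorem dx_eq_deriv' {u : ℝ → ℝ → ℝ} {τ x : ℝ} (hx : x ∈ Ioo 0 L) : dx L u τ x = deriv (u τ) x :=
  dx_eq_deriv hx

theorem dxx_eq {u : ℝ → ℝ → ℝ} {τ x : ℝ} (hx : x ∈ Ioo 0 L) :
    dx L (dx L u) τ x = deriv (deriv (u τ)) x := by
  rw [dx_eq_deriv hx]
  apply Filter.EventuallyEq.deriv_eq
  filter_upwards [Ioo_mem_nhds hx.1 hx.2] with z hz
  exact dx_eq_deriv hz

theorem Pf_yy (s y : ℝ) : deriv (deriv (Pf κ ψ s)) y =
    Real.exp (-(65 / 2 - κ) * s) * Real.exp (-s / 2) ^ 2 *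
      deriv (deriv (ψ (Real.exp (-s)))) (y * Real.exp (-s / 2)) :=
  deriv2_scale (ψ (Real.exp (-s))) _ _ _

theorem Pf_y (s y : ℝ) : deriv (Pf κ ψ s) y =
    Real.exp (-(65 / 2 - κ) * s) * Real.exp (-s / 2) *
      deriv (ψ (Real.exp (-s))) (y * Real.exp (-s / 2)) := by
  show deriv (fun y => Real.exp (-(65 / 2 - κ) * s) * ψ (Real.exp (-s)) (y * Real.exp (-s / 2))) y = _
  rw [deriv_const_mul_field, deriv_comp_mul_right' (ψ (Real.exp (-s))) (Real.exp (-s / 2)) y]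
  ring

theorem Uf_yy (s y : ℝ) :
    deriv (deriv (Uf κ L θ V (Real.exp (-s)))) (y * Real.exp (-s / 2)) =
      Real.exp (-(55 / 2 - κ) * s) * (Real.exp (-s / 2) ^ 2)⁻¹ *
        deriv (deriv (Vc L θ V s)) y := by
  have h1 : Uf κ L θ V (Real.exp (-s)) = fun x => Real.exp (-(55 / 2 - κ) * s) *
      Vc L θ V s (x * (Real.exp (-s / 2))⁻¹) := by
    funext x
    rw [Uf_eq (Real.exp_pos _), Real.log_exp, neg_neg, CoV.sqrt_exp, ← Real.exp_mul]
    congr 2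
    ring
  rw [h1, deriv2_scale, mul_assoc y, mul_inv_cancel₀ (Real.exp_pos _).ne', mul_one, inv_pow]

/-- chain rule in `s` -/
theorem Pf_s (hL : 0 < L) (hψ : Sm (Ioo 0 1) L ψ) {s y : ℝ} (hs : 0 < s)
    (hy : y * Real.exp (-s / 2) ∈ Ioo 0 L) :
    deriv (fun r => Pf κ ψ r y) s = -(65 / 2 - κ) * Pf κ ψ s y -
      Real.exp (-(65 / 2 - κ) * s) * (Real.exp (-s) * dt ψ (Real.exp (-s)) (y * Real.exp (-s / 2)) +
        y / 2 * Real.exp (-s / 2) * dx L ψ (Real.exp (-s)) (y * Real.exp (-s / 2))) := by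
  have hτ : Real.exp (-s) ∈ Ioo (0 : ℝ) 1 :=
    ⟨Real.exp_pos _, by rw [← Real.exp_zero]; exact Real.exp_lt_exp.2 (by linarith)⟩
  have e1 : HasDerivAt (fun r : ℝ => Real.exp (-r)) (-Real.exp (-s)) s := by
    simpa using (hasDerivAt_neg s).exp
  have e2 : HasDerivAt (fun r : ℝ => y * Real.exp (-r / 2)) (-(y / 2 * Real.exp (-s / 2))) s := by
    have e1 : HasDerivAt (fun r : ℝ => Real.exp (-r / 2)) (Real.exp (-s / 2) * (-1 / 2)) s :=
      ((hasDerivAt_neg s).div_const 2).exp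
    refine (e1.const_mul y).congr_deriv ?_
    ring
  have hA : {r : ℝ | Real.exp (-r) ∈ Ioo (0 : ℝ) 1 ∧ y * Real.exp (-r / 2) ∈ Ioo 0 L} ∈ 𝓝 s := by
    have c1 : ContinuousAt (fun r : ℝ => Real.exp (-r)) s := e1.continuousAt
    have c2 : ContinuousAt (fun r : ℝ => y * Real.exp (-r / 2)) s := e2.continuousAt
    filter_upwards [c1.preimage_mem_nhds (Ioo_mem_nhds hτ.1 hτ.2),
      c2.preimage_mem_nhds (Ioo_mem_nhds hy.1 hy.2)] with r h1 h2
    exact ⟨h1, h2⟩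
  have e3 : HasDerivAt (fun r => ψ (Real.exp (-r)) (y * Real.exp (-r / 2)))
      (-Real.exp (-s) * dt ψ (Real.exp (-s)) (y * Real.exp (-s / 2)) +
        -(y / 2 * Real.exp (-s / 2)) * dx L ψ (Real.exp (-s)) (y * Real.exp (-s / 2))) s := by
    have := Sm.hasDerivWithinAt_comp2 (a := fun r => Real.exp (-r))
      (b := fun r => y * Real.exp (-r / 2)) isOpen_Ioo hL hψ e1.hasDerivWithinAt
      e2.hasDerivWithinAt (A := {r : ℝ | Real.exp (-r) ∈ Ioo (0 : ℝ) 1 ∧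
        y * Real.exp (-r / 2) ∈ Ioo 0 L}) (fun z hz => hz.1)
      (fun z hz => Ioo_subset_Icc_self hz.2) ⟨hτ, hy⟩
    exact this.hasDerivAt hA
  have e4 : HasDerivAt (fun r : ℝ => Real.exp (-(65 / 2 - κ) * r))
      (Real.exp (-(65 / 2 - κ) * s) * -(65 / 2 - κ)) s := by
    simpa using ((hasDerivAt_id s).const_mul (-(65 / 2 - κ))).exp
  have e5 := e4.mul e3
  have e6 : deriv (fun r => Pf κ ψ r y) s = _ := e5.deriv
  rw [e6]
  unfold Pf
  ring

end Crest.Agent.R213.A.Tr
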