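import Crest.Agent.R213.A.Tr1

/-!
# Row 213, PART A: transfer, identities for the integrals (helper795)
-/

set_option autoImplicit false

open Set MeasureTheory Filter Topology

noncomputable section

namespace Crest.Agent.R213.A.Tr

variable {κ L : ℝ} {θ : ℝ → ℝ} {V ψ : ℝ → ℝ → ℝ}

/-- data of a test function supported in `x ≤ L/16` -/
structure Loc (L : ℝ) (ψ : ℝ → ℝ → ℝ) (a b : ℝ) : Prop where
  Lpos : 0 < L
  sm : Sm (Ioo 0 1) L ψ
  a_pos : 0 < a
  ab : a < b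
  b_lt : b < 1
  supp : ∀ τ x, τ ∉ Icc a b → ψ τ x = 0
  suppx : ∀ τ x, L / 16 ≤ x → ψ τ x = 0

variable {a b : ℝ}

/-- the open set where `P` vanishes -/
def ZZ (L a b : ℝ) : Set (ℝ × ℝ) :=
  {p | Real.exp (-p.1) ∉ Icc a b ∨ L / 16 < p.2 * Real.exp (-p.1 / 2)}

theorem isOpen_ZZ : IsOpen (ZZ L a b) := by
  have h1 : IsOpen {p : ℝ × ℝ | Real.exp (-p.1) ∉ Icc a b} := by
    have : Continuous (fun p : ℝ × ℝ => Real.exp (-p.1)) := by fun_prop
    exact isClosed_Icc.isOpen_compl.preimage this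
  have h2 : IsOpen {p : ℝ × ℝ | L / 16 < p.2 * Real.exp (-p.1 / 2)} := by
    have : Continuous (fun p : ℝ × ℝ => p.2 * Real.exp (-p.1 / 2)) := by fun_prop
    exact isOpen_lt continuous_const this
  exact h1.union h2

theorem Pf_zero (h : Loc L ψ a b) {s y : ℝ} (hz : (s, y) ∈ ZZ L a b) : Pf κ ψ s y = 0 := by
  unfold Pf
  rcases hz with h1 | h1
  · rw [h.supp _ _ h1, mul_zero]
  · rw [h.suppx _ _ h1.le, mul_zero]

theorem Pf_s_zero (h : Loc L ψ a b) {s y : ℝ} (hz : (s, y) ∈ ZZ L a b) :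
    deriv (fun r => Pf κ ψ r y) s = 0 := by
  have h1 : (fun r => Pf κ ψ r y) =ᶠ[𝓝 s] fun _ => 0 := by
    have hc : ContinuousAt (fun r : ℝ => (r, y)) s := by fun_prop
    filter_upwards [hc.preimage_mem_nhds (isOpen_ZZ.mem_nhds hz)] with r hr
    exact Pf_zero h hr
  rw [h1.deriv_eq]; simp

theorem Pf_ev_y (h : Loc L ψ a b) {s y : ℝ} (hz : (s, y) ∈ ZZ L a b) :
    (Pf κ ψ s) =ᶠ[𝓝 y] fun _ => 0 := by
  have hc : ContinuousAt (fun r : ℝ => (s, r)) y := by fun_prop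
  filter_upwards [hc.preimage_mem_nhds (isOpen_ZZ.mem_nhds hz)] with r hr
  exact Pf_zero h hr

theorem Pf_y_zero (h : Loc L ψ a b) {s y : ℝ} (hz : (s, y) ∈ ZZ L a b) :
    deriv (Pf κ ψ s) y = 0 := by
  rw [(Pf_ev_y h hz).deriv_eq]; simp

theorem Pf_yy_zero (h : Loc L ψ a b) {s y : ℝ} (hz : (s, y) ∈ ZZ L a b) :
    deriv (deriv (Pf κ ψ s)) y = 0 := by
  have h1 : deriv (Pf κ ψ s) =ᶠ[𝓝 y] deriv (fun _ => 0) := (Pf_ev_y h hz).deriv
  rw [h1.deriv_eq]; simp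

/-- `ψ` vanishes near points with `x > L/16` -/
theorem psi_dt_zero (h : Loc L ψ a b) {τ x : ℝ} (hx : τ ∉ Icc a b ∨ L / 16 < x) :
    dt ψ τ x = 0 := by
  rcases hx with h1 | h1
  · exact Kit.dt_zero_of h.supp h1 x
  · unfold dt
    have : (fun r => ψ r x) = fun _ => 0 := funext (fun r => h.suppx r x h1.le)
    rw [this]; simp

theorem psi_xx_zero (h : Loc L ψ a b) {τ x : ℝ} (hx : τ ∉ Icc a b ∨ L / 16 < x) :
    deriv (deriv (ψ τ)) x = 0 := by
  rcases hx with h1 | h1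
  · have : ψ τ = fun _ => 0 := funext (fun y => h.supp τ y h1)
    rw [this]; simp
  · have h2 : ψ τ =ᶠ[𝓝 x] fun _ => 0 := by
      filter_upwards [Ioi_mem_nhds h1] with z hz
      exact h.suppx τ z (le_of_lt hz)
    have h3 : deriv (ψ τ) =ᶠ[𝓝 x] deriv (fun _ => 0) := h2.deriv
    rw [h3.deriv_eq]; simp

/-- points outside `Om` with `y > 0` are in `ZZ` -/
theorem ZZ_of_not_Om (h : Loc L ψ a b) {p : ℝ × ℝ} (hy : 0 < p.2) (hp : p ∉ CoV.Om L) :
    p ∈ ZZ L a b := by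
  by_contra hz
  unfold ZZ at hz
  simp only [Set.mem_ofPred_eq, not_or, not_not, not_lt] at hz
  apply hp
  refine ⟨?_, hy, ?_⟩
  · have h1 : Real.exp (-p.1) < Real.exp 0 := by
      rw [Real.exp_zero]; exact hz.1.2.trans_lt h.b_lt
    have := Real.exp_lt_exp.1 h1
    linarith
  · have := h.Lpos
    linarith [hz.2]

/-- powers of `E = e^{-s/2}` -/
theorem expE (s : ℝ) (n : ℕ) : Real.exp (-s / 2) ^ n = Real.exp (-(n / 2) * s) := by
  rw [← Real.exp_nat_mul]; congr 1; ring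

theorem exp_s (s : ℝ) : Real.exp (-s) = Real.exp (-s / 2) ^ 2 := by
  rw [expE]; congr 1; push_cast; ring

theorem exp_32 (s : ℝ) : Real.exp (-(3 / 2) * s) = Real.exp (-s / 2) ^ 3 := by
  rw [expE]; congr 1

theorem exp_65 (s : ℝ) : Real.exp (-(65 / 2 - κ) * s) = Real.exp (-s / 2) ^ 65 * Real.exp (κ * s) := by
  rw [expE, ← Real.exp_add]; congr 1; push_cast; ring

theorem exp_55 (s : ℝ) : Real.exp (-(55 / 2 - κ) * s) = Real.exp (-s / 2) ^ 55 * Real.exp (κ * s) := by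
  rw [expE, ← Real.exp_add]; congr 1; push_cast; ring

theorem exp_rpow (s : ℝ) : Real.exp (-s) ^ (2 * κ) = (Real.exp (κ * s) ^ 2)⁻¹ := by
  rw [← Real.exp_mul, ← Real.exp_nat_mul, ← Real.exp_neg]; congr 1; push_cast; ring

theorem Wt_TT (s y : ℝ) : Wt κ (Real.exp (-s)) (y * Real.exp (-s / 2)) =
    (Real.exp (κ * s) ^ 2)⁻¹ / (Real.exp (-s / 2) ^ 120 * w60 y) := by
  unfold Wt w60
  have h1 : (y * Real.exp (-s / 2)) ^ 2 + Real.exp (-s) = Real.exp (-s / 2) ^ 2 * (1 + y ^ 2) := by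
    rw [exp_s]; ring
  rw [exp_rpow, h1, mul_pow, ← pow_mul]

section bg

variable {c0 C0 : ℝ} {g : ℝ → ℝ} {φ m : ℝ → ℝ → ℝ}

theorem phi_TT (hB : Bg c0 C0 g L φ m) {s y : ℝ} (hs : 0 < s) (hy : 0 < y)
    (hx : y * Real.exp (-s / 2) ≤ L / 8) :
    φ (Real.exp (-s)) (y * Real.exp (-s / 2)) = y * g y * Real.exp (-s / 2) := by
  have hE := Real.exp_pos (-s / 2)
  rw [hB.inner (Real.exp (-s)) ⟨Real.exp_pos _, by
    rw [← Real.exp_zero]; exact Real.exp_lt_exp.2 (by linarith)⟩ _ ⟨by positivity, hx⟩,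
    CoV.sqrt_exp, mul_div_assoc, div_self hE.ne', mul_one]
  ring

theorem exp_mem {s : ℝ} (hs : 0 < s) : Real.exp (-s) ∈ Ioo (0 : ℝ) 1 :=
  ⟨Real.exp_pos _, by rw [← Real.exp_zero]; exact Real.exp_lt_exp.2 (by linarith)⟩

/-- pointwise identity for the form -/
theorem BB_point (hB : Bg c0 C0 g L φ m) (h : Loc L ψ a b) (hθ1 : ∀ τ ∈ Icc a b, θ τ = 1)
    {s y : ℝ} (hp : (s, y) ∈ CoV.Om L) :
    Real.exp (-(3 / 2) * s) * ((y * Real.exp (-s / 2)) ^ 9 *
      (dt ψ (Real.exp (-s)) (y * Real.exp (-s / 2)) *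
          Uf κ L θ V (Real.exp (-s)) (y * Real.exp (-s / 2)) +
        φ (Real.exp (-s)) (y * Real.exp (-s / 2)) ^ 2 *
          dx L (dx L ψ) (Real.exp (-s)) (y * Real.exp (-s / 2)) *
          dx L (dx L (Uf κ L θ V)) (Real.exp (-s)) (y * Real.exp (-s / 2)))) =
    y ^ 9 * (V s y * (-(deriv (fun r => Pf κ ψ r y) s) - (65 / 2 - κ) * Pf κ ψ s y
        - y / 2 * deriv (Pf κ ψ s) y) +
      (y * g y) ^ 2 * deriv (deriv (V s)) y * deriv (deriv (Pf κ ψ s)) y) := by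
  obtain ⟨hs, hy, hx⟩ := hp
  have hx' : y * Real.exp (-s / 2) ∈ Ioo 0 L := ⟨by have := hy; positivity, hx⟩
  simp only at hs hy hx
  rw [dxx_eq hx', dxx_eq hx', Pf_s h.Lpos h.sm hs hx', Pf_y, Pf_yy, dx_eq_deriv' hx']
  by_cases hc : Real.exp (-s) ∉ Icc a b ∨ L / 16 < y * Real.exp (-s / 2)
  · rw [psi_dt_zero h hc, psi_xx_zero h hc]
    ring
  · rw [not_or, not_not, not_lt] at hc
    have hL := h.Lpos
    have hchi : ∀ᶠ z in 𝓝 y, Vc L θ V s z = V s z := by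
      have hcont : ContinuousAt (fun z : ℝ => z * Real.exp (-s / 2) / L) y := by fun_prop
      have hlt : y * Real.exp (-s / 2) / L < 3 / 32 := by
        rw [div_lt_iff₀ hL]; linarith [hc.2]
      filter_upwards [hcont.preimage_mem_nhds (Iio_mem_nhds hlt)] with z hz
      unfold Vc
      rw [hθ1 _ hc.1, chi_one (le_of_lt hz), one_mul, one_mul]
    have e1 : Vc L θ V s y = V s y := hchi.self_of_nhds
    have e2 : deriv (deriv (Vc L θ V s)) y = deriv (deriv (V s)) y := by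
      have : Vc L θ V s =ᶠ[𝓝 y] V s := hchi
      exact this.deriv.deriv_eq
    rw [Uf_exp, Uf_yy, e1, e2, phi_TT hB hs hy (by linarith [hc.2]), exp_32, exp_65, exp_55,
      exp_s]
    have hE := (Real.exp_pos (-s / 2)).ne'
    generalize Real.exp (-s / 2) = E at *
    unfold Pf
    field_simp
    ring

theorem w60_pos (y : ℝ) : 0 < w60 y := by unfold w60; positivity

/-- pointwise identity for the `Y` norm -/
theorem nY_point (hB : Bg c0 C0 g L φ m) (h : Loc L ψ a b) {s y : ℝ} (hp : (s, y) ∈ CoV.Om L) :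
    Real.exp (-(3 / 2) * s) * ((y * Real.exp (-s / 2)) ^ 9 *
      ((φ (Real.exp (-s)) (y * Real.exp (-s / 2)) *
          dx L (dx L ψ) (Real.exp (-s)) (y * Real.exp (-s / 2))) ^ 2 /
            Wt κ (Real.exp (-s)) (y * Real.exp (-s / 2)) +
        ψ (Real.exp (-s)) (y * Real.exp (-s / 2)) ^ 2 /
          (Real.exp (-s) * Wt κ (Real.exp (-s)) (y * Real.exp (-s / 2))))) =
    y ^ 9 * w60 y * ((y * g y) ^ 2 * deriv (deriv (Pf κ ψ s)) y ^ 2 + Pf κ ψ s y ^ 2) := by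
  obtain ⟨hs, hy, hx⟩ := hp
  have hx' : y * Real.exp (-s / 2) ∈ Ioo 0 L := ⟨by have := hy; positivity, hx⟩
  simp only at hs hy hx
  rw [dxx_eq hx', Pf_yy]
  by_cases hc : Real.exp (-s) ∉ Icc a b ∨ L / 16 < y * Real.exp (-s / 2)
  · have h0 : ψ (Real.exp (-s)) (y * Real.exp (-s / 2)) = 0 := by
      rcases hc with h1 | h1
      · exact h.supp _ _ h1
      · exact h.suppx _ _ h1.le
    rw [psi_xx_zero h hc]
    unfold Pf
    rw [h0]
    ring
  · rw [not_or, not_not, not_lt] at hc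
    have hL := h.Lpos
    rw [phi_TT hB hs hy (by linarith [hc.2]), Wt_TT, exp_32, exp_65]
    unfold Pf
    rw [exp_65]
    have hE := (Real.exp_pos (-s / 2)).ne'
    have hK := (Real.exp_pos (κ * s)).ne'
    have hw := (w60_pos y).ne'
    rw [exp_s s]
    generalize Real.exp (-s / 2) = E at *
    generalize Real.exp (κ * s) = K at *
    generalize w60 y = w at *
    field_simp

/-- pointwise identity for the `X` norm -/
theorem nX_point (hB : Bg c0 C0 g L φ m) {s y : ℝ} (hp : (s, y) ∈ CoV.Om L) :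
    Real.exp (-(3 / 2) * s) * ((y * Real.exp (-s / 2)) ^ 9 *
      (Wt κ (Real.exp (-s)) (y * Real.exp (-s / 2)) * (φ (Real.exp (-s)) (y * Real.exp (-s / 2)) *
          dx L (dx L (Uf κ L θ V)) (Real.exp (-s)) (y * Real.exp (-s / 2))) ^ 2 +
        Wt κ (Real.exp (-s)) (y * Real.exp (-s / 2)) / Real.exp (-s) *
          Uf κ L θ V (Real.exp (-s)) (y * Real.exp (-s / 2)) ^ 2)) =
    y ^ 9 / w60 y * ((y * g y) ^ 2 * deriv (deriv (Vc L θ V s)) y ^ 2 + Vc L θ V s y ^ 2) := by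
  obtain ⟨hs, hy, hx⟩ := hp
  have hx' : y * Real.exp (-s / 2) ∈ Ioo 0 L := ⟨by have := hy; positivity, hx⟩
  simp only at hs hy hx
  have hL : 0 < L := lt_trans hx'.1 hx'.2
  rw [dxx_eq hx', Uf_exp, Uf_yy]
  have hE := (Real.exp_pos (-s / 2)).ne'
  have hK := (Real.exp_pos (κ * s)).ne'
  have hw := (w60_pos y).ne'
  by_cases hc : L / 8 < y * Real.exp (-s / 2)
  · have h0 : ∀ᶠ z in 𝓝 y, Vc L θ V s z = 0 := by
      have hcont : ContinuousAt (fun z : ℝ => z * Real.exp (-s / 2) / L) y := by fun_prop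
      have hlt : 1 / 8 < y * Real.exp (-s / 2) / L := by
        rw [lt_div_iff₀ hL]; linarith [hc]
      filter_upwards [hcont.preimage_mem_nhds (Ioi_mem_nhds hlt)] with z hz
      unfold Vc
      rw [chi_zero (le_of_lt hz)]
      ring
    have e1 : Vc L θ V s y = 0 := h0.self_of_nhds
    have e2 : deriv (deriv (Vc L θ V s)) y = 0 := by
      have : Vc L θ V s =ᶠ[𝓝 y] fun _ => 0 := h0
      have h3 : deriv (Vc L θ V s) =ᶠ[𝓝 y] deriv (fun _ => 0) := this.deriv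
      rw [h3.deriv_eq]; simp
    rw [e1, e2]
    ring
  · rw [not_lt] at hc
    rw [phi_TT hB hs hy hc, Wt_TT, exp_32, exp_55, exp_s s]
    generalize Real.exp (-s / 2) = E at *
    generalize Real.exp (κ * s) = K at *
    generalize w60 y = w at *
    field_simp

end bg

end Crest.Agent.R213.A.Tr
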