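import Crest.Agent.R213.A.Tr2

/-!
# Row 213, PART A: one-dimensional cut-off lemma (helper795)
-/

set_option autoImplicit false

open Set MeasureTheory Filter Topology

noncomputable section

namespace Crest.Agent.R213.A.Tr

/-! ### real functions on `[0,∞)` -/

/-- one-sided smooth real function with bounded support: derivatives as continuous functions -/
theorem exists_derivs {f : ℝ → ℝ} (hf : ContDiffOn ℝ (⊤ : ℕ∞) f (Ici 0)) :
    ∃ f1 f2 : ℝ → ℝ, ContinuousOn f1 (Ici 0) ∧ ContinuousOn f2 (Ici 0) ∧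
      (∀ y, 0 < y → HasDerivAt f (f1 y) y) ∧ (∀ y, 0 < y → HasDerivAt f1 (f2 y) y) := by
  have hU : UniqueDiffOn ℝ (Ici (0 : ℝ)) := uniqueDiffOn_Ici 0
  have h1 : ContDiffOn ℝ (⊤ : ℕ∞) (derivWithin f (Ici 0)) (Ici 0) := hf.derivWithin hU (by simp)
  have h2 : ContDiffOn ℝ (⊤ : ℕ∞) (derivWithin (derivWithin f (Ici 0)) (Ici 0)) (Ici 0) :=
    h1.derivWithin hU (by simp)
  refine ⟨derivWithin f (Ici 0), derivWithin (derivWithin f (Ici 0)) (Ici 0), h1.continuousOn,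
    h2.continuousOn, ?_, ?_⟩
  · intro y hy
    exact ((hf.differentiableOn (by simp)) y hy.le).hasDerivWithinAt.hasDerivAt (Ici_mem_nhds hy)
  · intro y hy
    exact ((h1.differentiableOn (by simp)) y hy.le).hasDerivWithinAt.hasDerivAt (Ici_mem_nhds hy)

theorem integrable_Ioi {h : ℝ → ℝ} (hc : ContinuousOn h (Ici 0)) {R : ℝ}
    (hR : ∀ y, R ≤ y → h y = 0) : IntegrableOn h (Ioi 0) := by
  have h1 : IntegrableOn h (Icc 0 R) :=
    (hc.mono (fun y hy => hy.1)).integrableOn_compact isCompact_Icc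
  refine h1.of_forall_sdiff_eq_zero measurableSet_Ioi ?_
  rintro y ⟨hy, hy'⟩
  apply hR
  by_contra h2
  exact hy' ⟨le_of_lt hy, (not_le.1 h2).le⟩

theorem deriv_eq_of_pos {f f1 : ℝ → ℝ} (h1 : ∀ y, 0 < y → HasDerivAt f (f1 y) y) {y : ℝ}
    (hy : 0 < y) : deriv f y = f1 y := (h1 y hy).deriv

theorem deriv2_eq_of_pos {f f1 f2 : ℝ → ℝ} (h1 : ∀ y, 0 < y → HasDerivAt f (f1 y) y)
    (h2 : ∀ y, 0 < y → HasDerivAt f1 (f2 y) y) {y : ℝ} (hy : 0 < y) :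
    deriv (deriv f) y = f2 y := by
  have : deriv f =ᶠ[𝓝 y] f1 := by
    filter_upwards [Ioi_mem_nhds hy] with z hz
    exact (h1 z hz).deriv
  rw [this.deriv_eq]
  exact (h2 y hy).deriv

/-- complexification -/
theorem derivC {f f1 : ℝ → ℝ} (h1 : ∀ y, 0 < y → HasDerivAt f (f1 y) y) {y : ℝ} (hy : 0 < y) :
    deriv (fun z => (f z : ℂ)) y = (f1 y : ℂ) := ((h1 y hy).ofReal_comp).deriv

theorem deriv2C {f f1 f2 : ℝ → ℝ} (h1 : ∀ y, 0 < y → HasDerivAt f (f1 y) y)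
    (h2 : ∀ y, 0 < y → HasDerivAt f1 (f2 y) y) {y : ℝ} (hy : 0 < y) :
    deriv (deriv (fun z => (f z : ℂ))) y = (f2 y : ℂ) := by
  have : deriv (fun z => (f z : ℂ)) =ᶠ[𝓝 y] fun z => (f1 z : ℂ) := by
    filter_upwards [Ioi_mem_nhds hy] with z hz
    exact derivC h1 hz
  rw [this.deriv_eq]
  exact ((h2 y hy).ofReal_comp).deriv

theorem contDiffOn_ofReal {f : ℝ → ℝ} {s : Set ℝ} (hf : ContDiffOn ℝ (⊤ : ℕ∞) f s) :
    ContDiffOn ℝ (⊤ : ℕ∞) (fun z => (f z : ℂ)) s :=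
  Complex.ofRealCLM.contDiff.comp_contDiffOn hf

/-- `f` vanishes for `y ≥ R` ⟹ so do the derivatives (for `y > R`) -/
theorem derivs_zero {f f1 : ℝ → ℝ} (h1 : ∀ y, 0 < y → HasDerivAt f (f1 y) y) {R : ℝ}
    (hR : ∀ y, R ≤ y → f y = 0) {y : ℝ} (hy : 0 < y) (hy' : R < y) : f1 y = 0 := by
  rw [← (h1 y hy).deriv]
  have : f =ᶠ[𝓝 y] fun _ => 0 := by
    filter_upwards [Ioi_mem_nhds hy'] with z hz
    exact hR z (le_of_lt hz)
  rw [this.deriv_eq]; simp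

/-- the weight `y⁹ (1+y²)^{-60}` -/
theorem cont_w : Continuous (fun y : ℝ => y ^ 9 / w60 y) := by
  unfold w60
  exact (continuous_pow 9).div (by fun_prop) (fun y => by positivity)

variable {c0 C0 : ℝ} {g : ℝ → ℝ}

/-- statement of `st_interpX` with `ε = 1` -/
def IX (g : ℝ → ℝ) (K : ℝ) : Prop := 0 ≤ K ∧ ∀ P, DD P →
      ∫ y in Ioi (0 : ℝ), y ^ 9 / w60 y * ((y * g y) ^ 2 / (1 + y ^ 2)) * ‖deriv P y‖ ^ 2 ≤
        1 * (∫ y in Ioi (0 : ℝ), y ^ 9 / w60 y * (y * g y) ^ 2 * ‖deriv (deriv P) y‖ ^ 2) +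
          K * ∫ y in Ioi (0 : ℝ), y ^ 9 / w60 y / (1 + y ^ 2) * ‖P y‖ ^ 2

set_option maxHeartbeats 1000000 in
theorem cut1D (hg : Prof c0 C0 g) {K : ℝ} (hK : IX g K) {M1 M2 : ℝ} (hM1 : 0 ≤ M1) (hM2 : 0 ≤ M2)
    {f ζ : ℝ → ℝ} (hf : ContDiffOn ℝ (⊤ : ℕ∞) f (Ici 0)) {R : ℝ} (hR : ∀ y, R ≤ y → f y = 0)
    (hζ : ContDiff ℝ (⊤ : ℕ∞) ζ) (h0 : ∀ y, 0 < y → ζ y ^ 2 ≤ 1)
    (h1 : ∀ y, 0 < y → deriv ζ y ^ 2 * (1 + y ^ 2) ≤ M1)
    (h2 : ∀ y, 0 < y → (y * deriv (deriv ζ) y) ^ 2 ≤ M2) :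
    ∫ y in Ioi (0 : ℝ), y ^ 9 / w60 y * ((y * g y) ^ 2 * deriv (deriv (fun z => ζ z * f z)) y ^ 2 +
        (ζ y * f y) ^ 2) ≤
      (4 + 12 * M1 * (1 + K) + 3 * C0 ^ 2 * M2) *
        ∫ y in Ioi (0 : ℝ), y ^ 9 / w60 y * ((y * g y) ^ 2 * deriv (deriv f) y ^ 2 + f y ^ 2) := by
  obtain ⟨hK0, hK⟩ := hK
  obtain ⟨f1, f2, hc1, hc2, hd1, hd2⟩ := exists_derivs hf
  have hcf : ContinuousOn f (Ici 0) := hf.continuousOn
  have hcg : Continuous g := hg.smooth.continuous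
  set R' := max R 0 + 1 with hR'
  have hR0 : 0 < R' := by positivity
  have hRR : R < R' := lt_of_le_of_lt (le_max_left _ _) (by linarith)
  have hz0 : ∀ y, R' ≤ y → f y = 0 := fun y hy => hR y (by linarith)
  have hz1 : ∀ y, R' ≤ y → f1 y = 0 := fun y hy => derivs_zero hd1 hR (by linarith) (by linarith)
  have hz1' : ∀ y, max R 0 + 1 / 2 ≤ y → f1 y = 0 := fun y hy =>
    derivs_zero hd1 hR (by have := le_max_right R 0; linarith) (by have := le_max_left R 0; linarith)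
  have hz2 : ∀ y, R' ≤ y → f2 y = 0 := fun y hy =>
    derivs_zero hd2 hz1' (by linarith) (by rw [hR'] at hy; linarith)
  have hw := cont_w
  -- the three basic integrals
  have iA : IntegrableOn (fun y => y ^ 9 / w60 y * (y * g y) ^ 2 * f2 y ^ 2) (Ioi 0) := by
    refine integrable_Ioi (R := R') ?_ (fun y hy => by rw [hz2 y hy]; ring)
    exact ((hw.mul ((continuous_id.mul hcg).pow 2)).continuousOn).mul (hc2.pow 2)
  have iD : IntegrableOn (fun y => y ^ 9 / w60 y * ((y * g y) ^ 2 / (1 + y ^ 2)) * f1 y ^ 2)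
      (Ioi 0) := by
    refine integrable_Ioi (R := R') ?_ (fun y hy => by rw [hz1 y hy]; ring)
    refine ContinuousOn.mul (Continuous.continuousOn ?_) (hc1.pow 2)
    exact hw.mul (((continuous_id.mul hcg).pow 2).div (by fun_prop) (fun y => by positivity))
  have iB : IntegrableOn (fun y => y ^ 9 / w60 y * f y ^ 2) (Ioi 0) := by
    refine integrable_Ioi (R := R') ?_ (fun y hy => by rw [hz0 y hy]; ring)
    exact hw.continuousOn.mul (hcf.pow 2)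
  have iB' : IntegrableOn (fun y => y ^ 9 / w60 y / (1 + y ^ 2) * f y ^ 2) (Ioi 0) := by
    refine integrable_Ioi (R := R') ?_ (fun y hy => by rw [hz0 y hy]; ring)
    refine ContinuousOn.mul (Continuous.continuousOn ?_) (hcf.pow 2)
    exact hw.div (by fun_prop) (fun y => by positivity)
  -- the interpolation inequality for the complexification
  have hDD : DD (fun z => (f z : ℂ)) := ⟨contDiffOn_ofReal hf, R', fun y hy => by
    show (f y : ℂ) = 0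
    rw [hz0 y hy]; simp⟩
  have hI := hK _ hDD
  have e1 : ∫ y in Ioi (0 : ℝ), y ^ 9 / w60 y * ((y * g y) ^ 2 / (1 + y ^ 2)) *
      ‖deriv (fun z => (f z : ℂ)) y‖ ^ 2 =
      ∫ y in Ioi (0 : ℝ), y ^ 9 / w60 y * ((y * g y) ^ 2 / (1 + y ^ 2)) * f1 y ^ 2 := by
    refine setIntegral_congr_fun measurableSet_Ioi (fun y hy => ?_)
    show _ * ‖deriv (fun z => (f z : ℂ)) y‖ ^ 2 = _
    rw [derivC hd1 hy, Complex.norm_real, Real.norm_eq_abs, sq_abs]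
  have e2 : ∫ y in Ioi (0 : ℝ), y ^ 9 / w60 y * (y * g y) ^ 2 *
      ‖deriv (deriv (fun z => (f z : ℂ))) y‖ ^ 2 =
      ∫ y in Ioi (0 : ℝ), y ^ 9 / w60 y * (y * g y) ^ 2 * f2 y ^ 2 := by
    refine setIntegral_congr_fun measurableSet_Ioi (fun y hy => ?_)
    show _ * ‖deriv (deriv (fun z => (f z : ℂ))) y‖ ^ 2 = _
    rw [deriv2C hd1 hd2 hy, Complex.norm_real, Real.norm_eq_abs, sq_abs]
  have e3 : ∫ y in Ioi (0 : ℝ), y ^ 9 / w60 y / (1 + y ^ 2) * ‖(f y : ℂ)‖ ^ 2 =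
      ∫ y in Ioi (0 : ℝ), y ^ 9 / w60 y / (1 + y ^ 2) * f y ^ 2 := by
    refine setIntegral_congr_fun measurableSet_Ioi (fun y hy => ?_)
    show _ * ‖(f y : ℂ)‖ ^ 2 = _
    rw [Complex.norm_real, Real.norm_eq_abs, sq_abs]
  rw [e1, e2, e3] at hI
  set A := ∫ y in Ioi (0 : ℝ), y ^ 9 / w60 y * (y * g y) ^ 2 * f2 y ^ 2 with hA
  set D := ∫ y in Ioi (0 : ℝ), y ^ 9 / w60 y * ((y * g y) ^ 2 / (1 + y ^ 2)) * f1 y ^ 2 with hD
  set B := ∫ y in Ioi (0 : ℝ), y ^ 9 / w60 y * f y ^ 2 with hB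
  set B' := ∫ y in Ioi (0 : ℝ), y ^ 9 / w60 y / (1 + y ^ 2) * f y ^ 2 with hB'
  have hwn : ∀ y, 0 < y → 0 ≤ y ^ 9 / w60 y := fun y hy => by
    have := w60_pos y; positivity
  have hBB : B' ≤ B := by
    refine setIntegral_mono_on iB' iB measurableSet_Ioi (fun y hy => ?_)
    have h3 := hwn y hy
    have h4 : y ^ 9 / w60 y / (1 + y ^ 2) ≤ y ^ 9 / w60 y :=
      div_le_self h3 (by nlinarith [sq_nonneg y])
    exact mul_le_mul_of_nonneg_right h4 (sq_nonneg _)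
  have hA0 : 0 ≤ A := setIntegral_nonneg measurableSet_Ioi (fun y hy => by
    have := hwn y hy; positivity)
  have hB0 : 0 ≤ B := setIntegral_nonneg measurableSet_Ioi (fun y hy => by
    have := hwn y hy; positivity)
  -- right side
  have hR1 : ∫ y in Ioi (0 : ℝ), y ^ 9 / w60 y * ((y * g y) ^ 2 * deriv (deriv f) y ^ 2 + f y ^ 2) =
      A + B := by
    rw [hA, hB, ← integral_add iA iB]
    refine setIntegral_congr_fun measurableSet_Ioi (fun y hy => ?_)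
    show _ * (_ * deriv (deriv f) y ^ 2 + _) = _
    rw [deriv2_eq_of_pos hd1 hd2 hy]
    ring
  -- left side
  have hζd : Differentiable ℝ ζ := hζ.differentiable (by simp)
  have hζ1 : ContDiff ℝ (⊤ : ℕ∞) (deriv ζ) := by
    have : ContDiff ℝ ((⊤ : ℕ∞) + 1) ζ := by simpa using hζ
    exact (contDiff_succ_iff_deriv.1 this).2.2
  have hζ1d : Differentiable ℝ (deriv ζ) := hζ1.differentiable (by simp)
  have hζ2 : ContDiff ℝ (⊤ : ℕ∞) (deriv (deriv ζ)) := by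
    have : ContDiff ℝ ((⊤ : ℕ∞) + 1) (deriv ζ) := by simpa using hζ1
    exact (contDiff_succ_iff_deriv.1 this).2.2
  have hp1 : ∀ y, 0 < y → HasDerivAt (fun z => ζ z * f z) (deriv ζ y * f y + ζ y * f1 y) y :=
    fun y hy => (hζd y).hasDerivAt.mul (hd1 y hy)
  have hp2 : ∀ y, 0 < y → HasDerivAt (fun z => deriv ζ z * f z + ζ z * f1 z)
      (deriv (deriv ζ) y * f y + deriv ζ y * f1 y + (deriv ζ y * f1 y + ζ y * f2 y)) y :=
    fun y hy => ((hζ1d y).hasDerivAt.mul (hd1 y hy)).add ((hζd y).hasDerivAt.mul (hd2 y hy))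
  have hL1 : ∫ y in Ioi (0 : ℝ), y ^ 9 / w60 y * ((y * g y) ^ 2 *
        deriv (deriv (fun z => ζ z * f z)) y ^ 2 + (ζ y * f y) ^ 2) =
      ∫ y in Ioi (0 : ℝ), y ^ 9 / w60 y * ((y * g y) ^ 2 *
        (deriv (deriv ζ) y * f y + 2 * (deriv ζ y * f1 y) + ζ y * f2 y) ^ 2 + (ζ y * f y) ^ 2) := by
    refine setIntegral_congr_fun measurableSet_Ioi (fun y hy => ?_)
    show _ * (_ * deriv (deriv (fun z => ζ z * f z)) y ^ 2 + _) = _
    rw [deriv2_eq_of_pos hp1 hp2 hy]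
    ring
  have iL : IntegrableOn (fun y => y ^ 9 / w60 y * ((y * g y) ^ 2 *
        (deriv (deriv ζ) y * f y + 2 * (deriv ζ y * f1 y) + ζ y * f2 y) ^ 2 + (ζ y * f y) ^ 2))
      (Ioi 0) := by
    refine integrable_Ioi (R := R') ?_ (fun y hy => by rw [hz0 y hy, hz1 y hy, hz2 y hy]; ring)
    refine hw.continuousOn.mul (ContinuousOn.add (ContinuousOn.mul
      ((continuous_id.mul hcg).pow 2).continuousOn (ContinuousOn.pow ?_ 2))
      ((hζ.continuous.continuousOn.mul hcf).pow 2))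
    exact ((hζ2.continuous.continuousOn.mul hcf).add
      (continuousOn_const.mul (hζ1.continuous.continuousOn.mul hc1))).add
      (hζ.continuous.continuousOn.mul hc2)
  rw [hL1, hR1]
  have hmain : ∫ y in Ioi (0 : ℝ), y ^ 9 / w60 y * ((y * g y) ^ 2 *
        (deriv (deriv ζ) y * f y + 2 * (deriv ζ y * f1 y) + ζ y * f2 y) ^ 2 + (ζ y * f y) ^ 2) ≤
      3 * A + 12 * M1 * D + (3 * C0 ^ 2 * M2 + 1) * B := by
    have jA := iA.const_mul 3
    have jD := iD.const_mul (12 * M1)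
    have jB := iB.const_mul (3 * C0 ^ 2 * M2 + 1)
    have jS : 3 * A + 12 * M1 * D + (3 * C0 ^ 2 * M2 + 1) * B =
        ∫ y in Ioi (0 : ℝ), (3 * (y ^ 9 / w60 y * (y * g y) ^ 2 * f2 y ^ 2) +
          12 * M1 * (y ^ 9 / w60 y * ((y * g y) ^ 2 / (1 + y ^ 2)) * f1 y ^ 2) +
          (3 * C0 ^ 2 * M2 + 1) * (y ^ 9 / w60 y * f y ^ 2)) := by
      rw [hA, hB, hD, ← integral_const_mul, ← integral_const_mul, ← integral_const_mul]
      have e5 := integral_add (jA.add jD) jB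
      have e6 := integral_add jA jD
      simp only [Pi.add_apply] at e5 e6
      rw [e5, e6]
    rw [jS]
    refine setIntegral_mono_on iL ((jA.add jD).add jB) measurableSet_Ioi (fun y hy => ?_)
    have hy0 : 0 < y := hy
    have h3 := hwn y hy0
    have hy1 : 0 < 1 + y ^ 2 := by positivity
    have hG : (y * g y) ^ 2 ≤ C0 ^ 2 * y ^ 2 := by
      have g0 : 0 ≤ g y := hg.c0_pos.le.trans (hg.lower y hy0.le)
      have g1 := hg.upper y hy0.le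
      rw [mul_pow]
      have : g y ^ 2 ≤ C0 ^ 2 := by gcongr
      nlinarith [sq_nonneg y]
    have k1 : (deriv (deriv ζ) y * f y + 2 * (deriv ζ y * f1 y) + ζ y * f2 y) ^ 2 ≤
        3 * (deriv (deriv ζ) y ^ 2 * f y ^ 2) + 12 * (deriv ζ y ^ 2 * f1 y ^ 2) +
          3 * (ζ y ^ 2 * f2 y ^ 2) := by
      nlinarith [sq_nonneg (deriv (deriv ζ) y * f y - 2 * (deriv ζ y * f1 y)),
        sq_nonneg (2 * (deriv ζ y * f1 y) - ζ y * f2 y),
        sq_nonneg (deriv (deriv ζ) y * f y - ζ y * f2 y)]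
    have k2 : (y * g y) ^ 2 * deriv (deriv ζ) y ^ 2 ≤ C0 ^ 2 * M2 := by
      calc (y * g y) ^ 2 * deriv (deriv ζ) y ^ 2 ≤ C0 ^ 2 * y ^ 2 * deriv (deriv ζ) y ^ 2 :=
            mul_le_mul_of_nonneg_right hG (sq_nonneg _)
        _ = C0 ^ 2 * (y * deriv (deriv ζ) y) ^ 2 := by ring
        _ ≤ C0 ^ 2 * M2 := mul_le_mul_of_nonneg_left (h2 y hy0) (sq_nonneg _)
    have k3 : (y * g y) ^ 2 * deriv ζ y ^ 2 ≤ M1 * ((y * g y) ^ 2 / (1 + y ^ 2)) := by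
      have : deriv ζ y ^ 2 ≤ M1 / (1 + y ^ 2) := by
        rw [le_div_iff₀ hy1]; exact h1 y hy0
      calc (y * g y) ^ 2 * deriv ζ y ^ 2 ≤ (y * g y) ^ 2 * (M1 / (1 + y ^ 2)) :=
            mul_le_mul_of_nonneg_left this (sq_nonneg _)
        _ = _ := by ring
    have k4 : (y * g y) ^ 2 * ζ y ^ 2 ≤ (y * g y) ^ 2 :=
      mul_le_of_le_one_right (sq_nonneg _) (h0 y hy0)
    have k5 : (ζ y * f y) ^ 2 ≤ f y ^ 2 := by
      rw [mul_pow]; exact mul_le_of_le_one_left (sq_nonneg _) (h0 y hy0)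
    have k6 : (y * g y) ^ 2 * (deriv (deriv ζ) y * f y + 2 * (deriv ζ y * f1 y) + ζ y * f2 y) ^ 2 +
        (ζ y * f y) ^ 2 ≤ 3 * ((y * g y) ^ 2 * f2 y ^ 2) +
          12 * M1 * (((y * g y) ^ 2 / (1 + y ^ 2)) * f1 y ^ 2) +
          (3 * C0 ^ 2 * M2 + 1) * f y ^ 2 := by
      have l1 := mul_le_mul_of_nonneg_left k1 (sq_nonneg (y * g y))
      have l2 := mul_le_mul_of_nonneg_right k2 (sq_nonneg (f y))
      have l3 := mul_le_mul_of_nonneg_right k3 (sq_nonneg (f1 y))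
      have l4 := mul_le_mul_of_nonneg_right k4 (sq_nonneg (f2 y))
      have l5 : (y * g y) ^ 2 * (3 * (deriv (deriv ζ) y ^ 2 * f y ^ 2) +
          12 * (deriv ζ y ^ 2 * f1 y ^ 2) + 3 * (ζ y ^ 2 * f2 y ^ 2)) =
          3 * ((y * g y) ^ 2 * deriv (deriv ζ) y ^ 2 * f y ^ 2) +
          12 * ((y * g y) ^ 2 * deriv ζ y ^ 2 * f1 y ^ 2) +
          3 * ((y * g y) ^ 2 * ζ y ^ 2 * f2 y ^ 2) := by ring
      have l6 : M1 * ((y * g y) ^ 2 / (1 + y ^ 2)) * f1 y ^ 2 =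
          M1 * (((y * g y) ^ 2 / (1 + y ^ 2)) * f1 y ^ 2) := by ring
      have l7 : 12 * M1 * (((y * g y) ^ 2 / (1 + y ^ 2)) * f1 y ^ 2) =
          12 * (M1 * (((y * g y) ^ 2 / (1 + y ^ 2)) * f1 y ^ 2)) := by ring
      have l8 : (3 * C0 ^ 2 * M2 + 1) * f y ^ 2 = 3 * (C0 ^ 2 * M2 * f y ^ 2) + f y ^ 2 := by ring
      rw [l5] at l1
      rw [l6] at l3
      rw [l7, l8]
      linarith
    calc y ^ 9 / w60 y * ((y * g y) ^ 2 *
        (deriv (deriv ζ) y * f y + 2 * (deriv ζ y * f1 y) + ζ y * f2 y) ^ 2 + (ζ y * f y) ^ 2)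
        ≤ y ^ 9 / w60 y * (3 * ((y * g y) ^ 2 * f2 y ^ 2) +
          12 * M1 * (((y * g y) ^ 2 / (1 + y ^ 2)) * f1 y ^ 2) +
          (3 * C0 ^ 2 * M2 + 1) * f y ^ 2) := mul_le_mul_of_nonneg_left k6 h3
      _ = _ := by ring
  refine hmain.trans ?_
  have hC2 : 0 ≤ C0 ^ 2 * M2 := by positivity
  have l1 : D ≤ A + K * B := by
    have : K * B' ≤ K * B := mul_le_mul_of_nonneg_left hBB hK0
    linarith
  have l2 := mul_le_mul_of_nonneg_left l1 hM1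
  have l3 : 0 ≤ M1 * K * A := by positivity
  have l4 : 0 ≤ M1 * B := by positivity
  have l5 : 0 ≤ C0 ^ 2 * M2 * A := by positivity
  nlinarith [l2, l3, l4, l5]

end Crest.Agent.R213.A.Tr
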