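import Crest.Agent.R213.A.Tr3
import Crest.Agent.R213.A.StInterp

/-!
# Row 213, PART A: the inner space-time estimate in the original variables (helper795)
-/

set_option autoImplicit false

open Set MeasureTheory Filter Topology

noncomputable section

namespace Crest.Agent.R213.A

namespace Tr

variable {κ L : ℝ} {θ : ℝ → ℝ} {V ψ : ℝ → ℝ → ℝ} {a b : ℝ} {c0 C0 : ℝ} {g : ℝ → ℝ}
  {φ m : ℝ → ℝ → ℝ}

/-! ### bounds for the cutoff -/

theorem deriv_chi_zero {r : ℝ} (h : 1 / 8 < r) : deriv chi r = 0 := by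
  have : chi =ᶠ[𝓝 r] fun _ => 0 := by
    filter_upwards [Ioi_mem_nhds h] with z hz
    exact chi_zero (le_of_lt hz)
  rw [this.deriv_eq]; simp

theorem deriv2_chi_zero {r : ℝ} (h : 1 / 8 < r) : deriv (deriv chi) r = 0 := by
  have : deriv chi =ᶠ[𝓝 r] fun _ => 0 := by
    filter_upwards [Ioi_mem_nhds h] with z hz
    exact deriv_chi_zero hz
  rw [this.deriv_eq]; simp

theorem chi1_smooth : ContDiff ℝ (⊤ : ℕ∞) (deriv chi) := by
  have : ContDiff ℝ ((⊤ : ℕ∞) + 1) chi := by simpa using chi_smooth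
  exact (contDiff_succ_iff_deriv.1 this).2.2

theorem chi2_smooth : ContDiff ℝ (⊤ : ℕ∞) (deriv (deriv chi)) := by
  have : ContDiff ℝ ((⊤ : ℕ∞) + 1) (deriv chi) := by simpa using chi1_smooth
  exact (contDiff_succ_iff_deriv.1 this).2.2

theorem exists_chi_bound : ∃ B : ℝ, 0 ≤ B ∧ ∀ r, 0 < r → |deriv chi r| ≤ B ∧
    |deriv (deriv chi) r| ≤ B := by
  obtain ⟨B1, h1⟩ := (isCompact_Icc (a := (0 : ℝ)) (b := 1 / 8)).exists_bound_of_continuousOn
    chi1_smooth.continuous.continuousOn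
  obtain ⟨B2, h2⟩ := (isCompact_Icc (a := (0 : ℝ)) (b := 1 / 8)).exists_bound_of_continuousOn
    chi2_smooth.continuous.continuousOn
  refine ⟨max (max B1 B2) 0, le_max_right _ _, fun r hr => ?_⟩
  by_cases h : r ≤ 1 / 8
  · exact ⟨(h1 r ⟨hr.le, h⟩).trans ((le_max_left _ _).trans (le_max_left _ _)),
      (h2 r ⟨hr.le, h⟩).trans ((le_max_right _ _).trans (le_max_left _ _))⟩
  · rw [deriv_chi_zero (not_le.1 h), deriv2_chi_zero (not_le.1 h)]
    simp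

/-! ### integrability for `DR` functions -/

/-- the `X` density -/
def FX (g : ℝ → ℝ) (V : ℝ → ℝ → ℝ) (s y : ℝ) : ℝ :=
  y ^ 9 / w60 y * ((y * g y) ^ 2 * deriv (deriv (V s)) y ^ 2 + V s y ^ 2)

theorem integrable_strip {F G : ℝ × ℝ → ℝ} {R : ℝ}
    (hG : ContinuousOn G (univ ×ˢ Icc 0 R)) (h1 : ∀ s y, 0 < y → y < R → F (s, y) = G (s, y))
    (h2 : ∀ s y, 0 < y → R ≤ y → F (s, y) = 0) (h3 : ∀ s y, 0 < y → R < |s| → F (s, y) = 0) :
    IntegrableOn F (univ ×ˢ Ioi 0) := by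
  have e1 : IntegrableOn G (Icc (-R) R ×ˢ Icc 0 R) :=
    (hG.mono (prod_mono (subset_univ _) Subset.rfl)).integrableOn_compact
      (isCompact_Icc.prod isCompact_Icc)
  have e2 : IntegrableOn G (Icc (-R) R ×ˢ Ioo 0 R) :=
    e1.mono_set (prod_mono Subset.rfl Ioo_subset_Icc_self)
  have e3 : IntegrableOn F (Icc (-R) R ×ˢ Ioo 0 R) := by
    refine e2.congr_fun (fun p hp => ?_) (measurableSet_Icc.prod measurableSet_Ioo)
    exact (h1 p.1 p.2 hp.2.1 hp.2.2).symm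
  refine e3.of_forall_sdiff_eq_zero (MeasurableSet.univ.prod measurableSet_Ioi) ?_
  rintro ⟨s, y⟩ ⟨⟨_, hy⟩, hn⟩
  have hy0 : 0 < y := hy
  by_cases hs : R < |s|
  · exact h3 s y hy0 hs
  · refine h2 s y hy0 ?_
    by_contra hlt
    exact hn ⟨abs_le.1 (not_lt.1 hs), ⟨hy0, not_le.1 hlt⟩⟩

/-- second derivative of a `DR` function as a continuous function -/
theorem dr_second (hV : DR V) : ∃ (R : ℝ) (V2 : ℝ → ℝ → ℝ), 0 < R ∧
    ContinuousOn (fun p : ℝ × ℝ => V2 p.1 p.2) (univ ×ˢ Icc 0 R) ∧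
    ContinuousOn (fun p : ℝ × ℝ => V p.1 p.2) (univ ×ˢ Icc 0 R) ∧
    (∀ s y, 0 < y → y < R → deriv (deriv (V s)) y = V2 s y) ∧
    (∀ s y, R ≤ y → deriv (deriv (V s)) y = 0 ∧ V s y = 0) ∧
    (∀ s y, R < |s| → deriv (deriv (V s)) y = 0 ∧ V s y = 0) := by
  obtain ⟨h1, R, hR⟩ := hV
  set R' := max R 0 + 1 with hR'
  have hR0 : 0 < R' := by positivity
  have hRR : R < R' := lt_of_le_of_lt (le_max_left _ _) (by linarith)
  have hsm : Sm univ R' V := h1.mono (prod_mono Subset.rfl (fun y hy => hy.1))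
  have hsm2 : Sm univ R' (dx R' (dx R' V)) := Sm.dx isOpen_univ hR0 (Sm.dx isOpen_univ hR0 hsm)
  refine ⟨R', dx R' (dx R' V), hR0, hsm2.continuousOn, hsm.continuousOn, ?_, ?_, ?_⟩
  · intro s y hy0 hyR
    exact (dxx_eq ⟨hy0, hyR⟩).symm
  · intro s y hy
    have h2 : V s =ᶠ[𝓝 y] fun _ => 0 := by
      filter_upwards [Ioi_mem_nhds (lt_of_lt_of_le hRR hy)] with z hz
      exact hR s z (Or.inr hz)
    have h3 : deriv (V s) =ᶠ[𝓝 y] deriv (fun _ => 0) := h2.deriv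
    refine ⟨?_, hR s y (Or.inr (lt_of_lt_of_le hRR hy))⟩
    rw [h3.deriv_eq]; simp
  · intro s y hs
    have h2 : V s = fun _ => 0 := funext (fun z => hR s z (Or.inl (hRR.trans hs)))
    rw [h2]; simp

theorem integrable_FX (hg : Prof c0 C0 g) (hV : DR V) :
    IntegrableOn (fun p : ℝ × ℝ => FX g V p.1 p.2) (univ ×ˢ Ioi 0) := by
  obtain ⟨R, V2, hR, hc2, hc, h1, h2, h3⟩ := dr_second hV
  have hcg : Continuous g := hg.smooth.continuous
  refine integrable_strip (R := R) (G := fun p => p.2 ^ 9 / w60 p.2 *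
    ((p.2 * g p.2) ^ 2 * V2 p.1 p.2 ^ 2 + V p.1 p.2 ^ 2)) ?_ ?_ ?_ ?_
  · refine ContinuousOn.mul (cont_w.comp continuous_snd).continuousOn (ContinuousOn.add
      (ContinuousOn.mul ?_ (hc2.pow 2)) (hc.pow 2))
    exact ((continuous_snd.mul (hcg.comp continuous_snd)).pow 2).continuousOn
  · intro s y hy hyR
    simp only [FX, h1 s y hy hyR]
  · intro s y hy hyR
    simp only [FX, h2 s y hyR]
    ring
  · intro s y hy hs
    simp only [FX, h3 s y hs]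
    ring

theorem nXI_fubini (hg : Prof c0 C0 g) (hV : DR V) :
    nXI g V = ∫ s, ∫ y in Ioi (0 : ℝ), FX g V s y := by
  have h := integrable_FX hg hV
  unfold nXI
  rw [Measure.volume_eq_prod] at h ⊢
  have e := setIntegral_prod (fun p : ℝ × ℝ => FX g V p.1 p.2) h
  rw [Measure.restrict_univ] at e
  exact e

theorem FX_nonneg {s y : ℝ} (hy : 0 < y) : 0 ≤ FX g V s y := by
  unfold FX
  have := w60_pos y
  positivity

/-! ### the norm of the cut-off function -/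

theorem nXI_cut (hg : Prof c0 C0 g) :
    ∃ K : ℝ, 0 ≤ K ∧ ∀ (L : ℝ) (θ : ℝ → ℝ) (V : ℝ → ℝ → ℝ), 8 ≤ L → DR V →
      ContDiff ℝ (⊤ : ℕ∞) θ → (∀ τ, 0 ≤ θ τ ∧ θ τ ≤ 1) → (∀ τ, 1 ≤ τ → θ τ = 0) →
      nXI g (Vc L θ V) ≤ K * nXI g V := by
  obtain ⟨K, hK0, hK⟩ := st_interpX hg one_pos
  have hIX : IX g K := ⟨hK0, hK⟩
  obtain ⟨B, hB0, hB⟩ := exists_chi_bound
  have hM : 0 ≤ B ^ 2 := sq_nonneg B
  refine ⟨4 + 12 * B ^ 2 * (1 + K) + 3 * C0 ^ 2 * B ^ 2, by positivity,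
    fun L θ V hL hV hθ hθ1 hθ0 => ?_⟩
  set K' := 4 + 12 * B ^ 2 * (1 + K) + 3 * C0 ^ 2 * B ^ 2 with hK'
  have hK'0 : 0 ≤ K' := by positivity
  have hL0 : 0 < L := by linarith
  have hVc : DR (Vc L θ V) := dr_Vc hV hθ
  rw [nXI_fubini hg hVc, nXI_fubini hg hV, ← integral_const_mul]
  have i1 := integrable_FX hg hVc
  have i2 := integrable_FX hg hV
  rw [IntegrableOn, Measure.volume_eq_prod, ← Measure.prod_restrict, Measure.restrict_univ] at i1 i2
  refine integral_mono i1.integral_prod_left (i2.integral_prod_left.const_mul K') (fun s => ?_)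
  show ∫ y in Ioi (0 : ℝ), FX g (Vc L θ V) s y ≤ K' * ∫ y in Ioi (0 : ℝ), FX g V s y
  have hVs : ContDiffOn ℝ (⊤ : ℕ∞) (V s) (Ici 0) := by
    have : ContDiff ℝ (⊤ : ℕ∞) (fun y : ℝ => (s, y)) := by fun_prop
    exact ContDiffOn.comp (g := fun p : ℝ × ℝ => V p.1 p.2) hV.1 this.contDiffOn
      (fun y hy => ⟨mem_univ _, hy⟩)
  obtain ⟨R, hR⟩ := hV.2
  have hR' : ∀ y, R + 1 ≤ y → V s y = 0 := fun y hy => hR s y (Or.inr (by linarith))
  by_cases hs : s ≤ 0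
  · -- the cutoff vanishes
    have h1 : θ (Real.exp (-s)) = 0 := hθ0 _ (by rw [← Real.exp_zero]; exact Real.exp_le_exp.2 (by linarith))
    have h2 : Vc L θ V s = fun _ => 0 := by
      funext y; unfold Vc; rw [h1]; ring
    have h3 : ∫ y in Ioi (0 : ℝ), FX g (Vc L θ V) s y = 0 := by
      have : ∀ y, FX g (Vc L θ V) s y = 0 := fun y => by
        unfold FX; rw [h2]; simp
      simp [this]
    rw [h3]
    exact mul_nonneg hK'0 (setIntegral_nonneg measurableSet_Ioi (fun y hy => FX_nonneg hy))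
  · have hs' : 0 < s := not_le.1 hs
    set q := Real.exp (-s / 2) / L with hq
    have hq0 : 0 < q := by positivity
    have hq1 : q ≤ 1 / 8 := by
      rw [hq, div_le_div_iff₀ hL0 (by norm_num)]
      have : Real.exp (-s / 2) ≤ 1 := by
        rw [← Real.exp_zero]; exact Real.exp_le_exp.2 (by linarith)
      linarith
    set t := θ (Real.exp (-s)) with ht
    have ht0 := hθ1 (Real.exp (-s))
    have hζ : ContDiff ℝ (⊤ : ℕ∞) (fun y => t * chi (y * q)) :=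
      contDiff_const.mul (chi_smooth.comp (by fun_prop))
    have hd1 : ∀ y, deriv (fun y => t * chi (y * q)) y = t * q * deriv chi (y * q) := by
      intro y
      rw [deriv_const_mul_field, deriv_comp_mul_right']
      ring
    have hd2 : ∀ y, deriv (deriv (fun y => t * chi (y * q))) y =
        t * q ^ 2 * deriv (deriv chi) (y * q) := fun y => deriv2_scale chi t q y
    have htt : t ^ 2 ≤ 1 := by nlinarith [ht0.1, ht0.2]
    have hmain := cut1D hg hIX hM hM hVs hR' hζ ?_ ?_ ?_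
    · have e1 : ∀ y, (fun z => t * chi (z * q) * V s z) y = Vc L θ V s y := by
        intro y
        simp only [Vc, hq, ht]
        rw [mul_div_assoc]
      have e2 : (fun z => t * chi (z * q) * V s z) = Vc L θ V s := funext e1
      have e3 : ∀ y, (t * chi (y * q) * V s y) = Vc L θ V s y := e1
      simp only [e2, e3] at hmain
      exact hmain
    · intro y _
      have c0 := chi_nonneg (y * q)
      have c1 := chi_le_one (y * q)
      show (t * chi (y * q)) ^ 2 ≤ 1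
      rw [mul_pow]
      have : chi (y * q) ^ 2 ≤ 1 := by nlinarith
      nlinarith [sq_nonneg t, sq_nonneg (chi (y * q))]
    · intro y hy
      rw [hd1]
      have hyq : 0 < y * q := by positivity
      by_cases hc : 1 / 8 < y * q
      · rw [deriv_chi_zero hc]; simp only [mul_zero, ne_eq, OfNat.ofNat_ne_zero,
          not_false_eq_true, zero_pow, zero_mul]; exact hM
      · have hc' := not_lt.1 hc
        have b1 := (hB _ hyq).1
        have b2 : deriv chi (y * q) ^ 2 ≤ B ^ 2 := sq_le_sq' (by linarith [abs_le.1 b1]) (abs_le.1 b1).2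
        have b3 : (t * q * deriv chi (y * q)) ^ 2 * (1 + y ^ 2) =
            t ^ 2 * deriv chi (y * q) ^ 2 * (q ^ 2 + (y * q) ^ 2) := by ring
        rw [b3]
        have b4 : q ^ 2 + (y * q) ^ 2 ≤ 1 := by nlinarith
        have b5 : t ^ 2 * deriv chi (y * q) ^ 2 ≤ B ^ 2 := by
          nlinarith [sq_nonneg t, sq_nonneg (deriv chi (y * q))]
        calc t ^ 2 * deriv chi (y * q) ^ 2 * (q ^ 2 + (y * q) ^ 2)
            ≤ B ^ 2 * (q ^ 2 + (y * q) ^ 2) := by gcongr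
          _ ≤ B ^ 2 * 1 := by gcongr
          _ = B ^ 2 := mul_one _
    · intro y hy
      rw [hd2]
      have hyq : 0 < y * q := by positivity
      by_cases hc : 1 / 8 < y * q
      · rw [deriv2_chi_zero hc]; simp only [mul_zero, ne_eq, OfNat.ofNat_ne_zero,
          not_false_eq_true, zero_pow]; exact hM
      · have hc' := not_lt.1 hc
        have b1 := (hB _ hyq).2
        have b2 : deriv (deriv chi) (y * q) ^ 2 ≤ B ^ 2 :=
          sq_le_sq' (by linarith [abs_le.1 b1]) (abs_le.1 b1).2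
        have b3 : (y * (t * q ^ 2 * deriv (deriv chi) (y * q))) ^ 2 =
            t ^ 2 * deriv (deriv chi) (y * q) ^ 2 * (q ^ 2 * (y * q) ^ 2) := by ring
        rw [b3]
        have b4 : q ^ 2 * (y * q) ^ 2 ≤ 1 := by
          have l1 : q ^ 2 ≤ 1 := by nlinarith
          have l2 : (y * q) ^ 2 ≤ 1 := by nlinarith
          calc q ^ 2 * (y * q) ^ 2 ≤ 1 * 1 := by gcongr
            _ = 1 := one_mul 1
        have b5 : t ^ 2 * deriv (deriv chi) (y * q) ^ 2 ≤ B ^ 2 := by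
          nlinarith [sq_nonneg t, sq_nonneg (deriv (deriv chi) (y * q))]
        calc t ^ 2 * deriv (deriv chi) (y * q) ^ 2 * (q ^ 2 * (y * q) ^ 2)
            ≤ B ^ 2 * (q ^ 2 * (y * q) ^ 2) := by gcongr
          _ ≤ B ^ 2 * 1 := by gcongr
          _ = B ^ 2 := mul_one _

/-! ### the integral identities -/

theorem Om_subset : CoV.Om L ⊆ (univ ×ˢ Ioi 0 : Set (ℝ × ℝ)) := fun _ hp => ⟨mem_univ _, hp.2.1⟩

theorem nX_le (hB : Bg c0 C0 g L φ m) (hg : Prof c0 C0 g) (hV : DR V)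
    (hθ : ContDiff ℝ (⊤ : ℕ∞) θ) : nX κ L φ (Uf κ L θ V) ≤ nXI g (Vc L θ V) := by
  unfold nX
  rw [CoV.II_cov]
  have e1 : ∫ p in CoV.Om L, Real.exp (-(3 / 2) * p.1) *
      ((fun τ x => x ^ 9 * (Wt κ τ x * (φ τ x * dx L (dx L (Uf κ L θ V)) τ x) ^ 2 +
        Wt κ τ x / τ * Uf κ L θ V τ x ^ 2)) (Real.exp (-p.1)) (p.2 * Real.exp (-p.1 / 2))) =
      ∫ p in CoV.Om L, FX g (Vc L θ V) p.1 p.2 :=
    setIntegral_congr_fun (CoV.isOpen_Om L).measurableSet (fun p hp => nX_point hB hp)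
  rw [e1]
  have i1 := integrable_FX hg (dr_Vc (L := L) hV hθ)
  have e2 : nXI g (Vc L θ V) = ∫ p in (univ ×ˢ Ioi 0 : Set (ℝ × ℝ)), FX g (Vc L θ V) p.1 p.2 := rfl
  rw [e2]
  refine setIntegral_mono_set i1 ?_ (HasSubset.Subset.eventuallyLE Om_subset)
  filter_upwards [ae_restrict_mem (MeasurableSet.univ.prod measurableSet_Ioi)] with p hp
  exact FX_nonneg hp.2

theorem BB_eq (hB : Bg c0 C0 g L φ m) (h : Loc L ψ a b) (hθ1 : ∀ τ ∈ Icc a b, θ τ = 1) :
    BB L φ (Uf κ L θ V) ψ = BIn g κ V (Pf κ ψ) := by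
  unfold BB
  rw [CoV.II_cov]
  have e1 : ∫ p in CoV.Om L, Real.exp (-(3 / 2) * p.1) *
      ((fun τ x => x ^ 9 * (dt ψ τ x * Uf κ L θ V τ x +
        φ τ x ^ 2 * dx L (dx L ψ) τ x * dx L (dx L (Uf κ L θ V)) τ x)) (Real.exp (-p.1))
          (p.2 * Real.exp (-p.1 / 2))) =
      ∫ p in CoV.Om L, p.2 ^ 9 *
    (V p.1 p.2 * (-(deriv (fun s => Pf κ ψ s p.2) p.1) - (65 / 2 - κ) * Pf κ ψ p.1 p.2
        - p.2 / 2 * deriv (Pf κ ψ p.1) p.2) +
      (p.2 * g p.2) ^ 2 * deriv (deriv (V p.1)) p.2 * deriv (deriv (Pf κ ψ p.1)) p.2) :=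
    setIntegral_congr_fun (CoV.isOpen_Om L).measurableSet (fun p hp => BB_point hB h hθ1 hp)
  rw [e1]
  unfold BIn
  refine setIntegral_eq_of_subset_of_forall_sdiff_eq_zero
    (MeasurableSet.univ.prod measurableSet_Ioi) Om_subset ?_ |>.symm
  rintro ⟨s, y⟩ ⟨⟨_, hy⟩, hn⟩
  have hz := ZZ_of_not_Om h hy hn
  show y ^ 9 * (V s y * (-(deriv (fun s => Pf κ ψ s y) s) - (65 / 2 - κ) * Pf κ ψ s y
        - y / 2 * deriv (Pf κ ψ s) y) +
      (y * g y) ^ 2 * deriv (deriv (V s)) y * deriv (deriv (Pf κ ψ s)) y) = 0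
  rw [Pf_s_zero h hz, Pf_zero h hz, Pf_y_zero h hz, Pf_yy_zero h hz]
  ring

theorem nY_eq' (hB : Bg c0 C0 g L φ m) (h : Loc L ψ a b) :
    nY κ L φ ψ = nYI g (Pf κ ψ) := by
  unfold nY
  rw [CoV.II_cov]
  have e1 : ∫ p in CoV.Om L, Real.exp (-(3 / 2) * p.1) *
      ((fun τ x => x ^ 9 * ((φ τ x * dx L (dx L ψ) τ x) ^ 2 / Wt κ τ x +
    ψ τ x ^ 2 / (τ * Wt κ τ x))) (Real.exp (-p.1)) (p.2 * Real.exp (-p.1 / 2))) =
      ∫ p in CoV.Om L, p.2 ^ 9 * w60 p.2 *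
    ((p.2 * g p.2) ^ 2 * deriv (deriv (Pf κ ψ p.1)) p.2 ^ 2 + Pf κ ψ p.1 p.2 ^ 2) :=
    setIntegral_congr_fun (CoV.isOpen_Om L).measurableSet (fun p hp => nY_point hB h hp)
  rw [e1]
  unfold nYI
  refine setIntegral_eq_of_subset_of_forall_sdiff_eq_zero
    (MeasurableSet.univ.prod measurableSet_Ioi) Om_subset ?_ |>.symm
  rintro ⟨s, y⟩ ⟨⟨_, hy⟩, hn⟩
  have hz := ZZ_of_not_Om h hy hn
  show y ^ 9 * w60 y * ((y * g y) ^ 2 * deriv (deriv (Pf κ ψ s)) y ^ 2 + Pf κ ψ s y ^ 2) = 0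
  rw [Pf_zero h hz, Pf_yy_zero h hz]
  ring

/-! ### `P` is a test function in the inner variables -/

theorem dr_Pf (h : Loc L ψ a b) : DR (Pf κ ψ) := by
  have hL := h.Lpos
  constructor
  · rintro ⟨s, y⟩ ⟨_, hy⟩
    by_cases hz : (s, y) ∈ ZZ L a b
    · have h0 : (fun p : ℝ × ℝ => Pf κ ψ p.1 p.2) =ᶠ[𝓝[univ ×ˢ Ici 0] (s, y)] fun _ => 0 := by
        filter_upwards [mem_nhdsWithin_of_mem_nhds (isOpen_ZZ.mem_nhds hz)] with p hp
        exact Pf_zero h hp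
      exact contDiffWithinAt_const.congr_of_eventuallyEq h0 (Pf_zero h hz)
    · unfold ZZ at hz
      simp only [Set.mem_ofPred_eq, not_or, not_not, not_lt] at hz
      have hτ : Real.exp (-s) ∈ Ioo (0 : ℝ) 1 := ⟨Real.exp_pos _, hz.1.2.trans_lt h.b_lt⟩
      have hx : y * Real.exp (-s / 2) < L := by linarith [hz.2]
      have hy0 : 0 ≤ y := hy
      have e1 : ContDiff ℝ (⊤ : ℕ∞) (fun p : ℝ × ℝ => Real.exp (-(65 / 2 - κ) * p.1)) := by fun_prop
      have e2 : ContDiff ℝ (⊤ : ℕ∞)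
          (fun p : ℝ × ℝ => (Real.exp (-p.1), p.2 * Real.exp (-p.1 / 2))) := by fun_prop
      have e3 : ContDiffWithinAt ℝ (⊤ : ℕ∞) (fun p : ℝ × ℝ => ψ p.1 p.2) (Ioo 0 1 ×ˢ Icc 0 L)
          (Real.exp (-s), y * Real.exp (-s / 2)) :=
        h.sm _ ⟨hτ, ⟨mul_nonneg hy0 (Real.exp_pos _).le, hx.le⟩⟩
      have hA : {p : ℝ × ℝ | Real.exp (-p.1) < 1 ∧ p.2 * Real.exp (-p.1 / 2) < L} ∩
          (univ ×ˢ Ici 0) ∈ 𝓝[univ ×ˢ Ici 0] (s, y) := by
        have c1 : Continuous (fun p : ℝ × ℝ => Real.exp (-p.1)) := by fun_prop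
        have c2 : Continuous (fun p : ℝ × ℝ => p.2 * Real.exp (-p.1 / 2)) := by fun_prop
        refine inter_mem (mem_nhdsWithin_of_mem_nhds ?_) self_mem_nhdsWithin
        exact ((isOpen_lt c1 continuous_const).inter (isOpen_lt c2 continuous_const)).mem_nhds
          ⟨hτ.2, hx⟩
      have e4 : ContDiffWithinAt ℝ (⊤ : ℕ∞)
          (fun p : ℝ × ℝ => ψ (Real.exp (-p.1)) (p.2 * Real.exp (-p.1 / 2)))
          ({p : ℝ × ℝ | Real.exp (-p.1) < 1 ∧ p.2 * Real.exp (-p.1 / 2) < L} ∩ (univ ×ˢ Ici 0))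
          (s, y) := by
        refine ContDiffWithinAt.comp (g := fun p : ℝ × ℝ => ψ p.1 p.2)
          (f := fun p : ℝ × ℝ => (Real.exp (-p.1), p.2 * Real.exp (-p.1 / 2))) (s, y) e3
          e2.contDiffWithinAt ?_
        rintro ⟨r, z⟩ ⟨⟨h1, h2⟩, ⟨_, h3⟩⟩
        exact ⟨⟨Real.exp_pos _, h1⟩, ⟨mul_nonneg h3 (Real.exp_pos _).le, h2.le⟩⟩
      exact e1.contDiffWithinAt.mul (e4.mono_of_mem_nhdsWithin hA)
  · have ha := h.a_pos
    refine ⟨max (-Real.log a) (L / √a), fun s y hsy => ?_⟩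
    apply Pf_zero h
    by_contra hz
    unfold ZZ at hz
    simp only [Set.mem_ofPred_eq, not_or, not_not, not_lt] at hz
    obtain ⟨⟨h1, h2⟩, h3⟩ := hz
    have hs0 : 0 < s := by
      have : Real.exp (-s) < Real.exp 0 := by rw [Real.exp_zero]; exact h2.trans_lt h.b_lt
      have := Real.exp_lt_exp.1 this
      linarith
    have hs1 : s ≤ -Real.log a := by
      have : Real.log a ≤ -s := by
        rw [← Real.log_exp (-s)]
        exact Real.log_le_log ha h1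
      linarith
    rcases hsy with h4 | h4
    · rw [abs_of_pos hs0] at h4
      exact absurd (h4.trans_le hs1) (not_lt.2 (le_max_left _ _))
    · have hsa : 0 < √a := Real.sqrt_pos.2 ha
      have h5 : √a ≤ Real.exp (-s / 2) := by
        rw [← CoV.sqrt_exp]; exact Real.sqrt_le_sqrt h1
      have h6 : L / √a < y := lt_of_le_of_lt (le_max_right _ _) h4
      have h7 : L < y * √a := by rwa [div_lt_iff₀ hsa] at h6
      have hy0 : 0 < y := lt_trans (by positivity) h6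
      have h8 : y * √a ≤ y * Real.exp (-s / 2) := by gcongr
      linarith

end Tr

theorem transfer {c0 C0 : ℝ} {g : ℝ → ℝ} (hg : Prof c0 C0 g) {κ C : ℝ} (hC : 0 ≤ C)
    (h : InEst g κ C) : ∃ C' : ℝ, 0 ≤ C' ∧ InnerOrig c0 C0 g κ C' := by
  obtain ⟨K, hK0, hK⟩ := Tr.nXI_cut hg
  refine ⟨C * K, mul_nonneg hC hK0, ?_⟩
  intro L hL φ m hB ψ hψ hx S hS hyp
  obtain ⟨hsm, a, b, ha, hab, hb, hsupp⟩ := hψ
  have hLoc : Tr.Loc L ψ a b := ⟨by linarith, hsm, ha, hab, hb, hsupp, hx⟩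
  obtain ⟨θ, hθ, hθ1, hθ2, hθ3⟩ := Tr.exists_theta ha hab hb
  have hθ0 : ∀ τ, 1 ≤ τ → θ τ = 0 := by
    obtain ⟨a', b', _, _, h3, h4⟩ := hθ3
    intro τ hτ
    exact h4 τ (fun h5 => absurd h5.2 (not_le.2 (h3.trans_le hτ)))
  rw [Tr.nY_eq' hB hLoc, mul_assoc]
  refine h (Tr.Pf κ ψ) (Tr.dr_Pf hLoc) (K * S) (mul_nonneg hK0 hS) (fun V hV => ?_)
  have h1 := hyp (Tr.Uf κ L θ V) (Tr.tst_Uf hV hθ hθ3)
  rw [Tr.BB_eq hB hLoc hθ1] at h1
  calc BIn g κ V (Tr.Pf κ ψ) ^ 2 ≤ S * nX κ L φ (Tr.Uf κ L θ V) := h1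
    _ ≤ S * nXI g (Tr.Vc L θ V) := by
        have := Tr.nX_le (κ := κ) hB hg hV hθ
        gcongr
    _ ≤ S * (K * nXI g V) := by
        have := hK L θ V hL hV hθ hθ2 hθ0
        gcongr
    _ = K * S * nXI g V := by ring

end Crest.Agent.R213.A
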