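import Crest.Agent.R213.A.WeakOf
import Crest.Agent.R213.A.Static

/-!
# Row 213, PART A: `weak_exists`
-/

set_option autoImplicit false

open Set MeasureTheory Filter Topology

noncomputable section

namespace Crest.Agent.R213

theorem weak_exists {c0 C0 : ℝ} {g : ℝ → ℝ} (hg : Prof c0 C0 g) :
    ∃ κ ∈ Ioo (1 / 8 : ℝ) (1 / 4), ∃ L1 C : ℝ, ∀ L ≥ L1, ∀ φ m : ℝ → ℝ → ℝ, Bg c0 C0 g L φ m →
      ∀ E h : ℝ → ℝ → ℝ, Sm (Ioo 0 1) L E → Sm (Ioo 0 1) L h →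
        N2 L (Wt'' κ) E < ⊤ → N2 L (Wt κ) h < ⊤ →
      ∃ b δ : ℝ → ℝ → ℝ, Measurable (fun p : ℝ × ℝ => b p.1 p.2) ∧
        Measurable (fun p : ℝ × ℝ => δ p.1 p.2) ∧
        N2 L (Wt κ) b + N2 L (Wt' κ) δ ≤
          ENNReal.ofReal C * (N2 L (Wt κ) h + N2 L (Wt'' κ) E) ∧
        (∃ u : ℕ → ℝ → ℝ → ℝ, (∀ k, Tst L (u k)) ∧
          Tendsto (fun k => N2 L (Wt κ) (fun τ x => φ τ x * dx L (dx L (u k)) τ x - b τ x))
            atTop (𝓝 0) ∧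
          Tendsto (fun k => N2 L (Wt' κ) (fun τ x => u k τ x - δ τ x)) atTop (𝓝 0)) ∧
        (∀ ψ, Tst L ψ →
          II L (fun τ x => x ^ 9 * (dt ψ τ x * δ τ x + φ τ x * dx L (dx L ψ) τ x * b τ x)) =
            II L (fun τ x => x ^ 9 * (E τ x * ψ τ x + h τ x * φ τ x * dx L (dx L ψ) τ x))) :=
  A.weak_exists_of hg (A.inner_static hg)

end Crest.Agent.R213
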