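import Crest.Agent.R213.A.Four
import Crest.Agent.R213.A.Transfer
import Crest.Agent.R213.A.Glue
import Crest.Agent.R213.A.DualAPE

/-!
# Row 213, PART A: assembly of `weak_exists` from `inner_static` (helper795)
-/

set_option autoImplicit false

open Set MeasureTheory Filter Topology

noncomputable section

namespace Crest.Agent.R213.A

theorem weak_exists_of {c0 C0 : ℝ} {g : ℝ → ℝ} (hg : Prof c0 C0 g)
    (hst : ∃ κ ∈ Ioo (1 / 8 : ℝ) (1 / 4), ∃ C : ℝ, 0 ≤ C ∧ StEst g κ C) :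
    ∃ κ ∈ Ioo (1 / 8 : ℝ) (1 / 4), ∃ L1 C : ℝ, ∀ L ≥ L1, ∀ φ m : ℝ → ℝ → ℝ, Bg c0 C0 g L φ m →
      ∀ E h : ℝ → ℝ → ℝ, Sm (Ioo 0 1) L E → Sm (Ioo 0 1) L h →
        N2 L (Wt'' κ) E < ⊤ → N2 L (Wt κ) h < ⊤ →
      ∃ b δ : ℝ → ℝ → ℝ, Measurable (fun p : ℝ × ℝ => b p.1 p.2) ∧
        Measurable (fun p : ℝ × ℝ => δ p.1 p.2) ∧
        N2 L (Wt κ) b + N2 L (Wt' κ) δ ≤
          ENNReal.ofReal C * (N2 L (Wt κ) h + N2 L (Wt'' κ) E) ∧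
        (∃ u : ℕ → ℝ → ℝ → ℝ, (∀ k, Tst L (u k)) ∧
          Tendsto (fun k => N2 L (Wt κ) (fun τ x => φ τ x * dx L (dx L (u k)) τ x - b τ x))
            atTop (𝓝 0) ∧
          Tendsto (fun k => N2 L (Wt' κ) (fun τ x => u k τ x - δ τ x)) atTop (𝓝 0)) ∧
        (∀ ψ, Tst L ψ →
          II L (fun τ x => x ^ 9 * (dt ψ τ x * δ τ x + φ τ x * dx L (dx L ψ) τ x * b τ x)) =
            II L (fun τ x => x ^ 9 * (E τ x * ψ τ x + h τ x * φ τ x * dx L (dx L ψ) τ x))) := by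
  obtain ⟨κ, hκ, Cs, hCs, hS⟩ := hst
  obtain ⟨Ct, hCt, hT⟩ := transfer hg hCs (four hg hCs hS)
  obtain ⟨L1, C, hC, _, hG⟩ := glue hg hκ hCt hT
  exact ⟨κ, hκ, L1, C, fun L hL φ m hB => dual hB hC (hG L hL φ m hB)⟩

end Crest.Agent.R213.A
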